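import Vale.Agent.P214.R2.Pieces
import Vale.Agent.P214.LOC.WhitCor
import Vale.Agent.P214.EX.Step
import Vale.Agent.P214.DEN.C

/-!
# P214, block R2-S: uniform cells at scale `r`, sum over the split cells

* `Cells A r C P χ`: partition of unity by `C/r`-Lipschitz functions, supported in balls of radius
  `r` centred at `P ⊆ A`, equal to `1` on `A`, with separated centres; `exists_cells`;
* `Cells.sum_exc_le`: bounded overlap for the excess; `ffl_sum`: decomposition of the fluctuation;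
* `sum_split_le`: the sum of the fluctuations over the cells where the cylinder splits.
-/

open Set Filter Topology MeasureTheory Metric Module
open scoped RealInnerProductSpace ENNReal

set_option linter.all false

namespace Vale.Agent.P214.R2

open Vale.Agent.P214.Skel

section cells

variable {F : Type*} [NormedAddCommGroup F] [InnerProductSpace ℝ F] [FiniteDimensional ℝ F]

/-- uniform cells at scale `r` -/
structure Cells (A : Set F) (r C : ℝ) (P : Finset F) (χ : F → F → ℝ) : Prop where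
  pos : 0 < r
  sub : (P : Set F) ⊆ A
  nonneg : ∀ p ∈ P, ∀ x, 0 ≤ χ p x
  le_one : ∀ p ∈ P, ∀ x, χ p x ≤ 1
  supp : ∀ p ∈ P, ∀ x, r ≤ dist x p → χ p x = 0
  lip : ∀ p ∈ P, ∀ x y, |χ p x - χ p y| ≤ C / r * dist x y
  sum_le : ∀ x, ∑ p ∈ P, χ p x ≤ 1
  sum_one : ∀ x ∈ A, ∑ p ∈ P, χ p x = 1
  sep : ∀ c ∈ P, ∀ d ∈ P, c ≠ d → r / 4 ≤ dist c d

variable (F) in
theorem exists_cells : ∃ C : ℝ, 1 ≤ C ∧ ∀ (A : Set F) (r : ℝ), Bornology.IsBounded A → 0 < r →
    ∃ (P : Finset F) (χ : F → F → ℝ), Cells A r C P χ := by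
  obtain ⟨C, hC1, H⟩ := LOC.whitney' F
  refine ⟨C, hC1, fun A r hA hr => ?_⟩
  obtain ⟨P, χ, h1, h2, h3, h4, h5, h6, h7, h8, ⟨U, hU, hAU, hU1⟩, h10, h11⟩ :=
    H A (fun _ => r) r hA hr (fun _ => le_rfl) (fun x y => by
      rw [sub_self, abs_zero]; positivity)
  refine ⟨P, χ, hr, h1, fun p hp x => (h3 p hp x).1, fun p hp x => (h3 p hp x).2, h4, h5, h8,
    fun x hx => hU1 x (hAU hx), fun c hc d hd hcd => ?_⟩
  have := h11 c hc d hd hcd
  linarith

variable {A : Set F} {r C : ℝ} {P : Finset F} {χ : F → F → ℝ}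

/-- the overlap constant for the balls of radius `K r` -/
noncomputable def ovl (F : Type*) [NormedAddCommGroup F] [NormedSpace ℝ F] (K : ℝ) : ℝ :=
  (8 * K + 1) ^ finrank ℝ F

lemma Cells.card_le (h : Cells A r C P χ) {K : ℝ} (hK : 0 ≤ K) (x : F) :
    ((P.filter fun p => dist x p ≤ K * r).card : ℝ) ≤ ovl F K := by
  have hr := h.pos
  have := BES.card_le_of_sep (P.filter fun p => dist x p ≤ K * r) x (t := r / 4) (R := 4 * K)
    (by positivity) (by positivity)
    (fun p hp => by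
      have := (Finset.mem_filter.1 hp).2
      rw [dist_comm] at this
      linarith)
    (fun c hc d hd hcd => h.sep c (Finset.mem_filter.1 hc).1 d (Finset.mem_filter.1 hd).1 hcd)
  unfold ovl
  refine this.trans (le_of_eq ?_)
  congr 1; ring

lemma ovl_nonneg {K : ℝ} (hK : 0 ≤ K) : 0 ≤ ovl F K := by unfold ovl; positivity

/-- **bounded overlap, integrated**: for a nonnegative integrable function on any space over `F` -/
theorem Cells.sum_integral_le (h : Cells A r C P χ) {K : ℝ} (hK : 0 ≤ K) {Ω : Type*}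
    [MeasurableSpace Ω] (μ : Measure Ω) (X : Ω → F) (P' : Finset F) (hP' : P' ⊆ P)
    (B : F → Set Ω) (hB : ∀ p ∈ P', ∀ w ∈ B p, dist (X w) p ≤ K * r)
    (hBm : ∀ p ∈ P', MeasurableSet (B p)) (U : Set Ω) (hU : MeasurableSet U)
    (hBU : ∀ p ∈ P', B p ⊆ U) (f : Ω → ℝ) (hf : IntegrableOn f U μ)
    (hf0 : ∀ᵐ w ∂μ.restrict U, 0 ≤ f w) :
    ∑ p ∈ P', ∫ w in B p, f w ∂μ ≤ ovl F K * ∫ w in U, f w ∂μ := by
  classical
  have h1 : ∀ p ∈ P', ∫ w in B p, f w ∂μ = ∫ w in U, (B p).indicator f w ∂μ := by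
    intro p hp
    rw [integral_indicator (hBm p hp), Measure.restrict_restrict (hBm p hp),
      inter_eq_self_of_subset_left (hBU p hp)]
  rw [Finset.sum_congr rfl h1, ← integral_finset_sum P' (fun p hp => hf.indicator (hBm p hp)),
    ← integral_const_mul]
  refine integral_mono_ae (integrable_finset_sum P' fun p hp => hf.indicator (hBm p hp))
    (hf.const_mul _) ?_
  filter_upwards [hf0] with w hw
  have e1 : ∑ p ∈ P', (B p).indicator f w = ∑ p ∈ P'.filter (fun p => w ∈ B p), f w := by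
    rw [Finset.sum_filter]
    exact Finset.sum_congr rfl fun p _ => by by_cases hx : w ∈ B p <;> simp [hx]
  rw [e1, Finset.sum_const, nsmul_eq_mul]
  refine mul_le_mul_of_nonneg_right ?_ hw
  refine le_trans ?_ (h.card_le hK (X w))
  exact_mod_cast Finset.card_le_card (fun p hp => by
    rw [Finset.mem_filter] at hp ⊢
    exact ⟨hP' hp.1, hB p hp.1 w hp.2⟩)

end cells

variable {E : Type*} [NormedAddCommGroup E] [InnerProductSpace ℝ E] [FiniteDimensional ℝ E]
  [MeasurableSpace E] [BorelSpace E]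
variable {m Q : ℕ} {T : Submodule ℝ E} {G : Set E} {h : ℝ} {ν : Measure E} {P : E → E →L[ℝ] E}
variable {A : Set E} {r C : ℝ} {N : Finset E} {χ : E → E → ℝ}

/-- bounded overlap for the excess over the balls of radius `K r` -/
theorem Cells.sum_exc_le (hN : Cells A r C N χ) (hC : FV.CylStat m T G h ν P) {K : ℝ}
    (hK : 0 ≤ K) {N' : Finset E} (hN' : N' ⊆ N) {z : E} {R : ℝ}
    (hR : ∀ p ∈ N', K * r + dist p z ≤ R) :
    ∑ p ∈ N', exc T ν P p (K * r) ≤ ovl E K * exc T ν P z R := by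
  refine hN.sum_integral_le hK ν (fun y => T.starProjection y) N' hN' (fun p => cylSet T p (K * r))
    (fun p _ w hw => le_of_lt hw) (fun p _ => measurableSet_cylSet T _ _) (cylSet T z R)
    (measurableSet_cylSet T _ _) (fun p hp => cylSet_mono (hR p hp)) _
    (integrable_tilt' hC).integrableOn (ae_restrict_of_ae (tilt_nonneg_ae hC))

/-- a continuous function with bounded support is integrable over the plane -/
lemma integrableOn_plane (hT : finrank ℝ T = m) {φ : E → ℝ} (hφ : Continuous φ) {D : ℝ}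
    (hb : ∀ x, |φ x| ≤ D) {z : E} {R : ℝ} (hs : ∀ x, R ≤ dist x z → φ x = 0) :
    IntegrableOn φ (T : Set E) (μH[m] : Measure E) := by
  have h1 : IntegrableOn φ ((T : Set E) ∩ closedBall 0 (R + ‖z‖)) (μH[m] : Measure E) := by
    refine Measure.integrableOn_of_bounded (M := D) (DEN.locallyFinite_plane hT _).ne
      hφ.aestronglyMeasurable (ae_of_all _ fun x => ?_)
    rw [Real.norm_eq_abs]; exact hb x
  refine IntegrableOn.of_forall_diff_eq_zero h1 ?_ ?_
  · exact (Submodule.closed_of_finiteDimensional T).measurableSet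
  · rintro x ⟨hx, hx'⟩
    refine hs x ?_
    by_contra hcon
    push Not at hcon
    refine hx' ⟨hx, ?_⟩
    rw [mem_closedBall, dist_zero_right]
    calc ‖x‖ = ‖(x - z) + z‖ := by rw [sub_add_cancel]
      _ ≤ ‖x - z‖ + ‖z‖ := norm_add_le _ _
      _ ≤ R + ‖z‖ := by rw [← dist_eq_norm]; gcongr

/-- homogeneity of the fluctuation -/
lemma ffl_smul (c : ℝ) (φ : E → ℝ) :
    Ffl m Q T ν P (fun x => c * φ x) = c * Ffl m Q T ν P φ := by
  unfold Ffl
  simp only [mul_assoc]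
  rw [integral_const_mul, integral_const_mul]
  ring

/-- the fluctuation of a finite sum -/
lemma ffl_sum (hC : FV.CylStat m T G h ν P) (N : Finset E) {f : E → E → ℝ}
    (hf : ∀ p ∈ N, Continuous (f p)) {D : ℝ} (hb : ∀ p ∈ N, ∀ x, |f p x| ≤ D) {R : ℝ}
    (hs : ∀ p ∈ N, ∀ x, R ≤ dist x p → f p x = 0) :
    Ffl m Q T ν P (fun x => ∑ p ∈ N, f p x) = ∑ p ∈ N, Ffl m Q T ν P (f p) := by
  have h1 : ∫ y, (∑ p ∈ N, f p (T.starProjection y)) * (1 - FV.tilt T (P y) / 2) ∂ν
      = ∑ p ∈ N, ∫ y, f p (T.starProjection y) * (1 - FV.tilt T (P y) / 2) ∂ν := by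
    rw [← integral_finset_sum]
    · exact integral_congr_ae (Eventually.of_forall fun y => by simp only [Finset.sum_mul])
    · exact fun p hp => integrable_fl hC (hf p hp) (hb p hp)
  have h2 : ∫ x in (T : Set E), ∑ p ∈ N, f p x ∂(μH[m] : Measure E)
      = ∑ p ∈ N, ∫ x in (T : Set E), f p x ∂(μH[m] : Measure E) := by
    rw [← integral_finset_sum]
    exact fun p hp => integrableOn_plane hC.dimT (hf p hp) (hb p hp) (hs p hp)
  unfold Ffl
  rw [h1, h2, Finset.mul_sum, ← Finset.sum_sub_distrib]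

/-- **decomposition of the fluctuation over the cells** -/
theorem Cells.ffl_eq_sum (hN : Cells A r C N χ) (hC : FV.CylStat m T G h ν P) {ρ : E → ℝ}
    (hρ : Continuous ρ) {D : ℝ} (hb : ∀ x, |ρ x| ≤ D) (hs : ∀ x, x ∉ A → ρ x = 0) :
    Ffl m Q T ν P ρ = ∑ p ∈ N, Ffl m Q T ν P (fun x => ρ x * χ p x) := by
  have hr := hN.pos
  have h1 : ρ = fun x => ∑ p ∈ N, ρ x * χ p x := by
    funext x
    rw [← Finset.mul_sum]
    by_cases hx : x ∈ A
    · rw [hN.sum_one x hx, mul_one]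
    · rw [hs x hx, zero_mul]
  have hχc : ∀ p ∈ N, Continuous (χ p) := fun p hp => by
    refine LipschitzWith.continuous (K := Real.toNNReal (C / r))
      (LipschitzWith.of_dist_le_mul fun x y => ?_)
    rw [Real.dist_eq]
    refine (hN.lip p hp x y).trans ?_
    gcongr
    exact Real.le_coe_toNNReal _
  have h2 := ffl_sum (Q := Q) (f := fun p x => ρ x * χ p x) hC N
    (fun p hp => hρ.mul (hχc p hp)) (D := D) (fun p hp x => by
      rw [abs_mul, abs_of_nonneg (hN.nonneg p hp x)]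
      calc |ρ x| * χ p x ≤ |ρ x| * 1 := by
            gcongr; exact hN.le_one p hp x
        _ ≤ D := by rw [mul_one]; exact hb x) (R := r) (fun p hp x hx => by
      simp only [hN.supp p hp x hx, mul_zero])
  rw [← h2, ← h1]

/-- `ρ χ_p / (C+1)` is a test function at scale `r` -/
lemma Cells.test (hN : Cells A r C N χ) (hC1 : 1 ≤ C) {p : E} (hp : p ∈ N) {ρ : E → ℝ}
    (h0 : ∀ x, 0 ≤ ρ x) (h1 : ∀ x, ρ x ≤ 1)
    (hl : ∀ x ∈ ball p r, ∀ y ∈ ball p r, |ρ x - ρ y| ≤ r⁻¹ * dist x y) :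
    BaseTest T p r (fun x => (C + 1)⁻¹ * (ρ x * χ p x)) where
  nonneg x := by have := h0 x; have := hN.nonneg p hp x; positivity
  le_one x := by
    have e1 : (C + 1)⁻¹ ≤ 1 := inv_le_one_of_one_le₀ (by linarith)
    have e0 : 0 ≤ (C + 1)⁻¹ := by positivity
    have e2 : ρ x * χ p x ≤ 1 := by
      calc ρ x * χ p x ≤ 1 * 1 :=
            mul_le_mul (h1 x) (hN.le_one p hp x) (hN.nonneg p hp x) zero_le_one
        _ = 1 := one_mul _
    calc (C + 1)⁻¹ * (ρ x * χ p x) ≤ 1 * 1 :=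
          mul_le_mul e1 e2 (mul_nonneg (h0 x) (hN.nonneg p hp x)) zero_le_one
      _ = 1 := one_mul _
  supp x hx := by
    rw [← dist_eq_norm] at hx
    rw [hN.supp p hp x hx, mul_zero, mul_zero]
  lip x y := by
    have hr := hN.pos
    have key : ∀ x y, |ρ x * χ p x - ρ y * χ p y| ≤ (C + 1) / r * dist x y := by
      have far : ∀ x y, r ≤ dist y p → |ρ x * χ p x - ρ y * χ p y| ≤ (C + 1) / r * dist x y := by
        intro x y hy
        have e1 : χ p y = 0 := hN.supp p hp y hy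
        have e2 : ρ x * χ p x - ρ y * χ p y = ρ x * (χ p x - χ p y) := by rw [e1]; ring
        rw [e2, abs_mul, abs_of_nonneg (h0 x)]
        calc ρ x * |χ p x - χ p y| ≤ 1 * (C / r * dist x y) :=
              mul_le_mul (h1 x) (hN.lip p hp x y) (abs_nonneg _) zero_le_one
          _ ≤ (C + 1) / r * dist x y := by rw [one_mul]; gcongr; linarith
      intro x y
      by_cases hy : r ≤ dist y p
      · exact far x y hy
      by_cases hx : r ≤ dist x p
      · rw [abs_sub_comm, dist_comm]; exact far y x hx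
      push Not at hx hy
      have e2 : ρ x * χ p x - ρ y * χ p y = ρ x * (χ p x - χ p y) + (ρ x - ρ y) * χ p y := by ring
      rw [e2]
      refine (abs_add_le _ _).trans ?_
      rw [abs_mul, abs_mul, abs_of_nonneg (h0 x), abs_of_nonneg (hN.nonneg p hp y)]
      have e3 : ρ x * |χ p x - χ p y| ≤ 1 * (C / r * dist x y) :=
        mul_le_mul (h1 x) (hN.lip p hp x y) (abs_nonneg _) zero_le_one
      have e4 : |ρ x - ρ y| * χ p y ≤ (r⁻¹ * dist x y) * 1 :=
        mul_le_mul (hl x hx y hy) (hN.le_one p hp y) (hN.nonneg p hp y) (by positivity)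
      calc _ ≤ 1 * (C / r * dist x y) + (r⁻¹ * dist x y) * 1 := add_le_add e3 e4
        _ = (C + 1) / r * dist x y := by field_simp
    rw [← mul_sub, abs_mul, abs_of_nonneg (by positivity), ← dist_eq_norm]
    have hC0 : 0 < C + 1 := by linarith
    calc (C + 1)⁻¹ * |ρ x * χ p x - ρ y * χ p y| ≤ (C + 1)⁻¹ * ((C + 1) / r * dist x y) := by
          gcongr; exact key x y
      _ = r⁻¹ * dist x y := by field_simp

/-- a function which is log-Lipschitz at scale `r` is Lipschitz on the cells -/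
lemma lip_of_logLip {Ω : Set E} {ρ : E → ℝ} (hr : 0 < r) (hl : EX.LogLip Ω r ρ)
    (h1 : ∀ x, ρ x ≤ 1) {p : E} (hp : ball p r ⊆ Ω) :
    ∀ x ∈ ball p r, ∀ y ∈ ball p r, |ρ x - ρ y| ≤ r⁻¹ * dist x y := by
  intro x hx y hy
  have hxy : dist x y ≤ 4 * r := by
    have := dist_triangle_right x y p
    rw [mem_ball] at hx hy
    linarith
  refine (hl x (hp hx) y (hp hy) hxy).trans ?_
  have h2 := h1 y
  have h3 : 0 ≤ (1 / 8) * (dist x y / r) := by positivity
  calc (1 / 8) * (dist x y / r) * ρ y ≤ (1 / 8) * (dist x y / r) * 1 := by gcongr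
    _ ≤ r⁻¹ * dist x y := by
      have e : r⁻¹ * dist x y = dist x y / r := by rw [div_eq_mul_inv, mul_comm]
      rw [mul_one, e]
      have : 0 ≤ dist x y / r := by positivity
      linarith

/-- the cylinder over `ball p s` is the sum of two integral pieces -/
def TwoPieces (m Q : ℕ) (T : Submodule ℝ E) (ν : Measure E) (P : E → E →L[ℝ] E) (h δ : ℝ)
    (p : E) (s : ℝ) : Prop :=
  ∃ (S : Set E) (Q₁ Q₂ : ℕ), MeasurableSet S ∧ 1 ≤ Q₁ ∧ 1 ≤ Q₂ ∧ Q₁ + Q₂ = Q ∧
    IntCyl m Q₁ T p s h δ (ν.restrict S) P ∧ IntCyl m Q₂ T p s h δ (ν.restrict Sᶜ) P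

/-- **The split cells**: the sum of the fluctuations over the cells (scale `r`) over which the
cylinder is the sum of two pieces. -/
theorem sum_split_le (hind : ∀ Q', 1 ≤ Q' → Q' < Q → RateFlat E m Q') {A' : ℝ} (hA' : 0 < A')
    {Cc : ℝ} (hCc : 1 ≤ Cc) :
    ∃ C ε : ℝ, 0 < C ∧ 0 < ε ∧ ε ≤ 1 / 2 ∧ ∀ (T : Submodule ℝ E) (G : Set E) (z : E)
      (R r h h' b : ℝ) (ν : Measure E) (P : E → E →L[ℝ] E) (A : Set E) (N N' : Finset E)
      (χ : E → E → ℝ) (ρ : E → ℝ),
      FV.CylStat m T G h' ν P → Cells A r Cc N χ → N' ⊆ N → (∀ p ∈ N', 2 * r + dist p z ≤ R) →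
      exc T ν P z R ≤ b * r ^ m → 0 < b → b ≤ ε →
      (∀ x, 0 ≤ ρ x) → (∀ x, ρ x ≤ 1) →
      (∀ p ∈ N', ∀ x ∈ ball p r, ∀ y ∈ ball p r, |ρ x - ρ y| ≤ r⁻¹ * dist x y) →
      (∀ p ∈ N', TwoPieces m Q T ν P h ε p (2 * r)) →
      ∑ p ∈ N', Ffl m Q T ν P (fun x => ρ x * χ p x) ≤
        C * (Real.log b⁻¹) ^ (-A') * exc T ν P z R := by
  obtain ⟨C, ε, hC, hε, hε1, H⟩ := rate_of_pieces (E := E) (m := m) hind hA'
  refine ⟨(Cc + 1) * (C * ovl E 2) + 1, ε, ?_, hε, hε1, ?_⟩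
  · have := ovl_nonneg (F := E) (K := 2) (by norm_num); positivity
  intro T G z R r h h' b ν P A N N' χ ρ hCy hN hN' hR hexc hb hbε h0 h1 hl hsplit
  have hr := hN.pos
  have hrm : 0 < r ^ m := pow_pos hr m
  have hC0 : 0 < Cc + 1 := by linarith
  have hlog : 0 ≤ Real.log b⁻¹ := by
    rw [Real.log_inv, neg_nonneg]
    exact Real.log_nonpos hb.le (by linarith)
  have hG : 0 ≤ (Real.log b⁻¹) ^ (-A') := Real.rpow_nonneg hlog _
  have hcell : ∀ p ∈ N', Ffl m Q T ν P (fun x => ρ x * χ p x) ≤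
      (Cc + 1) * (C * (Real.log b⁻¹) ^ (-A') * exc T ν P p (2 * r)) := by
    intro p hp
    obtain ⟨S, Q₁, Q₂, hS, hQ₁, hQ₂, hQ, hI₁, hI₂⟩ := hsplit p hp
    have hle : exc T ν P p (2 * r) ≤ exc T ν P z R := exc_mono hCy (hR p hp)
    have e0 : 0 ≤ exc T ν P p (2 * r) := exc_nonneg hCy _ _
    have k1 := H T G p r h h' ν P _ S Q₁ Q₂ hCy hS hQ₁ hQ₂ hQ hI₁ hI₂
      ((hle.trans hexc).trans (by gcongr)) (hN.test hCc (hN' hp) h0 h1 (hl p hp))
    have k2 := rate_mono_arg (C := C) hA' hC.le hrm e0 (hle.trans hexc) (by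
      rw [mul_div_assoc, div_self hrm.ne', mul_one]; linarith)
    rw [mul_div_assoc, div_self hrm.ne', mul_one] at k2
    have k3 := k1.trans k2
    rw [ffl_smul] at k3
    have k4 := mul_le_mul_of_nonneg_left k3 hC0.le
    rw [← mul_assoc, mul_inv_cancel₀ hC0.ne', one_mul] at k4
    exact k4
  refine (Finset.sum_le_sum hcell).trans ?_
  rw [← Finset.mul_sum, ← Finset.mul_sum]
  have hsum := hN.sum_exc_le hCy (K := 2) (by norm_num) hN' (z := z) (R := R) hR
  have e1 : 0 ≤ exc T ν P z R := exc_nonneg hCy _ _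
  have hov := ovl_nonneg (F := E) (K := 2) (by norm_num)
  calc (Cc + 1) * (C * (Real.log b⁻¹) ^ (-A') * ∑ p ∈ N', exc T ν P p (2 * r))
      ≤ (Cc + 1) * (C * (Real.log b⁻¹) ^ (-A') * (ovl E 2 * exc T ν P z R)) := by gcongr
    _ = ((Cc + 1) * (C * ovl E 2)) * (Real.log b⁻¹) ^ (-A') * exc T ν P z R := by ring
    _ ≤ ((Cc + 1) * (C * ovl E 2) + 1) * (Real.log b⁻¹) ^ (-A') * exc T ν P z R := by
        gcongr; linarith

end Vale.Agent.P214.R2
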