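import Vale.Agent.P214.Skel.Defs
import Vale.Agent.P214.TH.Bump

/-!
# P214, block R2-GEO: elementary facts about `Skel.exc`, `Skel.Ffl`, `Skel.IntCyl`
-/

open Set Filter Topology MeasureTheory Metric
open scoped RealInnerProductSpace ENNReal

set_option linter.all false

namespace Vale.Agent.P214.R2

open Vale.Agent.P214.Skel

variable {E : Type*} [NormedAddCommGroup E] [InnerProductSpace ℝ E] [FiniteDimensional ℝ E]
  [MeasurableSpace E] [BorelSpace E]
variable {m Q : ℕ} {T : Submodule ℝ E} {G : Set E} {h : ℝ} {ν : Measure E} {P : E → E →L[ℝ] E}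

omit [MeasurableSpace E] [BorelSpace E] in
lemma isOpen_cylSet (T : Submodule ℝ E) (z : E) (R : ℝ) : IsOpen (cylSet T z R) :=
  isOpen_ball.preimage T.starProjection.continuous

lemma measurableSet_cylSet (T : Submodule ℝ E) (z : E) (R : ℝ) : MeasurableSet (cylSet T z R) :=
  (isOpen_cylSet T z R).measurableSet

omit [MeasurableSpace E] [BorelSpace E] in
lemma cylSet_mono {x z : E} {s R : ℝ} (h : s + dist x z ≤ R) : cylSet T x s ⊆ cylSet T z R :=
  fun y hy => ball_subset_ball' h hy

lemma tilt_nonneg_ae (hC : FV.CylStat m T G h ν P) : ∀ᵐ y ∂ν, 0 ≤ FV.tilt T (P y) := by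
  filter_upwards [ODE.CylStat.tilt_nonneg hC] with y hy
  rwa [TH.tilt_agree]

lemma tilt_le_ae (hC : FV.CylStat m T G h ν P) : ∀ᵐ y ∂ν, FV.tilt T (P y) ≤ m := by
  filter_upwards [hC.proj] with y hy
  obtain ⟨S, hS, hP⟩ := hy
  rw [hP]
  exact (FV.tilt_le S T).trans (by rw [hS])

lemma integrable_tilt' (hC : FV.CylStat m T G h ν P) : Integrable (fun y => FV.tilt T (P y)) ν := by
  refine (TH.integrable_tilt hC).congr (Eventually.of_forall fun y => ?_)
  exact (TH.tilt_agree T P y).symm

lemma exc_nonneg (hC : FV.CylStat m T G h ν P) (x : E) (s : ℝ) : 0 ≤ exc T ν P x s :=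
  integral_nonneg_of_ae (ae_restrict_of_ae (tilt_nonneg_ae hC))

/-- the (not normalised) excess is monotone in the ball -/
lemma exc_mono (hC : FV.CylStat m T G h ν P) {x z : E} {s R : ℝ} (hs : s + dist x z ≤ R) :
    exc T ν P x s ≤ exc T ν P z R :=
  setIntegral_mono_set (integrable_tilt' hC).integrableOn (ae_restrict_of_ae (tilt_nonneg_ae hC))
    (cylSet_mono hs).eventuallyLE

lemma exc_mono' (hC : FV.CylStat m T G h ν P) {x : E} {s R : ℝ} (hs : s ≤ R) :
    exc T ν P x s ≤ exc T ν P x R := exc_mono hC (by rw [dist_self, add_zero]; exact hs)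

/-- the excess splits -/
lemma exc_restrict_add (hC : FV.CylStat m T G h ν P) {A : Set E} (hA : MeasurableSet A) (x : E)
    (s : ℝ) : exc T (ν.restrict A) P x s + exc T (ν.restrict Aᶜ) P x s = exc T ν P x s := by
  have h1 := integral_add_compl (μ := ν.restrict (cylSet T x s)) hA
    (integrable_tilt' hC).integrableOn (f := fun y => FV.tilt T (P y))
  rw [exc, exc, exc, Measure.restrict_restrict (measurableSet_cylSet T x s),
    Measure.restrict_restrict (measurableSet_cylSet T x s), ← h1,
    Measure.restrict_restrict hA, Measure.restrict_restrict hA.compl, inter_comm, inter_comm Aᶜ]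

lemma BaseTest.continuous {z : E} {R : ℝ} {φ : E → ℝ} (hR : 0 < R) (h : BaseTest T z R φ) :
    Continuous φ := by
  refine LipschitzWith.continuous (K := ⟨R⁻¹, by positivity⟩)
    (LipschitzWith.of_dist_le_mul fun x y => ?_)
  rw [Real.dist_eq, dist_eq_norm]
  exact h.lip x y

/-- bounded continuous functions of the base point are integrable against the fluctuation -/
lemma integrable_fl (hC : FV.CylStat m T G h ν P) {φ : E → ℝ} (hφ : Continuous φ) {C : ℝ}
    (hb : ∀ x, |φ x| ≤ C) :
    Integrable (fun y => φ (T.starProjection y) * (1 - FV.tilt T (P y) / 2)) ν := by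
  haveI := hC.fin
  have h1 : Integrable (fun y => 1 - FV.tilt T (P y) / 2) ν :=
    (integrable_const 1).sub ((integrable_tilt' hC).div_const 2)
  refine h1.bdd_mul (c := C) (hφ.comp T.starProjection.continuous).aestronglyMeasurable ?_
  exact Eventually.of_forall fun y => by rw [Real.norm_eq_abs]; exact hb _

/-- the fluctuation functional splits -/
lemma ffl_restrict_add (hC : FV.CylStat m T G h ν P) {A : Set E} (hA : MeasurableSet A)
    {φ : E → ℝ} (hφ : Continuous φ) {C : ℝ} (hb : ∀ x, |φ x| ≤ C) {Q₁ Q₂ : ℕ}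
    (hQ : Q₁ + Q₂ = Q) :
    Ffl m Q T ν P φ = Ffl m Q₁ T (ν.restrict A) P φ + Ffl m Q₂ T (ν.restrict Aᶜ) P φ := by
  rw [Ffl, Ffl, Ffl, ← integral_add_compl hA (integrable_fl hC hφ hb), ← hQ]
  push_cast
  ring

end Vale.Agent.P214.R2
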