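import Vale.Agent.P214.EX.Cont
import Vale.Agent.P214.R2.ExcBasic
import Vale.Agent.P214.SCALE.Dil
import Vale.Agent.P214.ODE.Theta

/-!
# P214, block R2 (m = 2 and general m): the base measures of the exhaustion

`lamA - lamB` represents the fluctuation functional `Ffl` and `nuB` the tilt measure, as finite
measures on the base; `etaK K` is the kernel `K(|x|²)/K(0)`.
-/

open Set Filter Topology MeasureTheory Metric
open scoped RealInnerProductSpace ENNReal

set_option linter.all false

namespace Vale.Agent.P214.R2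

open Vale.Agent.P214.Skel Vale.Agent.P214.EX

variable {E : Type*} [NormedAddCommGroup E] [InnerProductSpace ℝ E] [FiniteDimensional ℝ E]
  [MeasurableSpace E] [BorelSpace E]
variable {m Q : ℕ} {T : Submodule ℝ E} {G : Set E} {h : ℝ} {ν : Measure E} {P : E → E →L[ℝ] E}
  {k k' K : ℝ → ℝ}

/-! ### the kernel -/

/-- the kernel of the exhaustion -/
noncomputable def etaK (K : ℝ → ℝ) (x : E) : ℝ := K (‖x‖ ^ 2) / K 0

omit [FiniteDimensional ℝ E] [MeasurableSpace E] [BorelSpace E] [InnerProductSpace ℝ E] in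
lemma K_antitone (hk : ODE.Kern k k' K) : Antitone K :=
  antitone_of_deriv_nonpos (fun s => (hk.pK.der s).differentiableAt) (fun s => by
    rw [(hk.pK.der s).deriv]; have := hk.nonneg s; linarith)

theorem isKernel_etaK (hk : ODE.Kern k k' K) (h14 : 0 < K (1 / 4)) :
    ∃ Kl, IsKernel (E := E) (etaK K) Kl (K (1 / 4) / K 0) := by
  have hanti : Antitone K := antitone_of_deriv_nonpos
    (fun s => (hk.pK.der s).differentiableAt) (fun s => by
      rw [(hk.pK.der s).deriv]; have := hk.nonneg s; linarith)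
  have hK0 : 0 < K 0 := lt_of_lt_of_le h14 (hanti (by norm_num))
  obtain ⟨C, hC0, hC⟩ := hk.pk.exists_bound
  -- the profile `s ↦ K (s²)` is Lipschitz
  have hder : ∀ s : ℝ, HasDerivAt (fun s : ℝ => K (s ^ 2)) (-(k (s ^ 2)) / 2 * (2 * s)) s := by
    intro s
    have h1 : HasDerivAt (fun s : ℝ => s ^ 2) (2 * s) s := by
      have := hasDerivAt_pow 2 s
      simpa using this
    exact (hk.pK.der (s ^ 2)).comp s h1
  have hbd : ∀ s : ℝ, ‖-(k (s ^ 2)) / 2 * (2 * s)‖ ≤ C := by
    intro s
    rw [Real.norm_eq_abs, show -(k (s ^ 2)) / 2 * (2 * s) = -(k (s ^ 2) * s) by ring, abs_neg,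
      abs_mul]
    by_cases hs : |s| ≤ 1
    · calc |k (s ^ 2)| * |s| ≤ C * 1 :=
            mul_le_mul (hC _ (sq_nonneg s)).1 hs (abs_nonneg _) hC0
        _ = C := mul_one C
    · have h1 : 1 ≤ s ^ 2 := by
        rw [← sq_abs]
        have := (not_le.1 hs).le
        nlinarith
      rw [hk.pk.zero _ h1, abs_zero, zero_mul]
      exact hC0
  have hlip : ∀ s u : ℝ, |K (s ^ 2) - K (u ^ 2)| ≤ C * |s - u| := by
    intro s u
    have := Convex.norm_image_sub_le_of_norm_hasDerivWithin_le (f := fun s : ℝ => K (s ^ 2))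
      (f' := fun s => -(k (s ^ 2)) / 2 * (2 * s)) (s := univ) (C := C) (x := u) (y := s)
      (fun x _ => (hder x).hasDerivWithinAt) (fun x _ => hbd x) convex_univ (mem_univ _)
      (mem_univ _)
    rwa [Real.norm_eq_abs, Real.norm_eq_abs] at this
  refine ⟨max 1 (C / K 0), ?_, ?_, ?_, ?_, ?_, le_max_left _ _, div_pos h14 hK0⟩
  · intro x
    exact div_nonneg (hk.K_nonneg _) hK0.le
  · intro x
    unfold etaK
    rw [div_le_one hK0]
    exact hanti (sq_nonneg _)
  · intro x hx
    unfold etaK
    rw [hk.pK.zero _ (by nlinarith), zero_div]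
  · intro x hx
    unfold etaK
    refine div_le_div_of_nonneg_right ?_ hK0.le
    refine hanti ?_
    have := norm_nonneg x
    nlinarith
  · intro x y
    unfold etaK
    rw [← sub_div, abs_div, abs_of_pos hK0, div_le_iff₀ hK0]
    calc |K (‖x‖ ^ 2) - K (‖y‖ ^ 2)| ≤ C * |‖x‖ - ‖y‖| := hlip _ _
      _ ≤ C * ‖x - y‖ := mul_le_mul_of_nonneg_left (abs_norm_sub_norm_le x y) hC0
      _ = C / K 0 * ‖x - y‖ * K 0 := by field_simp
      _ ≤ max 1 (C / K 0) * ‖x - y‖ * K 0 := by
          gcongr
          exact le_max_right _ _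

/-! ### the measures -/

/-- push-forward of `ν` in the cylinder over `ball 0 2` -/
noncomputable def lamA (T : Submodule ℝ E) (ν : Measure E) : Measure E :=
  (ν.restrict (cylSet T 0 2)).map T.starProjection

/-- push-forward of `tilt ν` in the cylinder over `ball 0 2` -/
noncomputable def nuB (T : Submodule ℝ E) (ν : Measure E) (P : E → E →L[ℝ] E) : Measure E :=
  ((ν.restrict (cylSet T 0 2)).withDensity fun y => ENNReal.ofReal (FV.tilt T (P y))).map
    T.starProjection

/-- push-forward of `(tilt / 2) ν` plus `Q` times the plane -/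
noncomputable def lamB (m Q : ℕ) (T : Submodule ℝ E) (ν : Measure E) (P : E → E →L[ℝ] E) :
    Measure E :=
  ((2 : ℝ≥0∞)⁻¹ • nuB T ν P) +
    (Q : ℝ≥0∞) • ((μH[m] : Measure E).restrict ((T : Set E) ∩ ball 0 2))

omit [MeasurableSpace E] [BorelSpace E] in
lemma measurable_starProjection [MeasurableSpace E] [BorelSpace E] (T : Submodule ℝ E) :
    Measurable (T.starProjection : E → E) := T.starProjection.continuous.measurable

instance (T : Submodule ℝ E) (ν : Measure E) [IsFiniteMeasure ν] : IsFiniteMeasure (lamA T ν) := by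
  unfold lamA; infer_instance

lemma aemeas_tilt (hC : FV.CylStat m T G h ν P) :
    AEMeasurable (fun y => FV.tilt T (P y)) ν :=
  (integrable_tilt' hC).aestronglyMeasurable.aemeasurable

lemma isFinite_nuB (hC : FV.CylStat m T G h ν P) : IsFiniteMeasure (nuB T ν P) := by
  haveI := hC.fin
  have h1 : IsFiniteMeasure ((ν.restrict (cylSet T 0 2)).withDensity
      fun y => ENNReal.ofReal (FV.tilt T (P y))) := by
    refine isFiniteMeasure_withDensity ?_
    refine (lt_of_le_of_lt ?_ (ENNReal.mul_lt_top (ENNReal.ofReal_lt_top (r := (m : ℝ)))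
      (measure_lt_top (ν.restrict (cylSet T 0 2)) univ))).ne
    rw [← lintegral_const]
    refine lintegral_mono_ae ?_
    filter_upwards [ae_restrict_of_ae (tilt_le_ae hC)] with y hy
    exact ENNReal.ofReal_le_ofReal hy
  unfold nuB
  infer_instance

lemma hausdorff_plane_lt_top (hT : Module.finrank ℝ T = m) (R : ℝ) :
    (μH[m] : Measure E) ((T : Set E) ∩ ball 0 R) < ⊤ := by
  have h1 : (T : Set E) ∩ ball 0 R = (fun x : T => (x : E)) '' (ball (0 : T) R) := by
    ext x
    constructor
    · rintro ⟨hx, hxR⟩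
      refine ⟨⟨x, hx⟩, ?_, rfl⟩
      rw [mem_ball_zero_iff] at hxR ⊢
      exact hxR
    · rintro ⟨y, hy, rfl⟩
      refine ⟨y.2, ?_⟩
      rw [mem_ball_zero_iff] at hy ⊢
      exact hy
  have h2 : Isometry (fun x : T => (x : E)) := T.subtypeₗᵢ.isometry
  rw [h1, h2.hausdorffMeasure_image (Or.inl (Nat.cast_nonneg m)), ← hT]
  exact measure_ball_lt_top

lemma isFinite_lamB (hC : FV.CylStat m T G h ν P) : IsFiniteMeasure (lamB m Q T ν P) := by
  haveI := isFinite_nuB hC
  unfold lamB
  have h1 : IsFiniteMeasure ((2 : ℝ≥0∞)⁻¹ • nuB T ν P) :=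
    Measure.smul_finite _ (ENNReal.inv_ne_top.2 (by norm_num))
  have h2 : IsFiniteMeasure ((μH[m] : Measure E).restrict ((T : Set E) ∩ ball 0 2)) :=
    ⟨by rw [Measure.restrict_apply_univ]; exact hausdorff_plane_lt_top hC.dimT 2⟩
  have h3 : IsFiniteMeasure ((Q : ℝ≥0∞) •
      ((μH[m] : Measure E).restrict ((T : Set E) ∩ ball 0 2))) :=
    Measure.smul_finite _ (ENNReal.natCast_ne_top Q)
  infer_instance

/-! ### integrals -/

lemma integral_lamA {f : E → ℝ} (hf : Measurable f) (hf0 : ∀ x, 2 ≤ ‖x‖ → f x = 0) :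
    ∫ x, f x ∂lamA T ν = ∫ y, f (T.starProjection y) ∂ν := by
  unfold lamA
  rw [integral_map (measurable_starProjection T).aemeasurable hf.aestronglyMeasurable]
  refine setIntegral_eq_integral_of_forall_compl_eq_zero fun y hy => ?_
  refine hf0 _ ?_
  by_contra hcon
  exact hy (by
    show T.starProjection y ∈ ball 0 2
    rw [mem_ball_zero_iff]
    exact not_le.1 hcon)

lemma integral_nuB (hC : FV.CylStat m T G h ν P) {f : E → ℝ} (hf : Measurable f)
    (hf0 : ∀ x, 2 ≤ ‖x‖ → f x = 0) :
    ∫ x, f x ∂nuB T ν P = ∫ y, f (T.starProjection y) * FV.tilt T (P y) ∂ν := by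
  unfold nuB
  rw [integral_map (measurable_starProjection T).aemeasurable hf.aestronglyMeasurable]
  have h1 : AEMeasurable (fun y => ENNReal.ofReal (FV.tilt T (P y)))
      (ν.restrict (cylSet T 0 2)) := (aemeas_tilt hC).ennreal_ofReal.restrict
  rw [integral_withDensity_eq_integral_toReal_smul₀ h1
    (Eventually.of_forall fun y => ENNReal.ofReal_lt_top)]
  have h2 : ∫ y in cylSet T 0 2, (ENNReal.ofReal (FV.tilt T (P y))).toReal •
      f (T.starProjection y) ∂ν
      = ∫ y in cylSet T 0 2, f (T.starProjection y) * FV.tilt T (P y) ∂ν := by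
    refine integral_congr_ae ?_
    filter_upwards [ae_restrict_of_ae (tilt_nonneg_ae hC)] with y hy
    rw [ENNReal.toReal_ofReal hy, smul_eq_mul, mul_comm]
  rw [h2]
  refine setIntegral_eq_integral_of_forall_compl_eq_zero fun y hy => ?_
  rw [hf0 (T.starProjection y), zero_mul]
  by_contra hcon
  exact hy (by
    show T.starProjection y ∈ ball 0 2
    rw [mem_ball_zero_iff]
    exact not_le.1 hcon)

lemma integral_plane {f : E → ℝ} (hf0 : ∀ x, 2 ≤ ‖x‖ → f x = 0) :
    ∫ x, f x ∂((μH[m] : Measure E).restrict ((T : Set E) ∩ ball 0 2))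
      = ∫ x in (T : Set E), f x ∂(μH[m] : Measure E) := by
  have h1 : (μH[m] : Measure E).restrict ((T : Set E) ∩ ball 0 2)
      = ((μH[m] : Measure E).restrict (T : Set E)).restrict (ball 0 2) := by
    rw [Measure.restrict_restrict isOpen_ball.measurableSet, inter_comm]
  rw [h1]
  refine setIntegral_eq_integral_of_forall_compl_eq_zero fun y hy => ?_
  refine hf0 _ ?_
  rw [mem_ball_zero_iff, not_lt] at hy
  exact hy

/-- **The signed functional is the fluctuation.** -/
theorem Lam_eq_Ffl (hC : FV.CylStat m T G h ν P) {f : E → ℝ} (hf : Measurable f) {C : ℝ}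
    (hb : ∀ x, |f x| ≤ C) (hf0 : ∀ x, 2 ≤ ‖x‖ → f x = 0) :
    Lam (lamA T ν) (lamB m Q T ν P) f = Ffl m Q T ν P f := by
  haveI := hC.fin
  haveI := isFinite_nuB hC
  haveI := isFinite_lamB (Q := Q) hC
  have hint : ∀ μ : Measure E, IsFiniteMeasure μ → Integrable f μ := fun μ _ =>
    Integrable.of_bound hf.aestronglyMeasurable C
      (Eventually.of_forall fun x => by rw [Real.norm_eq_abs]; exact hb x)
  have hfin : IsFiniteMeasure ((μH[m] : Measure E).restrict ((T : Set E) ∩ ball 0 2)) :=
    ⟨by rw [Measure.restrict_apply_univ]; exact hausdorff_plane_lt_top hC.dimT 2⟩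
  have h2 : ∫ x, f x ∂lamB m Q T ν P = 2⁻¹ * ∫ y, f (T.starProjection y) * FV.tilt T (P y) ∂ν
      + Q * ∫ x in (T : Set E), f x ∂(μH[m] : Measure E) := by
    unfold lamB
    rw [integral_add_measure, integral_smul_measure, integral_smul_measure,
      integral_nuB hC hf hf0, integral_plane hf0]
    · simp
    · exact (hint _ inferInstance).smul_measure (ENNReal.inv_ne_top.2 (by norm_num))
    · exact (hint _ hfin).smul_measure (ENNReal.natCast_ne_top Q)
  unfold Lam Ffl
  rw [integral_lamA hf hf0, h2]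
  have hfp : Measurable fun y => f (T.starProjection y) := hf.comp (measurable_starProjection T)
  have i1 : Integrable (fun y => f (T.starProjection y)) ν :=
    Integrable.of_bound hfp.aestronglyMeasurable C
      (Eventually.of_forall fun x => by rw [Real.norm_eq_abs]; exact hb _)
  have i2 : Integrable (fun y => f (T.starProjection y) * FV.tilt T (P y)) ν := by
    refine (integrable_tilt' hC).bdd_mul (c := C) hfp.aestronglyMeasurable ?_
    exact Eventually.of_forall fun y => by rw [Real.norm_eq_abs]; exact hb _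
  have h3 : ∫ y, f (T.starProjection y) * (1 - FV.tilt T (P y) / 2) ∂ν
      = ∫ y, f (T.starProjection y) ∂ν
        - 2⁻¹ * ∫ y, f (T.starProjection y) * FV.tilt T (P y) ∂ν := by
    rw [← integral_const_mul, ← integral_sub i1 (i2.const_mul _)]
    refine integral_congr_ae (Eventually.of_forall fun y => ?_)
    simp only
    ring
  rw [h3]
  ring

end Vale.Agent.P214.R2
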