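import Vale.Agent.P214.R2.Meas

/-!
# P214, block R2-EX: the exhaustion over a cylinder, down to a uniform last level
-/

open Set Filter Topology MeasureTheory Metric
open scoped RealInnerProductSpace ENNReal

set_option linter.all false

namespace Vale.Agent.P214.R2

open Vale.Agent.P214.Skel Vale.Agent.P214.EX

variable {E : Type*} [NormedAddCommGroup E] [InnerProductSpace ℝ E] [FiniteDimensional ℝ E]
  [MeasurableSpace E] [BorelSpace E]
variable {m Q : ℕ} {T : Submodule ℝ E} {G : Set E} {h : ℝ} {ν : Measure E} {P : E → E →L[ℝ] E}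
  {k k' K : ℝ → ℝ}

/-- the truncated negativity of the fluctuation at the base point `x` and radius `r` -/
noncomputable def Xf (m Q : ℕ) (T : Submodule ℝ E) (ν : Measure E) (P : E → E →L[ℝ] E)
    (K : ℝ → ℝ) (x : E) (r : ℝ) : ℝ :=
  Xneg (etaK K) (lamA T ν) (lamB m Q T ν P) (nuB T ν P) x r

/-- the constant of the plane: `∫_T K(|x|²)` -/
noncomputable def cK (m : ℕ) (T : Submodule ℝ E) (K : ℝ → ℝ) : ℝ :=
  ∫ x in (T : Set E), K (‖x‖ ^ 2) ∂(μH[m] : Measure E)

lemma ker_star {x : E} (hx : x ∈ T) {r : ℝ} (hr : 0 < r) (y : E) :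
    ker (etaK K) x r (T.starProjection y) = K (ODE.bsq T x y / r ^ 2) / K 0 := by
  unfold EX.ker etaK ODE.bsq ODE.bx
  rw [map_sub, Submodule.starProjection_eq_self_iff.2 hx, norm_smul, norm_inv,
    Real.norm_of_nonneg hr.le, mul_pow, inv_pow, inv_mul_eq_div]

lemma ker_zero_far {x : E} {r : ℝ} (hk : ODE.Kern k k' K) (hr : 0 < r) (hxr : ‖x‖ + r ≤ 2)
    {y : E} (hy : 2 ≤ ‖y‖) : ker (etaK K) x r y = 0 := by
  unfold EX.ker etaK
  rw [hk.pK.zero, zero_div]
  have h1 : r ≤ ‖y - x‖ := by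
    have := norm_sub_norm_le y x
    linarith
  rw [norm_smul, norm_inv, Real.norm_of_nonneg hr.le, mul_pow, inv_pow, inv_mul_eq_div,
    le_div_iff₀ (by positivity), one_mul]
  exact pow_le_pow_left₀ hr.le h1 2

lemma measurable_ker (hk : ODE.Kern k k' K) (x : E) (r : ℝ) : Measurable (ker (etaK K) x r) := by
  have h1 : Continuous fun y : E => K (‖y‖ ^ 2) / K 0 :=
    (hk.pK.continuous.comp (continuous_norm.pow 2)).div_const _
  have h2 : Continuous (ker (etaK K) x r) := by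
    unfold EX.ker etaK
    exact h1.comp (by fun_prop)
  exact h2.measurable

lemma integral_ker_nuB (hC : FV.CylStat m T G h ν P) (hk : ODE.Kern k k' K) {x : E} (hx : x ∈ T)
    {r : ℝ} (hr : 0 < r) (hxr : ‖x‖ + r ≤ 2) :
    ∫ y, ker (etaK K) x r y ∂nuB T ν P
      = r ^ ((m : ℤ) - 2) / K 0 * ODE.tiltK m T x K P ν r := by
  rw [integral_nuB hC (measurable_ker hk x r) fun y hy => ker_zero_far hk hr hxr hy]
  unfold ODE.tiltK
  have h1 : ∀ y, ker (etaK K) x r (T.starProjection y) * FV.tilt T (P y)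
      = (K 0)⁻¹ * (K (ODE.bsq T x y / r ^ 2) * ODE.tilt T P y) := by
    intro y
    rw [ker_star hx hr, TH.tilt_agree]
    ring
  simp_rw [h1]
  rw [integral_const_mul]
  have h2 : r ^ ((m : ℤ) - 2) * r ^ (2 - (m : ℤ)) = 1 := by
    rw [← zpow_add₀ hr.ne']
    simp
  calc (K 0)⁻¹ * ∫ y, K (ODE.bsq T x y / r ^ 2) * ODE.tilt T P y ∂ν
      = (r ^ ((m : ℤ) - 2) * r ^ (2 - (m : ℤ))) * ((K 0)⁻¹ *
          ∫ y, K (ODE.bsq T x y / r ^ 2) * ODE.tilt T P y ∂ν) := by rw [h2, one_mul]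
    _ = _ := by ring

lemma plane_integral {x : E} (hx : x ∈ T) {r : ℝ} (hr : 0 < r) :
    ∫ y in (T : Set E), ker (etaK K) x r y ∂(μH[m] : Measure E) = r ^ m * (cK m T K / K 0) := by
  rw [SCALE.integral_plane_dil m hx hr]
  congr 1
  unfold cK
  rw [← integral_div]
  refine integral_congr_ae (Eventually.of_forall fun y => ?_)
  simp only
  unfold EX.ker etaK SCALE.dil
  rw [add_sub_cancel_left, smul_smul, inv_mul_cancel₀ hr.ne', one_smul]

lemma Lam_ker (hC : FV.CylStat m T G h ν P) (hk : ODE.Kern k k' K) (h14 : 0 < K (1 / 4))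
    {x : E} (hx : x ∈ T) {r : ℝ} (hr : 0 < r) (hxr : ‖x‖ + r ≤ 2) :
    Lam (lamA T ν) (lamB m Q T ν P) (ker (etaK K) x r)
      = r ^ ((m : ℤ) - 2) / K 0 *
        ((ODE.aK m T x K ν (Q * cK m T K) r - ODE.tiltK m T x K P ν r) / 2) := by
  haveI := hC.fin
  obtain ⟨Kl, hη⟩ := isKernel_etaK (E := E) hk h14
  rw [Lam_eq_Ffl hC (measurable_ker hk x r) (C := 1)
    (fun y => by rw [abs_of_nonneg (ker_nonneg hη x r y)]; exact ker_le_one hη x r y)
    (fun y hy => ker_zero_far hk hr hxr hy)]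
  unfold Ffl ODE.aK ODE.massK ODE.tiltK
  rw [plane_integral hx hr]
  obtain ⟨C, hC0, hCb⟩ := hk.pK.exists_bound
  have hbd : ∀ y, |K (ODE.bsq T x y / r ^ 2)| ≤ C := fun y =>
    (hCb _ (div_nonneg (ODE.bsq_nonneg T x y) (sq_nonneg r))).1
  have hcont : Continuous fun y => K (ODE.bsq T x y / r ^ 2) :=
    hk.pK.continuous.comp ((ODE.continuous_bsq T x).div_const _)
  have i1 : Integrable (fun y => K (ODE.bsq T x y / r ^ 2)) ν :=
    Integrable.of_bound hcont.aestronglyMeasurable C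
      (Eventually.of_forall fun y => by rw [Real.norm_eq_abs]; exact hbd y)
  have i2 : Integrable (fun y => K (ODE.bsq T x y / r ^ 2) * ODE.tilt T P y) ν := by
    refine (TH.integrable_tilt hC).bdd_mul (c := C) hcont.aestronglyMeasurable ?_
    exact Eventually.of_forall fun y => by rw [Real.norm_eq_abs]; exact hbd y
  have h1 : ∫ y, ker (etaK K) x r (T.starProjection y) * (1 - FV.tilt T (P y) / 2) ∂ν
      = (K 0)⁻¹ * ((∫ y, K (ODE.bsq T x y / r ^ 2) ∂ν)
        - 2⁻¹ * ∫ y, K (ODE.bsq T x y / r ^ 2) * ODE.tilt T P y ∂ν) := by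
    rw [← integral_const_mul 2⁻¹, ← integral_sub i1 (i2.const_mul _), ← integral_const_mul]
    refine integral_congr_ae (Eventually.of_forall fun y => ?_)
    simp only
    rw [ker_star hx hr, TH.tilt_agree]
    ring
  rw [h1]
  set I1 := ∫ y, K (ODE.bsq T x y / r ^ 2) ∂ν
  set I2 := ∫ y, K (ODE.bsq T x y / r ^ 2) * ODE.tilt T P y ∂ν
  have h2 : r ^ ((m : ℤ) - 2) * r ^ (2 - (m : ℤ)) = 1 := by
    rw [← zpow_add₀ hr.ne']
    simp
  have h3 : r ^ ((m : ℤ) - 2) * r ^ 2 * r ^ (-(m : ℤ)) = 1 := by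
    rw [← zpow_natCast r 2, ← zpow_add₀ hr.ne', ← zpow_add₀ hr.ne']
    simp
  have h4 : r ^ ((m : ℤ) - 2) * r ^ 2 = r ^ m := by
    rw [← zpow_natCast r 2, ← zpow_add₀ hr.ne', ← zpow_natCast r m]
    congr 1
    push_cast
    ring
  have h5 : r ^ ((m : ℤ) - 2) / K 0 *
      ((2 * r ^ 2 * (r ^ (-(m : ℤ)) * I1 - Q * cK m T K) - r ^ (2 - (m : ℤ)) * I2) / 2)
      = (K 0)⁻¹ * ((r ^ ((m : ℤ) - 2) * r ^ 2 * r ^ (-(m : ℤ))) * I1
        - (r ^ ((m : ℤ) - 2) * r ^ 2) * (Q * cK m T K)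
        - 2⁻¹ * ((r ^ ((m : ℤ) - 2) * r ^ (2 - (m : ℤ))) * I2)) := by
    ring
  rw [h5, h2, h3, h4]
  ring

/-- **The truncated negativity in terms of the ODE quantities.** -/
theorem Xf_eq (hC : FV.CylStat m T G h ν P) (hk : ODE.Kern k k' K) (h14 : 0 < K (1 / 4))
    {x : E} (hx : x ∈ T) {r : ℝ} (hr : 0 < r) (hxr : ‖x‖ + r ≤ 2) :
    Xf m Q T ν P K x r = min 1 (max 0
      ((ODE.tiltK m T x K P ν r - ODE.aK m T x K ν (Q * cK m T K) r)
        / (2 * ODE.tiltK m T x K P ν r))) := by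
  have hanti : Antitone K := antitone_of_deriv_nonpos
    (fun s => (hk.pK.der s).differentiableAt) (fun s => by
      rw [(hk.pK.der s).deriv]; have := hk.nonneg s; linarith)
  have hK0 : 0 < K 0 := lt_of_lt_of_le h14 (hanti (by norm_num))
  unfold Xf Xneg
  rw [Lam_ker hC hk h14 hx hr hxr, integral_ker_nuB hC hk hx hr hxr]
  have hc : r ^ ((m : ℤ) - 2) / K 0 ≠ 0 := by positivity
  congr 2
  rw [← mul_neg, mul_div_mul_left _ _ hc]
  set a := ODE.aK m T x K ν (Q * cK m T K) r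
  set g := ODE.tiltK m T x K P ν r
  rw [show -((a - g) / 2) = (g - a) / 2 by ring, div_div]

/-! ### the exhaustion -/

/-- a fixed cut-off: `1` on the ball of radius `5/4`, `0` off the ball of radius `3/2` -/
noncomputable def eta1 (x : E) : ℝ := max 0 (min 1 (6 - 4 * ‖x‖))

omit [FiniteDimensional ℝ E] [MeasurableSpace E] [BorelSpace E] in
lemma eta1_nonneg (x : E) : 0 ≤ eta1 x := le_max_left _ _

omit [FiniteDimensional ℝ E] [MeasurableSpace E] [BorelSpace E] in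
lemma eta1_le_one (x : E) : eta1 x ≤ 1 := max_le zero_le_one (min_le_left _ _)

omit [FiniteDimensional ℝ E] [MeasurableSpace E] [BorelSpace E] in
lemma eta1_eq_one {x : E} (hx : ‖x‖ ≤ 5 / 4) : eta1 x = 1 := by
  unfold eta1
  rw [min_eq_left (by linarith), max_eq_right zero_le_one]

omit [FiniteDimensional ℝ E] [MeasurableSpace E] [BorelSpace E] in
lemma eta1_eq_zero {x : E} (hx : 3 / 2 ≤ ‖x‖) : eta1 x = 0 := by
  unfold eta1
  rw [max_eq_left]
  exact (min_le_right _ _).trans (by linarith)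

omit [FiniteDimensional ℝ E] [MeasurableSpace E] [BorelSpace E] in
lemma continuous_eta1 : Continuous (eta1 : E → ℝ) := by
  unfold eta1
  fun_prop

/-- the function which is exhausted -/
noncomputable def psiStart (φ : E → ℝ) (δ : ℝ) (x : E) : ℝ := (φ x + δ * eta1 x) / 2

/-- the output of the exhaustion over a cylinder -/
structure Exh (m Q : ℕ) (T : Submodule ℝ E) (ν : Measure E) (P : E → E →L[ℝ] E) (K : ℝ → ℝ)
    (φ : E → ℝ) (δ t₀ : ℝ) (J : ℕ) (Kb B₀ : ℝ) (ρ Neg : E → ℝ) : Prop where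
  cont : Continuous ρ
  nonneg : ∀ x, 0 ≤ ρ x
  le : ∀ x, ρ x ≤ psiStart φ δ x
  contN : Continuous Neg
  negN : ∀ x, 0 ≤ Neg x
  leN : ∀ x, Neg x ≤ 1
  off : ∀ x, 5 / 4 < ‖x‖ → ρ x = psiStart φ δ x ∧ Neg x = 0
  loglip : LogLip (closedBall (0 : E) (5 / 4)) (t₀ / 2 ^ J) ρ
  ineq : Ffl m Q T ν P (psiStart φ δ) + ∫ y, Neg (T.starProjection y) * FV.tilt T (P y) ∂ν
    ≤ Ffl m Q T ν P ρ
  alt : ∀ x ∈ T, ‖x‖ ≤ 9 / 8 → Kb * ρ x ≤ Neg x ∨
    ∫ r in (2 * (t₀ / 2 ^ J))..(2 * t₀), Xf m Q T ν P K x r / r ≤ B₀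

theorem exists_exh (hk : ODE.Kern k k' K) (h14 : 0 < K (1 / 4)) {Kb : ℝ} (hKb : 0 < Kb) :
    ∃ B₀ : ℝ, 0 < B₀ ∧ ∀ (m Q : ℕ) (T : Submodule ℝ E) (G : Set E) (h : ℝ) (ν : Measure E)
      (P : E → E →L[ℝ] E) (φ : E → ℝ) (δ t₀ : ℝ) (J : ℕ),
      FV.CylStat m T G h ν P → BaseTest T 0 1 φ → 0 < δ → δ ≤ 1 / 2 → 0 < t₀ → t₀ ≤ δ / 8 →
      ∃ ρ Neg : E → ℝ, Exh m Q T ν P K φ δ t₀ J Kb B₀ ρ Neg := by
  classical
  obtain ⟨Kl, hη⟩ := isKernel_etaK (E := E) hk h14
  obtain ⟨M, hM, hpack⟩ := exists_packing (E := E)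
  have hM' : (1 : ℝ) ≤ M := by exact_mod_cast hM
  have hKl := hη.one_le
  set c₀ : ℝ := K (1 / 4) / K 0 with hc₀
  have hc0 : 0 < c₀ := hη.pos
  set κ : ℝ := 1 / (128 * M * Kl) with hκ
  have hκ0 : 0 < κ := by positivity
  have hκ1 : κ ≤ 1 := by
    rw [hκ, div_le_one (by positivity)]
    nlinarith
  set B : ℝ := (8 + 8 * Kb) / (c₀ / 4 * κ) with hB
  have hB0 : 0 < B := by positivity
  have hcB : c₀ / 4 * κ * B = 8 + 8 * Kb := by
    rw [hB]; field_simp
  refine ⟨Real.log 2 * (16 * B + 2),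
    mul_pos (Real.log_pos (by norm_num)) (by linarith), ?_⟩
  intro m Q T G h ν P φ δ t₀ J hC hφ hδ hδ2 ht0 ht0δ
  haveI := hC.fin
  haveI := isFinite_nuB hC
  haveI := isFinite_lamB (Q := Q) hC
  -- the starting function
  have hφ0 : ∀ x : E, 1 ≤ ‖x‖ → φ x = 0 := fun x hx => hφ.supp x (by rwa [sub_zero])
  have hφc : Continuous φ := BaseTest.continuous one_pos hφ
  have hψc : Continuous (psiStart φ δ) := by
    unfold psiStart
    exact (hφc.add (continuous_const.mul continuous_eta1)).div_const _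
  have hψ0 : ∀ x, 0 ≤ psiStart φ δ x := by
    intro x
    unfold psiStart
    have h1 := hφ.nonneg x
    have h2 := mul_nonneg hδ.le (eta1_nonneg x)
    linarith
  have hψ1 : ∀ x, psiStart φ δ x ≤ 1 := by
    intro x
    unfold psiStart
    have h1 := hφ.le_one x
    have h2 : δ * eta1 x ≤ 1 := by
      have := eta1_le_one x
      nlinarith [eta1_nonneg x]
    linarith
  have hψlip : LogLip (closedBall (0 : E) (5 / 4)) t₀ (psiStart φ δ) := by
    intro x hx y hy hxy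
    rw [mem_closedBall_zero_iff] at hx hy
    unfold psiStart
    rw [eta1_eq_one hx, eta1_eq_one hy]
    have h1 : |φ x - φ y| ≤ dist x y := by
      have := hφ.lip x y
      rw [inv_one, one_mul, ← dist_eq_norm] at this
      exact this
    have h2 : |(φ x + δ * 1) / 2 - (φ y + δ * 1) / 2| = |φ x - φ y| / 2 := by
      rw [show (φ x + δ * 1) / 2 - (φ y + δ * 1) / 2 = (φ x - φ y) / 2 by ring, abs_div,
        abs_of_pos (by norm_num : (0 : ℝ) < 2)]
    rw [h2]
    have h3 : δ / 2 ≤ (φ y + δ * 1) / 2 := by linarith [hφ.nonneg y]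
    have h4 : 0 ≤ dist x y / t₀ := div_nonneg dist_nonneg ht0.le
    have h5 : dist x y / 2 ≤ 1 / 8 * (dist x y / t₀) * (δ / 2) := by
      rw [show 1 / 8 * (dist x y / t₀) * (δ / 2) = dist x y / 2 * (δ / (8 * t₀)) by
        field_simp; try ring]
      have h6 : 1 ≤ δ / (8 * t₀) := by
        rw [le_div_iff₀ (by positivity)]
        linarith
      have h7 : 0 ≤ dist x y / 2 := by positivity
      nlinarith
    calc |φ x - φ y| / 2 ≤ dist x y / 2 := by linarith
      _ ≤ 1 / 8 * (dist x y / t₀) * (δ / 2) := h5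
      _ ≤ 1 / 8 * (dist x y / t₀) * ((φ y + δ * 1) / 2) := by
          refine mul_le_mul_of_nonneg_left h3 ?_
          positivity
  -- centres
  set D : Set E := {x | x ∈ T ∧ ‖x‖ ≤ 9 / 8} with hD
  have hDb : Bornology.IsBounded D := by
    refine (isBounded_closedBall (x := (0 : E)) (r := 9 / 8)).subset ?_
    rintro x ⟨-, hx⟩
    rwa [mem_closedBall_zero_iff]
  have hDΩ : ∀ p ∈ D, closedBall p (2 * t₀) ⊆ closedBall (0 : E) (5 / 4) := by
    rintro p ⟨-, hp⟩
    refine closedBall_subset_closedBall' ?_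
    rw [dist_zero_right]
    linarith
  obtain ⟨ρ, N, hT⟩ := exists_total (lam₁ := lamA T ν) (lam₂ := lamB m Q T ν P)
    (ν := nuB T ν P) hη hM hpack hDb hDΩ ht0 (fun _ => univ) hψc hψ0 hψ1 hψlip
  -- supports
  have hρ_off : ∀ i, ∀ x, x ∉ closedBall (0 : E) (5 / 4) → ρ i x = psiStart φ δ x := by
    intro i
    induction i with
    | zero => intro x _; rw [hT.zero]
    | succ i ih => intro x hx; rw [((hT.step i).off x hx).1, ih x hx]
  have hN_off : ∀ i, ∀ x, x ∉ closedBall (0 : E) (5 / 4) → N i x = 0 :=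
    fun i x hx => ((hT.step i).off x hx).2
  have hψ_off : ∀ x : E, 2 ≤ ‖x‖ → psiStart φ δ x = 0 := by
    intro x hx
    unfold psiStart
    rw [hφ0 x (by linarith), eta1_eq_zero (by linarith)]
    ring
  have hmemc : ∀ x : E, 5 / 4 < ‖x‖ → x ∉ closedBall (0 : E) (5 / 4) := by
    intro x hx
    rw [mem_closedBall_zero_iff]
    exact not_le.2 hx
  have hρJ0 : ∀ x : E, 2 ≤ ‖x‖ → ρ J x = 0 := fun x hx => by
    rw [hρ_off J x (hmemc x (by linarith)), hψ_off x hx]
  have hNsum0 : ∀ x : E, 5 / 4 < ‖x‖ → ∑ i ∈ Finset.range J, N i x = 0 := fun x hx =>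
    Finset.sum_eq_zero fun i _ => hN_off i x (hmemc x hx)
  have hNc : Continuous fun x => ∑ i ∈ Finset.range J, N i x :=
    continuous_finsetSum _ fun i _ => (hT.step i).cont
  have hNle : ∀ x, ∑ i ∈ Finset.range J, N i x ≤ 1 := by
    intro x
    have h1 := sum_N_le wt_le_one hT.step x J
    rw [hT.zero] at h1
    linarith [(hT.good J).nonneg x, hψ1 x]
  have hNnn : ∀ x, 0 ≤ ∑ i ∈ Finset.range J, N i x := fun x =>
    Finset.sum_nonneg fun i _ => (hT.step i).nonneg x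
  refine ⟨ρ J, fun x => ∑ i ∈ Finset.range J, N i x, ?_⟩
  refine ⟨(hT.good J).cont, (hT.good J).nonneg, (hT.good J).le, hNc, hNnn, hNle,
    fun x hx => ⟨hρ_off J x (hmemc x hx), hNsum0 x hx⟩, (hT.good J).loglip, ?_, ?_⟩
  · -- the inequality
    have h1 := exhaustion_sum hT.step J
    have hi : ∀ i ∈ Finset.range J, Integrable (N i) (nuB T ν P) := by
      intro i _
      refine integrable_of_bdd (hT.step i).cont 1 fun x => ?_
      rw [abs_of_nonneg ((hT.step i).nonneg x)]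
      have := (hT.step i).upper 1 (fun q _ => wt_le_one q) x
      linarith [(hT.good (i + 1)).nonneg x, (hT.good i).le x, hψ1 x]
    rw [← integral_finsetSum _ hi, hT.zero,
      integral_nuB hC hNc.measurable (fun x hx => hNsum0 x (by linarith)),
      Lam_eq_Ffl hC hψc.measurable (C := 1)
        (fun x => by rw [abs_of_nonneg (hψ0 x)]; exact hψ1 x) hψ_off,
      Lam_eq_Ffl hC (hT.good J).cont.measurable (C := 1)
        (fun x => by rw [abs_of_nonneg ((hT.good J).nonneg x)]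
                     exact ((hT.good J).le x).trans (hψ1 x)) hρJ0] at h1
    exact h1
  · -- the alternative
    intro x hx hx98
    have h1 := hT.alternative_fin hη ht0 hκ0 hκ1 (x := x) ⟨hx, hx98⟩ (J := J)
      (fun _ _ => mem_univ _) (B := B) (by rw [hcB]; linarith)
    rcases h1 with h1 | h1
    · left
      refine le_trans ?_ h1
      refine mul_le_mul_of_nonneg_right ?_ ((hT.good J).nonneg x)
      rw [hcB]
      nlinarith
    · right
      exact h1

end Vale.Agent.P214.R2
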