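import Vale.Agent.P214.Skel.Defs
import Vale.Agent.P214.EX.Cont

/-!
# P214, block ASM2 (m = 2): the interface of the assembly

Unit scale: base ball `ball 0 2`, `e ≥ exc T ν P 0 2` a parameter, `L = log e⁻¹`, `lam K e = L / (K log L)`,
bottom scale `rb K e = exp (lam K e / 2) * √e`, vertical scale `sg A e = L ^ (-3A) * √e`, top scale
of the exhaustion `tt A e = L ^ (-(A+1)) / 16`.

`Sp T ν P x r` is the predicate `the varifold splits over ball x (8 r)`; it is a parameter.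
-/

open Set Filter Topology MeasureTheory Metric
open scoped RealInnerProductSpace ENNReal

namespace Vale.Agent.P214.R2

open Vale.Agent.P214.Skel

/-- `Λ = L / (K log L)`, `L = log (1/e)` -/
noncomputable def lam (K e : ℝ) : ℝ := Real.log e⁻¹ / (K * Real.log (Real.log e⁻¹))

/-- the bottom scale -/
noncomputable def rb (K e : ℝ) : ℝ := Real.exp (lam K e / 2) * √e

/-- the vertical scale -/
noncomputable def sg (A e : ℝ) : ℝ := (Real.log e⁻¹) ^ (-(3 * A)) * √e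

/-- the top scale of the exhaustion -/
noncomputable def tt (A e : ℝ) : ℝ := (Real.log e⁻¹) ^ (-(A + 1)) / 16

variable (E : Type*) [NormedAddCommGroup E] [InnerProductSpace ℝ E] [FiniteDimensional ℝ E]
  [MeasurableSpace E] [BorelSpace E]

variable {E}

/-- a configuration at unit scale; `e > 0` is an upper bound of the excess -/
structure Conf0 (Q : ℕ) (ε e : ℝ) (T : Submodule ℝ E) (h : ℝ) (ν : Measure E)
    (P : E → E →L[ℝ] E) : Prop where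
  ic : IntCyl 2 Q T 0 2 h ε ν P
  pos : 0 < e
  le : e ≤ ε
  exc_le : exc T ν P 0 2 ≤ e

/-- a configuration whose heights are all within `(CH L e)^(1/2)` of one height -/
structure Conf (Q : ℕ) (CH ε e : ℝ) (T : Submodule ℝ E) (h : ℝ) (ν : Measure E)
    (P : E → E →L[ℝ] E) : Prop extends Conf0 Q ε e T h ν P where
  hh : ∃ b ∈ Tᗮ, ∀ᵐ y ∂ν, y ∈ cylSet T 0 2 → ‖FV.co T y - b‖ ^ 2 ≤ CH * Real.log e⁻¹ * e

/-- all heights over `ball x s` are within `σ` of one height `b` -/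
def HtIn (T : Submodule ℝ E) (ν : Measure E) (x : E) (s σ : ℝ) : Prop :=
  ∃ b ∈ Tᗮ, ∀ᵐ y ∂ν, y ∈ cylSet T x s → ‖FV.co T y - b‖ ≤ σ

/-- the truncated negativity of the kernel `ker η x r`, relative to its tilt -/
noncomputable def Xn (Q : ℕ) (T : Submodule ℝ E) (ν : Measure E) (P : E → E →L[ℝ] E) (η : E → ℝ)
    (x : E) (r : ℝ) : ℝ :=
  min 1 (max 0 (-(Ffl 2 Q T ν P (EX.ker η x r)) /
    ∫ y, EX.ker η x r (T.starProjection y) * FV.tilt T (P y) ∂ν))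

variable (E) in
/-- (BB-IV) the two-sided bound at the bottom scale -/
def BoxIV (Q : ℕ) : Prop := ∃ C : ℝ, 0 < C ∧ ∀ K : ℝ, 1 ≤ K → ∃ ε : ℝ, 0 < ε ∧
  ∀ (e : ℝ) (T : Submodule ℝ E) (h : ℝ) (ν : Measure E) (P : E → E →L[ℝ] E),
  Conf0 Q ε e T h ν P → ∀ x ∈ T, ‖x‖ ≤ 3 / 2 → ∀ (f : E → ℝ) (M : ℝ), Measurable f →
    (∀ y, |f y| ≤ M) → (∀ y, rb K e ≤ ‖y - x‖ → f y = 0) →
    |Ffl 2 Q T ν P f| ≤ C * M * exc T ν P x (4 * rb K e)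

variable (E) in
/-- (BB-IV, top) the two-sided bound at unit scale -/
def BoxTop (Q : ℕ) : Prop := ∃ C ε : ℝ, 0 < C ∧ 0 < ε ∧
  ∀ (T : Submodule ℝ E) (h : ℝ) (ν : Measure E) (P : E → E →L[ℝ] E), IntCyl 2 Q T 0 2 h ε ν P →
  exc T ν P 0 2 ≤ ε → ∀ f : E → ℝ, Measurable f → (∀ y, |f y| ≤ 1) →
    (∀ y, 3 / 2 ≤ ‖y‖ → f y = 0) → |Ffl 2 Q T ν P f| ≤ C * exc T ν P 0 2

/-- (BB-S) the rate at a cell where the varifold splits -/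
def BoxS (Sp : Submodule ℝ E → Measure E → (E → E →L[ℝ] E) → E → ℝ → Prop) (Q : ℕ) : Prop :=
  ∀ A K : ℝ, 1 ≤ A → 1 ≤ K → ∃ C ε : ℝ, 0 < C ∧ 0 < ε ∧
  ∀ (e : ℝ) (T : Submodule ℝ E) (h : ℝ) (ν : Measure E) (P : E → E →L[ℝ] E),
  Conf0 Q ε e T h ν P → ∀ x ∈ T, ‖x‖ ≤ 9 / 8 → Sp T ν P x (rb K e) →
  ∀ φ : E → ℝ, BaseTest T x (rb K e) φ →
    Ffl 2 Q T ν P φ ≤ C * (Real.log e⁻¹) ^ (-A) * exc T ν P x (4 * rb K e)

/-- (BB-U) the total negativity over a cell which is neither split nor flat is large -/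
def BoxU (η : E → ℝ) (Sp : Submodule ℝ E → Measure E → (E → E →L[ℝ] E) → E → ℝ → Prop)
    (Q : ℕ) : Prop :=
  ∀ CH A B : ℝ, 1 ≤ A → 0 < B → ∃ K ε : ℝ, 1 ≤ K ∧ 0 < ε ∧
  ∀ (e : ℝ) (T : Submodule ℝ E) (h : ℝ) (ν : Measure E) (P : E → E →L[ℝ] E),
  Conf Q CH ε e T h ν P → ∀ x₀ ∈ T, ‖x₀‖ ≤ 9 / 8 → ¬ Sp T ν P x₀ (rb K e) →
    ¬ HtIn T ν x₀ (8 * rb K e) (sg A e) → ∀ x ∈ T, ‖x - x₀‖ ≤ 4 * rb K e →
  ∀ s : ℝ, 64 * rb K e ≤ s → s ≤ 128 * rb K e →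
    B < ∫ r in s..(2 * tt A e), Xn Q T ν P η x r / r

/-- (BB-C) the union of the cells which are flat up to the vertical scale -/
def BoxC (Sp : Submodule ℝ E → Measure E → (E → E →L[ℝ] E) → E → ℝ → Prop) (Q : ℕ) : Prop :=
  ∀ CH A K : ℝ, 1 ≤ A → 1 ≤ K → ∃ C ε : ℝ, 0 < C ∧ 0 < ε ∧
  ∀ (e : ℝ) (T : Submodule ℝ E) (h : ℝ) (ν : Measure E) (P : E → E →L[ℝ] E),
  Conf Q CH ε e T h ν P → ∀ f : E → ℝ, Measurable f → (∀ x, 0 ≤ f x) → (∀ x, f x ≤ 1) →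
    (∀ x ∈ T, f x ≠ 0 → ∃ x₀ ∈ T, ‖x₀‖ ≤ 9 / 8 ∧ ‖x - x₀‖ < rb K e ∧
      ¬ Sp T ν P x₀ (rb K e) ∧ HtIn T ν x₀ (8 * rb K e) (sg A e)) →
    Ffl 2 Q T ν P f ≤ C * (Real.log e⁻¹) ^ (-A) * e

/-- the output of the exhaustion: top scale `t₀`, bottom scale `t`, small parameter `δ`, cut-off
`η₁`; either the allotted negativity `N` is at least `Kb * ρ`, or the total negativity over the
scales `[2 t, 2 t₀]` is at most `B` -/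
structure ExhOut (η η₁ : E → ℝ) (Q : ℕ) (T : Submodule ℝ E) (ν : Measure E) (P : E → E →L[ℝ] E)
    (φ : E → ℝ) (δ t₀ t Kb B : ℝ) (ρ N : E → ℝ) : Prop where
  measρ : Measurable ρ
  measN : Measurable N
  nonneg : ∀ x, 0 ≤ ρ x
  N_nonneg : ∀ x, 0 ≤ N x
  N_le : ∀ x, N x ≤ 1
  N_supp : ∀ x, x ∉ ball (0 : E) 2 → N x = 0
  le : ∀ x, ρ x ≤ (φ x + δ * η₁ x) / 2
  loglip : EX.LogLip (ball (0 : E) (5 / 4)) t ρ
  ineq : Ffl 2 Q T ν P (fun x => (φ x + δ * η₁ x) / 2) +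
    ∫ y, N (T.starProjection y) * FV.tilt T (P y) ∂ν ≤ Ffl 2 Q T ν P ρ
  alt : ∀ x ∈ T, ‖x‖ ≤ 9 / 8 → Kb * ρ x ≤ N x ∨ ∫ r in (2 * t)..(2 * t₀), Xn Q T ν P η x r / r ≤ B

/-- (EX) the exhaustion: `B` depends only on `Kb` (and `E`, `η`) -/
def BoxExh (η : E → ℝ) (Q : ℕ) : Prop := ∀ Kb : ℝ, 1 ≤ Kb → ∃ B : ℝ, 0 < B ∧
  ∃ η₁ : E → ℝ, Continuous η₁ ∧ (∀ x, 0 ≤ η₁ x) ∧ (∀ x, η₁ x ≤ 1) ∧
    (∀ x, 3 / 2 ≤ ‖x‖ → η₁ x = 0) ∧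
  ∀ (T : Submodule ℝ E) (h ε : ℝ) (ν : Measure E) (P : E → E →L[ℝ] E), IntCyl 2 Q T 0 2 h ε ν P →
  ∀ φ : E → ℝ, BaseTest T 0 1 φ → ∀ δ t₀ : ℝ, 0 < δ → δ ≤ 1 / 2 → 0 < t₀ → t₀ ≤ δ / 16 →
  ∀ J : ℕ, ∃ ρ N : E → ℝ, ExhOut η η₁ Q T ν P φ δ t₀ (t₀ / 2 ^ J) Kb B ρ N

variable (E) in
/-- the output of the assembly -/
def RateUnitH (Q : ℕ) (CH : ℝ) : Prop := ∀ A : ℝ, 0 < A → ∃ C ε : ℝ, 0 < C ∧ 0 < ε ∧
  ∀ (e : ℝ) (T : Submodule ℝ E) (h : ℝ) (ν : Measure E) (P : E → E →L[ℝ] E) (φ : E → ℝ),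
  Conf Q CH ε e T h ν P → BaseTest T 0 1 φ →
    Ffl 2 Q T ν P φ ≤ C * (Real.log e⁻¹) ^ (-A) * e

end Vale.Agent.P214.R2
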