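import Vale.Agent.P214.R2.Cells
import Vale.Agent.P214.R2.Props

/-!
# P214, block R2-S: one split cell, and the parameters of the uniform bottom scale

`L = log 1/E₀`, `Lam = L / (K log L)`, `r_b = e^{Lam/2} √E₀`: `E₀ = e^{-Lam} r_b²`, and
`Lam^{-(2A+1)} ≤ L^{-A}` for large `L`.
-/

open Set Filter Topology MeasureTheory Metric Module
open scoped RealInnerProductSpace ENNReal

set_option linter.all false

namespace Vale.Agent.P214.R2

open Vale.Agent.P214.Skel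

section numerics

/-- `lam K e` as a function of `L = log (1/e)` -/
noncomputable def lamL (K L : ℝ) : ℝ := L / (K * Real.log L)

lemma lam_eq (K e : ℝ) : lam K e = lamL K (Real.log e⁻¹) := rfl

lemma rb_pos {K E₀ : ℝ} (h : 0 < E₀) : 0 < rb K E₀ :=
  mul_pos (Real.exp_pos _) (Real.sqrt_pos.2 h)

lemma rb_sq {K E₀ : ℝ} (h : 0 < E₀) : rb K E₀ ^ 2 = Real.exp (lam K E₀) * E₀ := by
  unfold rb
  rw [mul_pow, Real.sq_sqrt h.le, ← Real.exp_nat_mul]
  congr 2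
  push_cast
  ring

lemma exp_neg_mul_rb_sq {K E₀ : ℝ} (h : 0 < E₀) :
    Real.exp (-lam K E₀) * rb K E₀ ^ 2 = E₀ := by
  rw [rb_sq h, ← mul_assoc, ← Real.exp_add, neg_add_cancel, Real.exp_zero, one_mul]

/-- `log L = o(L)` in the form: `K log L ≤ c L^s` eventually -/
lemma eventually_log_le (K c s : ℝ) (hK : 0 < K) (hc : 0 < c) (hs : 0 < s) :
    ∀ᶠ L : ℝ in atTop, K * Real.log L ≤ c * L ^ s := by
  have h1 := isLittleO_log_rpow_atTop hs
  have h2 := h1.bound (c := c / K) (by positivity)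
  filter_upwards [h2, eventually_gt_atTop 1] with L hL hL1
  rw [Real.norm_eq_abs, Real.norm_eq_abs, abs_of_nonneg (Real.log_nonneg hL1.le),
    abs_of_nonneg (Real.rpow_nonneg (by linarith) _)] at hL
  calc K * Real.log L ≤ K * (c / K * L ^ s) := by gcongr
    _ = c * L ^ s := by field_simp

/-- `Lam → ∞` -/
lemma eventually_lam_ge {K : ℝ} (hK : 0 < K) (M : ℝ) : ∀ᶠ L : ℝ in atTop, M ≤ lamL K L := by
  have h1 := eventually_log_le K (1 / (|M| + 1)) 1 hK (by positivity) one_pos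
  filter_upwards [h1, eventually_gt_atTop 1] with L hL hL1
  have h2 : 0 < Real.log L := Real.log_pos hL1
  rw [Real.rpow_one] at hL
  unfold lamL
  rw [le_div_iff₀ (by positivity)]
  have h3 : M ≤ |M| + 1 := (le_abs_self M).trans (by linarith)
  calc M * (K * Real.log L) ≤ (|M| + 1) * (K * Real.log L) := by gcongr
    _ ≤ (|M| + 1) * (1 / (|M| + 1) * L) := by gcongr
    _ = L := by
      have : |M| + 1 ≠ 0 := by positivity
      field_simp

/-- **the rate at the bottom scale**: `Lam^{-(2A+1)} ≤ L^{-A}` -/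
lemma eventually_lam_rpow_le {K A : ℝ} (hK : 0 < K) (hA : 0 < A) :
    ∀ᶠ L : ℝ in atTop, lamL K L ^ (-(2 * A + 1)) ≤ L ^ (-A) := by
  have h1 := eventually_log_le K 1 ((A + 1) / (2 * A + 1)) hK one_pos (by positivity)
  filter_upwards [h1, eventually_gt_atTop 1] with L hL hL1
  have hL0 : 0 < L := by linarith
  have h2 : 0 < Real.log L := Real.log_pos hL1
  rw [one_mul] at hL
  have h3 : L ^ (A / (2 * A + 1)) ≤ lamL K L := by
    unfold lamL
    rw [le_div_iff₀ (by positivity)]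
    calc L ^ (A / (2 * A + 1)) * (K * Real.log L)
        ≤ L ^ (A / (2 * A + 1)) * L ^ ((A + 1) / (2 * A + 1)) := by gcongr
      _ = L ^ (A / (2 * A + 1) + (A + 1) / (2 * A + 1)) := (Real.rpow_add hL0 _ _).symm
      _ = L := by
        have : A / (2 * A + 1) + (A + 1) / (2 * A + 1) = 1 := by field_simp; ring
        rw [this, Real.rpow_one]
  have h4 : 0 < L ^ (A / (2 * A + 1)) := Real.rpow_pos_of_pos hL0 _
  have h5 := Real.rpow_le_rpow_of_nonpos h4 h3 (z := -(2 * A + 1)) (by linarith)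
  refine h5.trans (le_of_eq ?_)
  rw [← Real.rpow_mul hL0.le]
  congr 1
  field_simp

/-- from large `L` to small `E₀` -/
lemma exists_eps_of_eventually {p : ℝ → Prop} (h : ∀ᶠ L : ℝ in atTop, p L) :
    ∃ ε : ℝ, 0 < ε ∧ ε < 1 ∧ ∀ E₀ : ℝ, 0 < E₀ → E₀ ≤ ε → p (Real.log E₀⁻¹) := by
  obtain ⟨M, hM⟩ := eventually_atTop.1 h
  refine ⟨Real.exp (-(|M| + 1)), Real.exp_pos _, ?_, fun E₀ h0 h1 => hM _ ?_⟩
  · rw [Real.exp_lt_one_iff]
    have := abs_nonneg M; linarith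
  · rw [Real.log_inv]
    have h2 := Real.log_le_log h0 h1
    rw [Real.log_exp] at h2
    have := le_abs_self M
    linarith

end numerics

variable {E : Type*} [NormedAddCommGroup E] [InnerProductSpace ℝ E] [FiniteDimensional ℝ E]
  [MeasurableSpace E] [BorelSpace E]
variable {m Q : ℕ} {T : Submodule ℝ E} {G : Set E} {h : ℝ} {ν : Measure E} {P : E → E →L[ℝ] E}

/-- **One split cell.** -/
theorem single_split_le (hind : ∀ Q', 1 ≤ Q' → Q' < Q → RateFlat E m Q') {A' : ℝ}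
    (hA' : 0 < A') :
    ∃ C ε : ℝ, 0 < C ∧ 0 < ε ∧ ε ≤ 1 / 2 ∧ ∀ (T : Submodule ℝ E) (G : Set E) (x : E)
      (r h h' b : ℝ) (ν : Measure E) (P : E → E →L[ℝ] E) (φ : E → ℝ),
      FV.CylStat m T G h' ν P → TwoPieces m Q T ν P h ε x (2 * r) →
      exc T ν P x (2 * r) ≤ b * r ^ m → b ≤ ε → BaseTest T x r φ →
      Ffl m Q T ν P φ ≤ C * (Real.log b⁻¹) ^ (-A') * exc T ν P x (2 * r) := by
  obtain ⟨C, ε, hC, hε, hε1, H⟩ := rate_of_pieces (E := E) (m := m) hind hA'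
  refine ⟨C, ε, hC, hε, hε1, ?_⟩
  rintro T G x r h h' b ν P φ hCy ⟨S, Q₁, Q₂, hS, hQ₁, hQ₂, hQ, hI₁, hI₂⟩ hexc hbε hφ
  have hr : 0 < r := by have := hI₁.pos; linarith
  have hrm : 0 < r ^ m := pow_pos hr m
  have e0 : 0 ≤ exc T ν P x (2 * r) := exc_nonneg hCy _ _
  have k1 := H T G x r h h' ν P φ S Q₁ Q₂ hCy hS hQ₁ hQ₂ hQ hI₁ hI₂
    (hexc.trans (by gcongr)) hφ
  have k2 := rate_mono_arg (C := C) hA' hC.le hrm e0 hexc (by
    rw [mul_div_assoc, div_self hrm.ne', mul_one]; linarith)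
  rw [mul_div_assoc, div_self hrm.ne', mul_one] at k2
  exact k1.trans k2

/-- **(BB-S)**: a split cell at the uniform bottom scale, `m = 2`. -/
theorem bbS (hind : ∀ Q', 1 ≤ Q' → Q' < Q → RateFlat E 2 Q') {A : ℝ} (hA : 0 < A) :
    ∃ C δ : ℝ, 0 < C ∧ 0 < δ ∧ ∀ K : ℝ, 0 < K → ∃ ε : ℝ, 0 < ε ∧ ε < 1 ∧
    ∀ (T : Submodule ℝ E) (G : Set E) (x : E)
      (h h' E₀ : ℝ) (ν : Measure E) (P : E → E →L[ℝ] E) (φ : E → ℝ),
      0 < E₀ → E₀ ≤ ε →
      FV.CylStat 2 T G h' ν P → TwoPieces 2 Q T ν P h δ x (2 * rb K E₀) →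
      exc T ν P x (2 * rb K E₀) ≤ E₀ → BaseTest T x (rb K E₀) φ →
      Ffl 2 Q T ν P φ ≤ C * (Real.log E₀⁻¹) ^ (-A) * exc T ν P x (2 * rb K E₀) := by
  obtain ⟨C, δ, hC, hδ, hδ1, H⟩ := single_split_le (E := E) (m := 2) hind
    (A' := 2 * A + 1) (by positivity)
  refine ⟨C, δ, hC, hδ, fun K hK => ?_⟩
  obtain ⟨ε, hε, hε1, Hε⟩ := exists_eps_of_eventually
    ((eventually_lam_rpow_le (K := K) hK hA).and
      (eventually_lam_ge (K := K) hK (Real.log δ⁻¹)))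
  refine ⟨ε, hε, hε1, ?_⟩
  intro T G x h h' E₀ ν P φ hE hEε hCy hTP hexc hφ
  obtain ⟨h1, h2⟩ := Hε E₀ hE hEε
  have e0 : 0 ≤ exc T ν P x (2 * rb K E₀) := exc_nonneg hCy _ _
  rw [← lam_eq] at h1 h2
  set Λ := lam K E₀ with hΛ
  have hb : Real.exp (-Λ) ≤ δ := by
    rw [← Real.le_log_iff_exp_le hδ]
    rw [Real.log_inv] at h2
    linarith
  have k := H T G x (rb K E₀) h h' (Real.exp (-Λ)) ν P φ hCy hTP
    (by rw [exp_neg_mul_rb_sq hE]; exact hexc) hb hφ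
  rw [← Real.exp_neg, neg_neg, Real.log_exp] at k
  refine k.trans ?_
  gcongr

variable (E) in
/-- D2 for a splitting predicate: the cylinder over `ball x (2 r_b)` is the sum of two pieces -/
def SplitInt (Sp : Submodule ℝ E → Measure E → (E → E →L[ℝ] E) → E → ℝ → Prop) (Q : ℕ) : Prop :=
  ∀ K δ : ℝ, 1 ≤ K → 0 < δ → ∃ ε : ℝ, 0 < ε ∧
  ∀ (e : ℝ) (T : Submodule ℝ E) (h : ℝ) (ν : Measure E) (P : E → E →L[ℝ] E),
  Conf0 Q ε e T h ν P → ∀ x ∈ T, ‖x‖ ≤ 9 / 8 → Sp T ν P x (rb K e) →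
    TwoPieces 2 Q T ν P h δ x (2 * rb K e)

lemma Conf0.mono {ε ε' e : ℝ} (hc : Conf0 Q ε e T h ν P) (h' : ε ≤ ε') : Conf0 Q ε' e T h ν P :=
  ⟨intCyl_mono_delta hc.ic h', hc.pos, hc.le.trans h', hc.exc_le⟩

lemma Conf.mono {CH ε ε' e : ℝ} (hc : Conf Q CH ε e T h ν P) (h' : ε ≤ ε') :
    Conf Q CH ε' e T h ν P :=
  { toConf0 := hc.toConf0.mono h', hh := hc.hh }

/-- the bottom scale is small -/
lemma eventually_rb_le {K c : ℝ} (hK : 1 ≤ K) (hc : 0 < c) :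
    ∃ ε : ℝ, 0 < ε ∧ ε < 1 ∧ ∀ e : ℝ, 0 < e → e ≤ ε → rb K e ≤ c := by
  have h1 := eventually_log_le 1 (1 / 2) 1 one_pos (by norm_num) one_pos
  have h2 : ∀ᶠ L : ℝ in atTop, lamL K L ≤ L / 2 := by
    filter_upwards [eventually_ge_atTop (Real.exp 2)] with L hL
    have hL0 : 0 < L := (Real.exp_pos 2).trans_le hL
    have h3 : 2 ≤ Real.log L := by rwa [Real.le_log_iff_exp_le hL0]
    unfold lamL
    have h4 : 2 ≤ K * Real.log L := by nlinarith
    gcongr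
  have h3 : ∀ᶠ L : ℝ in atTop, Real.exp (-(L / 4)) ≤ c := by
    have h4 : Tendsto (fun L : ℝ => L / 4) atTop atTop := tendsto_id.atTop_div_const (by norm_num)
    have h5 := Real.tendsto_exp_neg_atTop_nhds_zero.comp h4
    exact (h5.eventually (ge_mem_nhds hc)).mono fun L hL => hL
  obtain ⟨ε, hε, hε1, H⟩ := exists_eps_of_eventually (h2.and h3)
  refine ⟨ε, hε, hε1, fun e he heε => ?_⟩
  obtain ⟨k1, k2⟩ := H e he heε
  refine le_trans ?_ k2
  unfold rb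
  have e1 : √e = Real.exp (-(Real.log e⁻¹ / 2)) := by
    rw [Real.log_inv, Real.sqrt_eq_rpow, Real.rpow_def_of_pos he]
    congr 1; ring
  rw [e1, ← Real.exp_add, lam_eq]
  refine Real.exp_le_exp.2 ?_
  linarith

/-- **(BB-S)** in the form of the assembly. -/
theorem boxS_of {Sp : Submodule ℝ E → Measure E → (E → E →L[ℝ] E) → E → ℝ → Prop}
    (hind : ∀ Q', 1 ≤ Q' → Q' < Q → RateFlat E 2 Q') (hSp : SplitInt E Sp Q) :
    BoxS Sp Q := by
  intro A K hA hK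
  have hA0 : 0 < A := by linarith
  have hK0 : 0 < K := by linarith
  obtain ⟨C, δ, hC, hδ, H⟩ := bbS (E := E) hind hA0
  obtain ⟨ε₁, hε₁, hε₁1, H₁⟩ := H K hK0
  obtain ⟨ε₂, hε₂, H₂⟩ := hSp K δ hK hδ
  obtain ⟨ε₃, hε₃, hε₃1, H₃⟩ := eventually_rb_le (K := K) (c := 1 / 8) hK (by norm_num)
  refine ⟨C, min ε₁ (min ε₂ ε₃), hC, by positivity, ?_⟩
  intro e T h ν P hc x hx hx1 hsp φ hφ
  have hle1 : e ≤ ε₁ := hc.le.trans (min_le_left _ _)
  have hc2 : Conf0 Q ε₂ e T h ν P := hc.mono ((min_le_right _ _).trans (min_le_left _ _))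
  have hle3 : e ≤ ε₃ := hc.le.trans ((min_le_right _ _).trans (min_le_right _ _))
  have hTP := H₂ e T h ν P hc2 x hx hx1 hsp
  have hr := rb_pos (K := K) hc.pos
  have hrs := H₃ _ hc.pos hle3
  have hd : dist x 0 = ‖x‖ := dist_zero_right x
  have e1 : exc T ν P x (2 * rb K e) ≤ e :=
    (exc_mono hc.ic.cyl (by rw [hd]; linarith)).trans hc.exc_le
  have k := H₁ T _ x h h e ν P φ hc.pos hle1 hc.ic.cyl hTP e1 hφ
  refine k.trans ?_
  have hL : 0 ≤ Real.log e⁻¹ := by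
    rw [Real.log_inv, neg_nonneg]
    exact Real.log_nonpos hc.pos.le (by linarith)
  have e2 := Real.rpow_nonneg hL (-A)
  have e3 : exc T ν P x (2 * rb K e) ≤ exc T ν P x (4 * rb K e) :=
    exc_mono' hc.ic.cyl (by linarith)
  gcongr

end Vale.Agent.P214.R2
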