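import Vale.Agent.P214.R2.WinSk
import Vale.Agent.P214.R2.Split

/-!
# P214, block R2 (BB-IV): two-sided bound of the fluctuation by the excess
-/

open Set Filter Topology MeasureTheory Metric Module
open scoped RealInnerProductSpace ENNReal

set_option linter.all false

namespace Vale.Agent.P214.R2

open Vale.Agent.P214.Skel

variable {E : Type*} [NormedAddCommGroup E] [InnerProductSpace ℝ E] [FiniteDimensional ℝ E]
  [MeasurableSpace E] [BorelSpace E]
variable {m Q : ℕ} {T : Submodule ℝ E} {G : Set E} {h : ℝ} {ν : Measure E} {P : E → E →L[ℝ] E}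
  {x z : E} {R s r δ : ℝ}

/-- the fluctuation at a window, in terms of the projected mass -/
lemma abs_ffl_le_aux (hC : FV.CylStat m T G h ν P) {f : E → ℝ} {M B : ℝ}
    (hf : Measurable f) (hM : ∀ y, |f y| ≤ M) (hs : ∀ y, r ≤ ‖y - x‖ → f y = 0)
    (hB : |∫ y, f (T.starProjection y) ∂ν - Q * ∫ y in (T : Set E), f y ∂μH[m]| ≤ B) :
    |Ffl m Q T ν P f| ≤ B + M / 2 * exc T ν P x r := by
  haveI := hC.fin
  have hTm : Measurable (T.starProjection : E → E) := T.starProjection.continuous.measurable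
  have hM0 : 0 ≤ M := (abs_nonneg _).trans (hM x)
  have hfi : Integrable (fun y => f (T.starProjection y)) ν :=
    Integrable.of_bound (hf.comp hTm).aestronglyMeasurable M (Eventually.of_forall fun y => by
      rw [Real.norm_eq_abs]; exact hM _)
  have hti : Integrable (fun y => f (T.starProjection y) * FV.tilt T (P y)) ν :=
    (integrable_tilt' hC).bdd_mul (c := M) (hf.comp hTm).aestronglyMeasurable
      (Eventually.of_forall fun y => by rw [Real.norm_eq_abs]; exact hM _)
  have h1 : Ffl m Q T ν P f = (∫ y, f (T.starProjection y) ∂ν -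
      Q * ∫ y in (T : Set E), f y ∂μH[m]) - 1 / 2 * ∫ y, f (T.starProjection y) *
        FV.tilt T (P y) ∂ν := by
    have e1 : ∫ y, f (T.starProjection y) * (1 - FV.tilt T (P y) / 2) ∂ν
        = ∫ y, f (T.starProjection y) ∂ν
          - 1 / 2 * ∫ y, f (T.starProjection y) * FV.tilt T (P y) ∂ν := by
      rw [← integral_const_mul, ← integral_sub hfi (hti.const_mul _)]
      exact integral_congr_ae (Eventually.of_forall fun y => by simp only; ring)
    unfold Ffl
    rw [e1]; ring
  have h2 : |∫ y, f (T.starProjection y) * FV.tilt T (P y) ∂ν| ≤ M * exc T ν P x r := by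
    rw [← Real.norm_eq_abs]
    unfold exc
    rw [← integral_indicator (measurableSet_cylSet T x r), ← integral_const_mul]
    refine norm_integral_le_of_norm_le
      (((integrable_tilt' hC).indicator (measurableSet_cylSet T x r)).const_mul M) ?_
    filter_upwards [tilt_nonneg_ae hC] with y hy
    by_cases hyc : y ∈ cylSet T x r
    · rw [indicator_of_mem hyc, norm_mul, Real.norm_eq_abs, Real.norm_eq_abs, abs_of_nonneg hy]
      gcongr
      exact hM _
    · have h3 : r ≤ ‖T.starProjection y - x‖ := by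
        by_contra hcon
        push Not at hcon
        exact hyc (by
          show T.starProjection y ∈ ball x r
          rw [mem_ball, dist_eq_norm]; exact hcon)
      rw [hs _ h3, zero_mul, norm_zero, indicator_of_notMem hyc, mul_zero]
  rw [h1]
  calc _ ≤ |∫ y, f (T.starProjection y) ∂ν - Q * ∫ y in (T : Set E), f y ∂μH[m]|
        + |1 / 2 * ∫ y, f (T.starProjection y) * FV.tilt T (P y) ∂ν| := abs_sub _ _
    _ ≤ B + 1 / 2 * (M * exc T ν P x r) := by
        rw [abs_mul, abs_of_pos (by norm_num : (0:ℝ) < 1 / 2)]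
        gcongr
    _ = _ := by ring

/-- **two-sided bound at a window** -/
theorem abs_ffl_le_of_win (E : Type*) [NormedAddCommGroup E] [InnerProductSpace ℝ E]
    [FiniteDimensional ℝ E] [MeasurableSpace E] [BorelSpace E] (m Q : ℕ) :
    ∃ δ C : ℝ, 0 < δ ∧ 0 < C ∧
    ∀ (T : Submodule ℝ E) (z : E) (R h h' : ℝ) (ν : Measure E) (P : E → E →L[ℝ] E) (G : Set E)
      (x : E) (r : ℝ) (S : Set E) (θ : E → ℕ) (J : E → ℝ), FV.CylStat m T G h' ν P →
      INT.Win m Q δ T (ball z R) h (ν.restrict (cylSet T z R)) P S θ J x r →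
      ∀ (f : E → ℝ) (M : ℝ), Measurable f → (∀ y, |f y| ≤ M) → (∀ y, r ≤ ‖y - x‖ → f y = 0) →
      |Ffl m Q T ν P f| ≤ C * M * exc T ν P x (2 * r) := by
  obtain ⟨δ, C, hδ, hC, H⟩ := INT.plane_approx_main (E := E) m Q
  refine ⟨δ, 2 * C + 1 / 2, hδ, by positivity, ?_⟩
  intro T z R h h' ν P G x r S θ J hCy hW f M hf hM hs
  haveI := hCy.fin
  have hx : x ∈ T := hW.mem
  have hr := hW.pos
  have hpx : T.starProjection x = x := Submodule.starProjection_eq_self_iff.2 hx
  have hM0 : 0 ≤ M := (abs_nonneg _).trans (hM x)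
  have key := H T _ h _ P S θ J x r hW M f hf hM
  have hcyl : cylSet T x r ⊆ cylSet T z R := by
    intro y hy
    refine hW.sub ?_
    rw [cyl_eq_cylSet hx]
    exact cylSet_mono (by rw [dist_self]; linarith) hy
  have hms := measurableSet_cylSet T x r
  have hzero : ∀ y, y ∉ cylSet T x r → f (T.starProjection y) = 0 := by
    intro y hyc
    refine hs _ ?_
    by_contra hcon
    push Not at hcon
    exact hyc (by
      show T.starProjection y ∈ ball x r
      rw [mem_ball, dist_eq_norm]; exact hcon)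
  have e1 : ∫ y in INT.cyl T x r, f (T.starProjection y) ∂(ν.restrict (cylSet T z R))
      = ∫ y, f (T.starProjection y) ∂ν := by
    rw [cyl_eq_cylSet hx, Measure.restrict_restrict hms, inter_eq_self_of_subset_left hcyl]
    exact setIntegral_eq_integral_of_forall_compl_eq_zero hzero
  have e2 : ∫ y in (T : Set E) ∩ ball x r, f y ∂(μH[m] : Measure E)
      = ∫ y in (T : Set E), f y ∂μH[m] := by
    rw [inter_comm, ← Measure.restrict_restrict measurableSet_ball]
    refine setIntegral_eq_integral_of_forall_compl_eq_zero fun y hy => hs y ?_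
    rw [mem_ball, dist_eq_norm, not_lt] at hy
    exact hy
  rw [e1, e2] at key
  have e3 := int_tilt_le (s := 2 * r) hCy hx (cylSet T z R)
  have e4 : C * M * ∫ y in INT.cyl T x (2 * r), INT.tilt P T y ^ 2 ∂(ν.restrict (cylSet T z R))
      ≤ C * M * (2 * exc T ν P x (2 * r)) := by gcongr
  refine (abs_ffl_le_aux hCy hf hM hs (key.trans e4)).trans ?_
  have e5 : exc T ν P x r ≤ exc T ν P x (2 * r) := exc_mono' hCy (by linarith)
  have e6 : M / 2 * exc T ν P x r ≤ M / 2 * exc T ν P x (2 * r) := by gcongr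
  nlinarith

/-- **two-sided bound at a scale above which the excess is small** -/
theorem ffl_iv (E : Type*) [NormedAddCommGroup E] [InnerProductSpace ℝ E]
    [FiniteDimensional ℝ E] [MeasurableSpace E] [BorelSpace E] (m Q : ℕ) (hm : 1 ≤ m) :
    ∃ δ C : ℝ, 0 < δ ∧ 0 < C ∧
    ∀ (T : Submodule ℝ E) (z : E) (R h : ℝ) (ν : Measure E) (P : E → E →L[ℝ] E),
      IntCyl m Q T z R h δ ν P → exc T ν P z R ≤ δ * R ^ m →
      ∀ x ∈ T, ‖x - z‖ ≤ 3 / 4 * R → ∀ r : ℝ, 0 < r → r ≤ R / 64 →
      (∀ s', r ≤ s' → s' ≤ R / 16 → exc T ν P x s' ≤ δ * s' ^ m) →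
      ∀ (f : E → ℝ) (M : ℝ), Measurable f → (∀ y, |f y| ≤ M) → (∀ y, r ≤ ‖y - x‖ → f y = 0) →
      |Ffl m Q T ν P f| ≤ C * M * exc T ν P x (2 * r) := by
  obtain ⟨δ₁, C, hδ₁, hC, H₁⟩ := abs_ffl_le_of_win E m Q
  obtain ⟨δ, hδ, H⟩ := win_down E m Q hm hδ₁
  refine ⟨δ, C, hδ, hC, ?_⟩
  intro T z R h ν P hI hexc x hx hxz r hr hrR hsm f M hf hM hs
  obtain ⟨S, θ, J, hint⟩ := exists_int hI
  exact H₁ T z R h h ν P _ x r S θ J hI.cyl
    (H T z R h ν P hI hexc x hx hxz r hr hrR hsm S θ J hint) f M hf hM hs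

/-- **two-sided bound at the top scale** -/
theorem ffl_top (E : Type*) [NormedAddCommGroup E] [InnerProductSpace ℝ E]
    [FiniteDimensional ℝ E] [MeasurableSpace E] [BorelSpace E] (m Q : ℕ) (hm : 1 ≤ m) :
    ∃ δ C : ℝ, 0 < δ ∧ 0 < C ∧
    ∀ (T : Submodule ℝ E) (z : E) (R h : ℝ) (ν : Measure E) (P : E → E →L[ℝ] E),
      IntCyl m Q T z R h δ ν P → exc T ν P z R ≤ δ * R ^ m →
      ∀ (f : E → ℝ) (M : ℝ), Measurable f → (∀ y, |f y| ≤ M) →
      (∀ y, 3 / 4 * R ≤ ‖y - z‖ → f y = 0) →
      |Ffl m Q T ν P f| ≤ C * M * exc T ν P z R := by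
  obtain ⟨δ₁, C, hδ₁, hC, H₁⟩ := abs_ffl_le_of_win E m Q
  obtain ⟨δ, hδ, H⟩ := win_top E m Q hm hδ₁ (c := 1 / 64) (by norm_num)
  obtain ⟨Cc, hCc, hcells⟩ := exists_cells E
  have hov := ovl_nonneg (F := E) (K := 2) (by norm_num)
  refine ⟨δ, C * ovl E 2 + 1, hδ, by positivity, ?_⟩
  intro T z R h ν P hI hexc f M hf hM hs
  haveI := hI.cyl.fin
  have hR := hI.pos
  have hM0 : 0 ≤ M := (abs_nonneg _).trans (hM z)
  obtain ⟨S, θ, J, hint⟩ := exists_int hI
  set A : Set E := (T : Set E) ∩ closedBall z (3 / 4 * R) with hA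
  obtain ⟨N, χ, hN⟩ := hcells A (R / 64) (isBounded_closedBall.subset inter_subset_right)
    (by positivity)
  have hχc : ∀ p ∈ N, Measurable (χ p) := fun p hp => by
    have : Continuous (χ p) := by
      refine LipschitzWith.continuous (K := Real.toNNReal (Cc / (R / 64)))
        (LipschitzWith.of_dist_le_mul fun x y => ?_)
      rw [Real.dist_eq]
      refine (hN.lip p hp x y).trans ?_
      gcongr
      exact Real.le_coe_toNNReal _
    exact this.measurable
  have hTm : Measurable (T.starProjection : E → E) := T.starProjection.continuous.measurable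
  -- decomposition
  have hdec : ∀ y ∈ T, f y = ∑ p ∈ N, f y * χ p y := by
    intro y hy
    rw [← Finset.mul_sum]
    by_cases hyR : 3 / 4 * R ≤ ‖y - z‖
    · rw [hs y hyR, zero_mul]
    · rw [hN.sum_one y ⟨hy, by rw [mem_closedBall, dist_eq_norm]; linarith⟩, mul_one]
  have hbd : ∀ p ∈ N, ∀ y, |f y * χ p y| ≤ M := fun p hp y => by
    rw [abs_mul, abs_of_nonneg (hN.nonneg p hp y)]
    calc |f y| * χ p y ≤ M * 1 :=
          mul_le_mul (hM y) (hN.le_one p hp y) (hN.nonneg p hp y) hM0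
      _ = M := mul_one M
  have hsup : ∀ p ∈ N, ∀ y, R / 64 ≤ ‖y - p‖ → f y * χ p y = 0 := fun p hp y hy => by
    rw [hN.supp p hp y (by rw [dist_eq_norm]; exact hy), mul_zero]
  have hsum : Ffl m Q T ν P f = ∑ p ∈ N, Ffl m Q T ν P (fun y => f y * χ p y) := by
    have i1 : ∫ y, f (T.starProjection y) * (1 - FV.tilt T (P y) / 2) ∂ν
        = ∑ p ∈ N, ∫ y, (f (T.starProjection y) * χ p (T.starProjection y))
            * (1 - FV.tilt T (P y) / 2) ∂ν := by
      rw [← integral_finset_sum]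
      · refine integral_congr_ae (Eventually.of_forall fun y => ?_)
        simp only
        rw [← Finset.sum_mul, ← hdec _ (T.starProjection_apply_mem y)]
      · intro p hp
        have h1 : Integrable (fun y => 1 - FV.tilt T (P y) / 2) ν :=
          (integrable_const 1).sub ((integrable_tilt' hI.cyl).div_const 2)
        refine h1.bdd_mul (c := M)
          ((hf.mul (hχc p hp)).comp hTm).aestronglyMeasurable ?_
        exact Eventually.of_forall fun y => by rw [Real.norm_eq_abs]; exact hbd p hp _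
    have i2 : ∫ y in (T : Set E), f y ∂(μH[m] : Measure E)
        = ∑ p ∈ N, ∫ y in (T : Set E), f y * χ p y ∂(μH[m] : Measure E) := by
      rw [← integral_finset_sum]
      · exact setIntegral_congr_fun (Submodule.closed_of_finiteDimensional T).measurableSet hdec
      · intro p hp
        have h1 : IntegrableOn (fun y => f y * χ p y)
            ((T : Set E) ∩ closedBall 0 (R / 64 + ‖p‖)) (μH[m] : Measure E) := by
          refine Measure.integrableOn_of_bounded (M := M)
            (DEN.locallyFinite_plane hI.cyl.dimT _).ne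
            (hf.mul (hχc p hp)).aestronglyMeasurable (ae_of_all _ fun y => ?_)
          rw [Real.norm_eq_abs]; exact hbd p hp y
        refine IntegrableOn.of_forall_diff_eq_zero h1
          (Submodule.closed_of_finiteDimensional T).measurableSet ?_
        rintro y ⟨hy, hy'⟩
        refine hsup p hp y ?_
        by_contra hcon
        push Not at hcon
        refine hy' ⟨hy, ?_⟩
        rw [mem_closedBall, dist_zero_right]
        calc ‖y‖ = ‖(y - p) + p‖ := by rw [sub_add_cancel]
          _ ≤ ‖y - p‖ + ‖p‖ := norm_add_le _ _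
          _ ≤ R / 64 + ‖p‖ := by gcongr
    unfold Ffl
    rw [i1, i2, Finset.mul_sum, ← Finset.sum_sub_distrib]
  have hpA : ∀ p ∈ N, p ∈ T ∧ ‖p - z‖ ≤ 3 / 4 * R := fun p hp => by
    have := hN.sub hp
    exact ⟨this.1, by rw [← dist_eq_norm]; exact this.2⟩
  have hcell : ∀ p ∈ N, |Ffl m Q T ν P (fun y => f y * χ p y)|
      ≤ C * M * exc T ν P p (2 * (R / 64)) := by
    intro p hp
    obtain ⟨hpT, hpz⟩ := hpA p hp
    exact H₁ T z R h h ν P _ p (R / 64) S θ J hI.cyl
      (H T z R h ν P hI hexc p hpT (R / 64) (by linarith) (by linarith) S θ J hint) _ M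
      (hf.mul (hχc p hp)) (hbd p hp) (hsup p hp)
  have hsumexc := hN.sum_exc_le hI.cyl (K := 2) (by norm_num) (Finset.Subset.refl N) (z := z)
    (R := R) (fun p hp => by
      have := (hpA p hp).2
      rw [dist_eq_norm]; linarith)
  have e0 := exc_nonneg hI.cyl z R
  rw [hsum]
  calc |∑ p ∈ N, Ffl m Q T ν P (fun y => f y * χ p y)|
      ≤ ∑ p ∈ N, |Ffl m Q T ν P (fun y => f y * χ p y)| := Finset.abs_sum_le_sum_abs _ _
    _ ≤ ∑ p ∈ N, C * M * exc T ν P p (2 * (R / 64)) := Finset.sum_le_sum hcell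
    _ = C * M * ∑ p ∈ N, exc T ν P p (2 * (R / 64)) := by rw [← Finset.mul_sum]
    _ ≤ C * M * (ovl E 2 * exc T ν P z R) := by gcongr
    _ = (C * ovl E 2) * M * exc T ν P z R := by ring
    _ ≤ (C * ovl E 2 + 1) * M * exc T ν P z R := by gcongr; linarith

variable (E) in
/-- **(BB-IV)** -/
theorem boxIV (Q : ℕ) : BoxIV E Q := by
  obtain ⟨δ, C, hδ, hC, H⟩ := ffl_iv E 2 Q (by norm_num)
  refine ⟨C, hC, fun K hK => ?_⟩
  have hK0 : 0 < K := by linarith
  obtain ⟨ε₁, hε₁, hε₁1, H₁⟩ := eventually_rb_le (K := K) (c := 1 / 32) hK (by norm_num)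
  obtain ⟨ε₂, hε₂, hε₂1, H₂⟩ := exists_eps_of_eventually
    (eventually_lam_ge (K := K) hK0 (Real.log δ⁻¹))
  refine ⟨min δ (min ε₁ ε₂), by positivity, ?_⟩
  intro e T h ν P hc x hx hx1 f M hf hM hs
  have hle : e ≤ δ := hc.le.trans (min_le_left _ _)
  have hle1 : e ≤ ε₁ := hc.le.trans ((min_le_right _ _).trans (min_le_left _ _))
  have hle2 : e ≤ ε₂ := hc.le.trans ((min_le_right _ _).trans (min_le_right _ _))
  have hr := rb_pos (K := K) hc.pos
  have hrs := H₁ _ hc.pos hle1
  have hlam := H₂ _ hc.pos hle2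
  rw [← lam_eq, Real.log_inv] at hlam
  have hb : Real.exp (-lam K e) ≤ δ := by
    rw [← Real.le_log_iff_exp_le hδ]; linarith
  have hM0 : 0 ≤ M := (abs_nonneg _).trans (hM x)
  have hI : IntCyl 2 Q T 0 2 h δ ν P := intCyl_mono_delta hc.ic (min_le_left _ _)
  have hexc := hc.exc_le
  have hpos := hc.pos
  have k := H T 0 2 h ν P hI (by linarith) x hx
    (by rw [sub_zero]; linarith) (rb K e) hr (by linarith) ?_ f M hf hM hs
  · refine k.trans ?_
    have e1 : exc T ν P x (2 * rb K e) ≤ exc T ν P x (4 * rb K e) :=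
      exc_mono' hc.ic.cyl (by linarith)
    gcongr
  · intro s' h1 h2
    have e1 : exc T ν P x s' ≤ exc T ν P 0 2 := exc_mono hc.ic.cyl (by
      rw [dist_zero_right]; linarith)
    calc exc T ν P x s' ≤ e := e1.trans hexc
      _ = Real.exp (-lam K e) * rb K e ^ 2 := (exp_neg_mul_rb_sq hc.pos).symm
      _ ≤ δ * s' ^ 2 := by gcongr

variable (E) in
/-- **(BB-IV, top)** -/
theorem boxTop (Q : ℕ) : BoxTop E Q := by
  obtain ⟨δ, C, hδ, hC, H⟩ := ffl_top E 2 Q (by norm_num)
  refine ⟨C, δ, hC, hδ, ?_⟩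
  intro T h ν P hI hexc f hf hM hs
  have k := H T 0 2 h ν P hI (by linarith [exc_nonneg hI.cyl (0:E) 2]) f 1 hf hM (fun y hy => by
    rw [sub_zero] at hy
    exact hs y (by linarith))
  rwa [mul_one] at k

end Vale.Agent.P214.R2
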