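import Vale.Agent.P214.R2.ExcBasic
import Vale.Agent.P214.TCH.Path
import Vale.Agent.P214.MU.Theta
import Vale.Agent.P214.INT.MMain
import Vale.Agent.P214.AREA.Conv

/-!
# P214, block R2: from `Skel.IntCyl` to the windows of the counting block

The constant `cg m` of the smooth kernel is `cm m * om m`; the smooth mass fraction at comparable
scales is near `Q`; theorem M applies all the way down to a scale where the excess is small.
-/

open Set Filter Topology MeasureTheory Metric Module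
open scoped RealInnerProductSpace ENNReal

set_option linter.all false

namespace Vale.Agent.P214.R2

open Vale.Agent.P214.Skel

lemma cphi_prof_eq (m : ℕ) : MU.cphi m prof = TCH.cm m := by
  have h1 : MU.cphi m prof = ∫ s in Ioc (0:ℝ) 1, 2 * (s ^ ((m:ℝ) / 2) - s ^ ((m:ℝ) / 2 + 1)) := by
    unfold MU.cphi
    refine setIntegral_congr_fun measurableSet_Ioc fun s hs => ?_
    have hs0 : 0 < s := hs.1
    have e1 : (√s) ^ m = s ^ ((m:ℝ) / 2) := by
      rw [Real.sqrt_eq_rpow, ← Real.rpow_natCast, ← Real.rpow_mul hs0.le]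
      congr 1; ring
    have e2 : -deriv prof s = 2 * (1 - s) := by
      rw [(hasDerivAt_prof s).deriv]
      unfold dprof
      rw [max_eq_left (by linarith [hs.2])]
      ring
    have e3 : s ^ ((m:ℝ) / 2 + 1) = s ^ ((m:ℝ) / 2) * s := by
      rw [Real.rpow_add hs0, Real.rpow_one]
    simp only [e1, e2, e3]
    ring
  rw [h1, ← intervalIntegral.integral_of_le zero_le_one,
    intervalIntegral.integral_const_mul, intervalIntegral.integral_sub]
  · have hm : (0:ℝ) ≤ m := by positivity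
    rw [integral_rpow (Or.inl (by linarith)), integral_rpow (Or.inl (by linarith))]
    rw [Real.one_rpow, Real.one_rpow, Real.zero_rpow (by positivity), Real.zero_rpow (by positivity)]
    unfold TCH.cm
    field_simp
    ring
  · exact intervalIntegral.intervalIntegrable_rpow' (by have : (0:ℝ) ≤ m := by positivity
                                                        linarith)
  · exact intervalIntegral.intervalIntegrable_rpow' (by have : (0:ℝ) ≤ m := by positivity
                                                        linarith)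

lemma cg_eq_cm (m : ℕ) : cg m = TCH.cm m * Skel.om m := by
  rw [MU.cg_eq, cphi_prof_eq, mul_comm]
  rfl

variable {E : Type*} [NormedAddCommGroup E] [InnerProductSpace ℝ E] [FiniteDimensional ℝ E]
  [MeasurableSpace E] [BorelSpace E]
variable {m Q : ℕ} {T : Submodule ℝ E} {G : Set E} {h : ℝ} {ν : Measure E} {P : E → E →L[ℝ] E}
  {x z : E} {R s r δ : ℝ}

lemma cyl_eq_cylSet (hx : x ∈ T) (s : ℝ) : INT.cyl T x s = cylSet T x s := by
  unfold INT.cyl cylSet
  rw [Submodule.starProjection_eq_self_iff.2 hx]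
  rfl

/-- `‖P - p‖² ≤ 2 tilt` -/
lemma int_tilt_sq_le (hC : FV.CylStat m T G h ν P) :
    ∀ᵐ y ∂ν, INT.tilt P T y ^ 2 ≤ 2 * FV.tilt T (P y) := by
  filter_upwards [hC.proj] with y hy
  obtain ⟨S, hS, hP⟩ := hy
  unfold INT.tilt
  rw [hP]
  have h0 : 0 ≤ 2 * FV.tilt T S.starProjection := by
    have := FV.tilt_nonneg S T; linarith
  have h1 : ‖S.starProjection - T.starProjection‖ ≤ √(2 * FV.tilt T S.starProjection) := by
    refine ContinuousLinearMap.opNorm_le_bound _ (Real.sqrt_nonneg _) fun v => ?_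
    have h2 := FV.norm_sq_sub_le S T (hS.trans hC.dimT.symm) v
    rw [ContinuousLinearMap.sub_apply]
    refine (pow_le_pow_iff_left₀ (norm_nonneg _) (by positivity) (two_ne_zero)).1 ?_
    rw [mul_pow, Real.sq_sqrt h0]
    exact h2
  calc ‖S.starProjection - T.starProjection‖ ^ 2 ≤ √(2 * FV.tilt T S.starProjection) ^ 2 := by
        gcongr
    _ = _ := Real.sq_sqrt h0

lemma htot_restrict (hx : x ∈ T) (hs : 0 < s) (hsub : cylSet T x s ⊆ cylSet T z R) :
    INT.htot m T (ν.restrict (cylSet T z R)) x s = INT.htot m T ν x s := by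
  unfold INT.htot
  congr 1
  refine setIntegral_eq_integral_of_forall_compl_eq_zero fun y hy => ?_
  have h1 : y ∉ cylSet T x s := fun h => hy (hsub h)
  refine cut_eq_zero hs ?_
  rw [Submodule.starProjection_eq_self_iff.2 hx]
  by_contra hcon
  push Not at hcon
  exact h1 (by
    show T.starProjection y ∈ ball x s
    rw [mem_ball, dist_eq_norm]; exact hcon)

/-- the squared tilt over a cylinder is bounded by twice the excess -/
lemma int_tilt_le (hC : FV.CylStat m T G h ν P) (hx : x ∈ T) (A : Set E) :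
    ∫ y in INT.cyl T x s, INT.tilt P T y ^ 2 ∂(ν.restrict A) ≤ 2 * exc T ν P x s := by
  haveI := hC.fin
  have hle : (ν.restrict A).restrict (INT.cyl T x s) ≤ ν.restrict (INT.cyl T x s) :=
    Measure.restrict_mono_measure Measure.restrict_le_self _
  have hi : IntegrableOn (fun y => 2 * FV.tilt T (P y)) (cylSet T x s) ν :=
    ((integrable_tilt' hC).const_mul 2).integrableOn
  have h0 : ∀ᵐ y ∂(ν.restrict (cylSet T x s)), 0 ≤ 2 * FV.tilt T (P y) :=
    ae_restrict_of_ae (by filter_upwards [tilt_nonneg_ae hC] with y hy; linarith)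
  have hle' : (ν.restrict A).restrict (INT.cyl T x s) ≤ ν.restrict (cylSet T x s) := by
    rw [← cyl_eq_cylSet hx]; exact hle
  calc ∫ y in INT.cyl T x s, INT.tilt P T y ^ 2 ∂(ν.restrict A)
      ≤ ∫ y in INT.cyl T x s, 2 * FV.tilt T (P y) ∂(ν.restrict A) := by
        refine integral_mono_of_nonneg (Eventually.of_forall fun y => sq_nonneg _)
          (Integrable.mono_measure hi hle') ?_
        exact ae_mono (hle.trans Measure.restrict_le_self) (int_tilt_sq_le hC)
    _ ≤ ∫ y in cylSet T x s, 2 * FV.tilt T (P y) ∂ν := integral_mono_measure hle' h0 hi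
    _ = 2 * exc T ν P x s := by rw [integral_const_mul]; rfl

lemma int_exc_le (hC : FV.CylStat m T G h ν P) (hx : x ∈ T) (hs : 0 < s) (A : Set E) :
    INT.exc m T (ν.restrict A) P x s ≤ 2 * exc T ν P x s / s ^ m := by
  unfold INT.exc
  have := int_tilt_le (s := s) hC hx A
  gcongr

/-- **the smooth mass fraction from the sharp mass at the top scale** -/
theorem near_of_skel (hI : IntCyl m Q T z R h δ ν P) (hm : 1 ≤ m) (hx : x ∈ T) (hs : 0 < s)
    (hsub : ‖x - z‖ + s ≤ R) :
    |INT.htot m T ν x s / cg m - Q| ≤ (36 * R / s ^ (m + 1) * exc T ν P z R + δ) / cg m := by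
  have hR := hI.pos
  have hcm := TCH.cm_pos m
  have hcg := cg_pos m
  have hsR : s ≤ R := by linarith [norm_nonneg (x - z)]
  have hsm : 0 < s ^ m := pow_pos hs m
  have hd : s + dist x z ≤ R := by rw [dist_eq_norm]; linarith
  have hball : ball x s ⊆ ball z R := ball_subset_ball' hd
  have hCx : FV.CylStat m T (ball x s) h ν P := FV.CylStat.mono hI.cyl isOpen_ball hball
  have e0 := exc_nonneg hI.cyl z R
  have e1 : exc T ν P x s ≤ exc T ν P z R := exc_mono hI.cyl hd
  -- smooth against sharp mass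
  have k1 := TCH.sharp_smooth hCx hx hm hs le_rfl
  rw [← TCH.exc_eq hx hs] at k1
  have k2 : INT.htot m T ν x s * s ^ m = ∫ y, prof (ODE.bsq T x y / s ^ 2) ∂ν := by
    unfold INT.htot
    rw [div_mul_cancel₀ _ hsm.ne']
    refine integral_congr_ae (Eventually.of_forall fun y => ?_)
    simp only [cut, ODE.bsq, ODE.bx_eq]
  rw [← k2] at k1
  -- sharp masses
  have k3 := TCH.mass_sub hI.cyl hI.mem hm hx hs hsub
  have k4 := hI.mass
  have hRm : 0 < R ^ m := pow_pos hR m
  have k5 : |ν.real (cylSet T z R) / R ^ m - Q * om m| ≤ δ := by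
    have : ν.real (cylSet T z R) / R ^ m - Q * om m
        = (ν.real (cylSet T z R) - Q * om m * R ^ m) / R ^ m := by field_simp
    rw [this, abs_div, abs_of_pos hRm, div_le_iff₀ hRm]
    exact k4
  have k6 : |TCH.cm m * (ν.real (cylSet T x s) / s ^ m) - INT.htot m T ν x s|
      ≤ 12 * exc T ν P z R / s ^ m := by
    have : TCH.cm m * (ν.real (cylSet T x s) / s ^ m) - INT.htot m T ν x s
        = (TCH.cm m * ν.real (cylSet T x s) - INT.htot m T ν x s * s ^ m) / s ^ m := by
      field_simp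
    rw [this, abs_div, abs_of_pos hsm]
    gcongr
    exact k1.trans (by gcongr)
  have k7 : |INT.htot m T ν x s - cg m * Q| ≤ 36 * R / s ^ (m + 1) * exc T ν P z R + δ := by
    have e2 : INT.htot m T ν x s - cg m * Q
        = -(TCH.cm m * (ν.real (cylSet T x s) / s ^ m) - INT.htot m T ν x s)
          + TCH.cm m * (ν.real (cylSet T x s) / s ^ m - ν.real (cylSet T z R) / R ^ m)
          + TCH.cm m * (ν.real (cylSet T z R) / R ^ m - Q * om m) := by
      rw [cg_eq_cm]; ring
    rw [e2]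
    have a1 : |TCH.cm m * (ν.real (cylSet T x s) / s ^ m - ν.real (cylSet T z R) / R ^ m)|
        ≤ TCH.cm m * (24 * R / (TCH.cm m * s ^ (m + 1)) * exc T ν P z R) := by
      rw [abs_mul, abs_of_pos hcm]; gcongr
    have a2 : |TCH.cm m * (ν.real (cylSet T z R) / R ^ m - Q * om m)| ≤ δ := by
      rw [abs_mul, abs_of_pos hcm]
      calc TCH.cm m * _ ≤ 1 * δ :=
            mul_le_mul (TCH.cm_le m) k5 (abs_nonneg _) zero_le_one
        _ = δ := one_mul _
    have a3 : TCH.cm m * (24 * R / (TCH.cm m * s ^ (m + 1)) * exc T ν P z R)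
        = 24 * R / s ^ (m + 1) * exc T ν P z R := by field_simp
    have a4 : 12 * exc T ν P z R / s ^ m ≤ 12 * R / s ^ (m + 1) * exc T ν P z R := by
      have : 12 * exc T ν P z R / s ^ m = 12 * s / s ^ (m + 1) * exc T ν P z R := by
        rw [pow_succ]; field_simp
      rw [this]
      gcongr
    calc _ ≤ |-(TCH.cm m * (ν.real (cylSet T x s) / s ^ m) - INT.htot m T ν x s)|
          + |TCH.cm m * (ν.real (cylSet T x s) / s ^ m - ν.real (cylSet T z R) / R ^ m)|
          + |TCH.cm m * (ν.real (cylSet T z R) / R ^ m - Q * om m)| := abs_add_three _ _ _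
      _ ≤ 12 * R / s ^ (m + 1) * exc T ν P z R + 24 * R / s ^ (m + 1) * exc T ν P z R + δ := by
          rw [abs_neg]
          exact add_le_add (add_le_add (k6.trans a4) (a1.trans a3.le)) a2
      _ = _ := by ring
  have e3 : INT.htot m T ν x s / cg m - Q = (INT.htot m T ν x s - cg m * Q) / cg m := by
    field_simp
  rw [e3, abs_div, abs_of_pos hcg]
  gcongr

lemma exists_int (hI : IntCyl m Q T z R h δ ν P) : ∃ (S : Set E) (θ : E → ℕ) (J : E → ℝ),
    INT.IntCyl m T (ball z R) h (ν.restrict (cylSet T z R)) P S θ J := by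
  obtain ⟨S, θ, -, -, -, h1⟩ := AREA.intCyl_of_skel hI (A := univ)
    (Eventually.of_forall fun _ _ => mem_univ _)
  exact ⟨S, θ, _, h1⟩

lemma cyl_sub_pre (hx : x ∈ T) {ρ : ℝ} (h : ‖x - z‖ + ρ ≤ R) :
    INT.cyl T x ρ ⊆ T.starProjection ⁻¹' (ball z R) := by
  rw [cyl_eq_cylSet hx]
  intro y hy
  exact ball_subset_ball' (by rw [dist_eq_norm]; linarith) hy

/-- **windows at comparable scales** -/
theorem win_top (E : Type*) [NormedAddCommGroup E] [InnerProductSpace ℝ E]
    [FiniteDimensional ℝ E] [MeasurableSpace E] [BorelSpace E] (m Q : ℕ) (hm : 1 ≤ m) {δ₁ c : ℝ}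
    (hδ₁ : 0 < δ₁) (hc : 0 < c) : ∃ δ : ℝ, 0 < δ ∧
    ∀ (T : Submodule ℝ E) (z : E) (R h : ℝ) (ν : Measure E) (P : E → E →L[ℝ] E),
      IntCyl m Q T z R h δ ν P → exc T ν P z R ≤ δ * R ^ m →
      ∀ x ∈ T, ∀ r : ℝ, c * R ≤ r → ‖x - z‖ + 4 * r ≤ R →
      ∀ (S : Set E) (θ : E → ℕ) (J : E → ℝ),
        INT.IntCyl m T (ball z R) h (ν.restrict (cylSet T z R)) P S θ J →
        INT.Win m Q δ₁ T (ball z R) h (ν.restrict (cylSet T z R)) P S θ J x r := by
  have hcg := cg_pos m
  set A : ℝ := 36 / (2 * c) ^ (m + 1) with hA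
  have hA0 : 0 < A := by positivity
  set B : ℝ := 2 / (4 * c) ^ m with hB
  have hB0 : 0 < B := by positivity
  refine ⟨min (cg m / (3 * (A + 1))) (δ₁ / B), by positivity, ?_⟩
  intro T z R h ν P hI hexc x hx r hr hsub S θ J hint
  set δ := min (cg m / (3 * (A + 1))) (δ₁ / B) with hδ
  have hR := hI.pos
  have hcR : 0 < c * R := by positivity
  have hr0 : 0 < r := hcR.trans_le hr
  have hδ0 : 0 < δ := by positivity
  have hRm : 0 < R ^ m := pow_pos hR m
  refine ⟨hint, hx, hr0, cyl_sub_pre hx hsub, ?_, ?_⟩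
  · have hs2 : ‖x - z‖ + 2 * r ≤ R := by linarith
    have hcs : cylSet T x (2 * r) ⊆ cylSet T z R := cylSet_mono (by rw [dist_eq_norm]; linarith)
    rw [htot_restrict hx (by positivity) hcs]
    refine (near_of_skel hI hm hx (by positivity) hs2).trans ?_
    rw [div_le_iff₀ hcg]
    have he0 := exc_nonneg hI.cyl z R
    have e1 : 36 * R / (2 * r) ^ (m + 1) * exc T ν P z R ≤ A * δ := by
      calc 36 * R / (2 * r) ^ (m + 1) * exc T ν P z R
          ≤ 36 * R / (2 * (c * R)) ^ (m + 1) * (δ * R ^ m) := by gcongr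
        _ = A * δ := by
          rw [hA, show 2 * (c * R) = (2 * c) * R by ring, mul_pow, pow_succ R m]
          field_simp
    have e2 : (A + 1) * δ ≤ cg m / 3 := by
      have : δ ≤ cg m / (3 * (A + 1)) := min_le_left _ _
      calc (A + 1) * δ ≤ (A + 1) * (cg m / (3 * (A + 1))) := by gcongr
        _ = cg m / 3 := by field_simp
    nlinarith
  · refine (int_exc_le hI.cyl hx (by positivity) _).trans ?_
    have e1 : exc T ν P x (4 * r) ≤ δ * R ^ m :=
      (exc_mono hI.cyl (by rw [dist_eq_norm]; linarith)).trans hexc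
    have e2 : δ ≤ δ₁ / B := min_le_right _ _
    calc 2 * exc T ν P x (4 * r) / (4 * r) ^ m ≤ 2 * (δ * R ^ m) / (4 * (c * R)) ^ m := by
          gcongr
      _ = B * δ := by
          rw [hB, show 4 * (c * R) = (4 * c) * R by ring, mul_pow]
          field_simp
      _ ≤ B * (δ₁ / B) := by gcongr
      _ = δ₁ := by field_simp

/-- the mass fraction stays near `Q` all the way down -/
theorem near_down (E : Type*) [NormedAddCommGroup E] [InnerProductSpace ℝ E]
    [FiniteDimensional ℝ E] [MeasurableSpace E] [BorelSpace E] (m Q : ℕ) (hm : 1 ≤ m) {η : ℝ}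
    (hη : 0 < η) : ∃ δ C : ℝ, 0 < δ ∧ 0 < C ∧
    ∀ (T : Submodule ℝ E) (z : E) (R h : ℝ) (ν : Measure E) (P : E → E →L[ℝ] E),
      IntCyl m Q T z R h δ ν P → exc T ν P z R ≤ δ * R ^ m →
      ∀ x ∈ T, ‖x - z‖ ≤ 3 / 4 * R → ∀ s : ℝ, 0 < s → s ≤ R / 16 →
      (∀ s', s ≤ s' → s' ≤ R / 16 → exc T ν P x s' ≤ δ * s' ^ m) →
      (∀ t, s / 10 ≤ t → t ≤ R / 16 → |INT.htot m T ν x t / cg m - Q| ≤ η) ∧
      (∀ t, t ≤ 5 * s → t ≤ R / 8 → ν.real (cylSet T x t) ≤ C * s ^ m) := by
  obtain ⟨δM, CM, hδM, hCM, HM⟩ := INT.massStable (E := E) m Q η hη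
  obtain ⟨δ₀, hδ₀, H₀⟩ := win_top E m Q hm hδM (c := 1 / 16) (by norm_num)
  refine ⟨min δ₀ (δM / 2), CM, by positivity, hCM, ?_⟩
  intro T z R h ν P hI hexc x hx hxz s hs hsR hsm
  have hR := hI.pos
  have hd1 : min δ₀ (δM / 2) ≤ δ₀ := min_le_left _ _
  have hd2 : min δ₀ (δM / 2) ≤ δM / 2 := min_le_right _ _
  obtain ⟨S, θ, J, hint⟩ := exists_int hI
  have hI' : IntCyl m Q T z R h δ₀ ν P := { hI with mass := hI.mass.trans (by gcongr) }
  have hW := H₀ T z R h ν P hI' (hexc.trans (by gcongr)) x hx (R / 16) (by linarith)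
    (by linarith) S θ J hint
  obtain ⟨h1, h2⟩ := HM T _ h _ P S θ J x (R / 16) hW x hx (mem_ball_self (by positivity)) s hs hsR
    (fun s' h1 h2 => by
      have hs' : 0 < s' := hs.trans_le h1
      refine (int_exc_le hI.cyl hx hs' _).trans ?_
      rw [div_le_iff₀ (by positivity)]
      have h3 := hsm s' h1 h2
      have h4 : 0 < s' ^ m := by positivity
      nlinarith)
  refine ⟨fun t ht1 ht2 => ?_, fun t ht1 ht2 => ?_⟩
  · have ht0 : 0 < t := by linarith
    have h3 := h1 t ht1 ht2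
    rwa [htot_restrict hx ht0 (cylSet_mono (by rw [dist_eq_norm]; linarith))] at h3
  · have h3 := h2 t ht1 (by linarith)
    rw [cyl_eq_cylSet hx, measureReal_restrict_apply (measurableSet_cylSet T x t),
      inter_eq_self_of_subset_left (cylSet_mono (by rw [dist_eq_norm]; linarith))] at h3
    exact h3

/-- **windows at all scales down to a scale with small excess** -/
theorem win_down (E : Type*) [NormedAddCommGroup E] [InnerProductSpace ℝ E]
    [FiniteDimensional ℝ E] [MeasurableSpace E] [BorelSpace E] (m Q : ℕ) (hm : 1 ≤ m) {δ₁ : ℝ}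
    (hδ₁ : 0 < δ₁) : ∃ δ : ℝ, 0 < δ ∧
    ∀ (T : Submodule ℝ E) (z : E) (R h : ℝ) (ν : Measure E) (P : E → E →L[ℝ] E),
      IntCyl m Q T z R h δ ν P → exc T ν P z R ≤ δ * R ^ m →
      ∀ x ∈ T, ‖x - z‖ ≤ 3 / 4 * R → ∀ r : ℝ, 0 < r → r ≤ R / 64 →
      (∀ s', r ≤ s' → s' ≤ R / 16 → exc T ν P x s' ≤ δ * s' ^ m) →
      ∀ (S : Set E) (θ : E → ℕ) (J : E → ℝ),
        INT.IntCyl m T (ball z R) h (ν.restrict (cylSet T z R)) P S θ J →
        INT.Win m Q δ₁ T (ball z R) h (ν.restrict (cylSet T z R)) P S θ J x r := by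
  obtain ⟨δ, C, hδ, hC, H⟩ := near_down E m Q hm (η := 1 / 3) (by norm_num)
  refine ⟨min δ (δ₁ / 2), by positivity, ?_⟩
  intro T z R h ν P hI hexc x hx hxz r hr hrR hsm S θ J hint
  have hR := hI.pos
  have hd1 : min δ (δ₁ / 2) ≤ δ := min_le_left _ _
  have hd2 : min δ (δ₁ / 2) ≤ δ₁ / 2 := min_le_right _ _
  have hI' : IntCyl m Q T z R h δ ν P := { hI with mass := hI.mass.trans (by gcongr) }
  obtain ⟨h1, -⟩ := H T z R h ν P hI' (hexc.trans (by gcongr)) x hx hxz r hr (by linarith)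
    (fun s' h1 h2 => (hsm s' h1 h2).trans (by
      have : 0 < s' := hr.trans_le h1
      gcongr))
  refine ⟨hint, hx, hr, cyl_sub_pre hx (by linarith), ?_, ?_⟩
  · rw [htot_restrict hx (by positivity) (cylSet_mono (by rw [dist_eq_norm]; linarith))]
    exact h1 (2 * r) (by linarith) (by linarith)
  · refine (int_exc_le hI.cyl hx (by positivity) _).trans ?_
    rw [div_le_iff₀ (by positivity)]
    have h3 := hsm (4 * r) (by linarith) (by linarith)
    have h4 : 0 < (4 * r) ^ m := by positivity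
    nlinarith

/-- **(I1)**: `Skel.IntCyl` all the way down -/
theorem intCyl_down (E : Type*) [NormedAddCommGroup E] [InnerProductSpace ℝ E]
    [FiniteDimensional ℝ E] [MeasurableSpace E] [BorelSpace E] (m Q : ℕ) (hm : 1 ≤ m) {δ' : ℝ}
    (hδ' : 0 < δ') : ∃ δ : ℝ, 0 < δ ∧
    ∀ (T : Submodule ℝ E) (z : E) (R h : ℝ) (ν : Measure E) (P : E → E →L[ℝ] E),
      IntCyl m Q T z R h δ ν P → exc T ν P z R ≤ δ * R ^ m →
      ∀ x ∈ T, ‖x - z‖ ≤ 3 / 4 * R → ∀ s : ℝ, 0 < s → s ≤ R / 16 →
      (∀ s', s ≤ s' → s' ≤ R / 16 → exc T ν P x s' ≤ δ * s' ^ m) →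
      IntCyl m Q T x s h δ' ν P := by
  have hcm := TCH.cm_pos m
  have hcg := cg_pos m
  obtain ⟨δ, C, hδ, hC, H⟩ := near_down E m Q hm (η := TCH.cm m * δ' / (2 * cg m)) (by positivity)
  refine ⟨min δ (TCH.cm m * δ' / 24), by positivity, ?_⟩
  intro T z R h ν P hI hexc x hx hxz s hs hsR hsm
  have hR := hI.pos
  have hd1 : min δ (TCH.cm m * δ' / 24) ≤ δ := min_le_left _ _
  have hd2 : min δ (TCH.cm m * δ' / 24) ≤ TCH.cm m * δ' / 24 := min_le_right _ _
  have hI' : IntCyl m Q T z R h δ ν P := { hI with mass := hI.mass.trans (by gcongr) }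
  obtain ⟨h1, -⟩ := H T z R h ν P hI' (hexc.trans (by gcongr)) x hx hxz s hs hsR
    (fun s' h1 h2 => (hsm s' h1 h2).trans (by
      have : 0 < s' := hs.trans_le h1
      gcongr))
  have hball : ball x s ⊆ ball z R := ball_subset_ball' (by rw [dist_eq_norm]; linarith)
  have hCx : FV.CylStat m T (ball x s) h ν P := FV.CylStat.mono hI.cyl isOpen_ball hball
  refine ⟨hCx, hx, hs, ?_, ?_⟩
  · filter_upwards [hI.int] with y hy hys using hy (hball hys)
  have h2 := h1 s (by linarith) hsR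
  have h3 := hsm s le_rfl hsR
  have hsm0 : 0 < s ^ m := pow_pos hs m
  have k1 := TCH.sharp_smooth hCx hx hm hs le_rfl
  rw [← TCH.exc_eq hx hs] at k1
  have k2 : INT.htot m T ν x s * s ^ m = ∫ y, prof (ODE.bsq T x y / s ^ 2) ∂ν := by
    unfold INT.htot
    rw [div_mul_cancel₀ _ hsm0.ne']
    refine integral_congr_ae (Eventually.of_forall fun y => ?_)
    simp only [cut, ODE.bsq, ODE.bx_eq]
  rw [← k2] at k1
  have k3 : |INT.htot m T ν x s - cg m * Q| ≤ TCH.cm m * δ' / 2 := by
    have e1 : INT.htot m T ν x s - cg m * Q = cg m * (INT.htot m T ν x s / cg m - Q) := by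
      field_simp
    rw [e1, abs_mul, abs_of_pos hcg]
    calc cg m * |INT.htot m T ν x s / cg m - Q| ≤ cg m * (TCH.cm m * δ' / (2 * cg m)) := by gcongr
      _ = _ := by field_simp
  have k4 : |TCH.cm m * (ν.real (cylSet T x s) - Q * om m * s ^ m)| ≤ TCH.cm m * (δ' * s ^ m) := by
    have e2 : TCH.cm m * (ν.real (cylSet T x s) - Q * om m * s ^ m)
        = (TCH.cm m * ν.real (cylSet T x s) - INT.htot m T ν x s * s ^ m)
          + (INT.htot m T ν x s - cg m * Q) * s ^ m := by
      rw [cg_eq_cm]; ring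
    rw [e2]
    refine (abs_add_le _ _).trans ?_
    rw [abs_mul, abs_of_pos hsm0]
    have a1 : 12 * exc T ν P x s ≤ TCH.cm m * δ' / 2 * s ^ m := by
      calc 12 * exc T ν P x s ≤ 12 * (TCH.cm m * δ' / 24 * s ^ m) := by
            gcongr; exact h3.trans (by gcongr)
        _ = _ := by ring
    calc _ ≤ TCH.cm m * δ' / 2 * s ^ m + TCH.cm m * δ' / 2 * s ^ m :=
          add_le_add (k1.trans a1) (by gcongr)
      _ = _ := by ring
  rw [abs_mul, abs_of_pos hcm] at k4
  exact le_of_mul_le_mul_left k4 hcm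

end Vale.Agent.P214.R2
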