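import Vale.Agent.P214.R2.Exh
import Vale.Agent.P214.R2.Props

/-!
# P214, block R2-EX: the exhaustion in the form of the interface
-/

open Set Filter Topology MeasureTheory Metric
open scoped RealInnerProductSpace ENNReal

set_option linter.all false

namespace Vale.Agent.P214.R2

open Vale.Agent.P214.Skel Vale.Agent.P214.EX

variable {E : Type*} [NormedAddCommGroup E] [InnerProductSpace ℝ E] [FiniteDimensional ℝ E]
  [MeasurableSpace E] [BorelSpace E]
variable {Q : ℕ} {T : Submodule ℝ E} {G : Set E} {h : ℝ} {ν : Measure E} {P : E → E →L[ℝ] E}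
  {k k' K : ℝ → ℝ}

lemma Xf_eq_Xn (hC : FV.CylStat 2 T G h ν P) (hk : ODE.Kern k k' K) (h14 : 0 < K (1 / 4))
    {x : E} {r : ℝ} (hr : 0 < r) (hxr : ‖x‖ + r ≤ 2) :
    Xf 2 Q T ν P K x r = Xn Q T ν P (etaK K) x r := by
  haveI := hC.fin
  obtain ⟨Kl, hη⟩ := isKernel_etaK (E := E) hk h14
  unfold Xf Xneg Xn
  rw [Lam_eq_Ffl hC (measurable_ker hk x r) (C := 1)
    (fun y => by rw [abs_of_nonneg (ker_nonneg hη x r y)]; exact ker_le_one hη x r y)
    (fun y hy => ker_zero_far hk hr hxr hy),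
    integral_nuB hC (measurable_ker hk x r) fun y hy => ker_zero_far hk hr hxr hy]

/-- **The exhaustion.** -/
theorem boxExh (hk : ODE.Kern k k' K) (h14 : 0 < K (1 / 4)) (Q : ℕ) :
    BoxExh (E := E) (etaK K) Q := by
  intro Kb hKb
  obtain ⟨B₀, hB₀, H⟩ := exists_exh (E := E) hk h14 (Kb := Kb) (by linarith)
  refine ⟨B₀, hB₀, eta1, continuous_eta1, eta1_nonneg, eta1_le_one, fun x hx => eta1_eq_zero hx,
    ?_⟩
  intro T h ε ν P hI φ hφ δ t₀ hδ hδ2 ht0 ht0δ J
  obtain ⟨ρ, N, hE⟩ := H 2 Q T (ball 0 2) h ν P φ δ t₀ J hI.cyl hφ hδ hδ2 ht0 (by linarith)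
  refine ⟨ρ, N, ?_⟩
  have hT : 0 < t₀ / 2 ^ J := by positivity
  have hTle : t₀ / 2 ^ J ≤ t₀ := div_le_self ht0.le (one_le_pow₀ (by norm_num))
  refine ⟨hE.cont.measurable, hE.contN.measurable, hE.nonneg, hE.negN, hE.leN, ?_, hE.le, ?_,
    hE.ineq, ?_⟩
  · intro x hx
    rw [mem_ball_zero_iff, not_lt] at hx
    exact (hE.off x (by linarith)).2
  · intro x hx y hy hxy
    exact hE.loglip x (ball_subset_closedBall hx) y (ball_subset_closedBall hy) hxy
  · intro x hx hx98
    rcases hE.alt x hx hx98 with h1 | h1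
    · exact Or.inl h1
    · right
      refine le_trans (le_of_eq ?_) h1
      refine intervalIntegral.integral_congr fun r hr => ?_
      rw [uIcc_of_le (by linarith)] at hr
      have hr0 : 0 < r := by linarith [hr.1]
      show Xn Q T ν P (etaK K) x r / r = Xf 2 Q T ν P K x r / r
      rw [Xf_eq_Xn hI.cyl hk h14 hr0 (by linarith [hr.2])]

end Vale.Agent.P214.R2
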