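import Vale.Agent.P214.R2.ExcBasic
import Vale.Agent.P214.B4.Two
import Vale.Agent.P214.INT.Loc
import Vale.Agent.P214.BRG.Int
import Vale.Agent.P214.TCH.Mass
import Vale.Agent.P214.ODE.Theta

/-!
# P214, block R2-U: lower density and mass bounds in a cylinder (`m = 2`)
-/

open Set Filter Topology MeasureTheory Metric
open scoped RealInnerProductSpace ENNReal

set_option linter.all false

namespace Vale.Agent.P214.R2

open Vale.Agent.P214 Vale.Agent.P214.FV Vale.Agent.P214.ODE Vale.Agent.P214.TH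
  Vale.Agent.P214.B4 Vale.Agent.P214.Skel

variable {E : Type*} [NormedAddCommGroup E] [InnerProductSpace ℝ E] [FiniteDimensional ℝ E]
  [MeasurableSpace E] [BorelSpace E]
variable {m Q : ℕ} {T : Submodule ℝ E} {G : Set E} {z : E} {R h δ : ℝ} {ν : Measure E}
  {P : E → E →L[ℝ] E} {k k' K : ℝ → ℝ}

lemma cy_eq_cylSet {x : E} (hx : x ∈ T) (t : ℝ) : cy T x t = cylSet T x t := by
  ext y
  show ‖bx T x y‖ < t ↔ T.starProjection y ∈ ball x t
  rw [bx_eq, Submodule.starProjection_eq_self_iff.2 hx, mem_ball, dist_eq_norm]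

/-- **Lower density** at almost every point. -/
lemma ld_ae (hI : Skel.IntCyl m Q T z R h δ ν P) {t : ℝ} :
    ∀ᵐ y ∂ν, y ∈ cylSet T z (R - t) → LDpt m (cg m) ν t y := by
  haveI := hI.cyl.fin
  have hl := INT.locStat_of_cylStat hI.cyl
  have hd : DensLow m (T.starProjection ⁻¹' ball z R) ν (cg m) := by
    filter_upwards [hI.int] with y hy hyO c' hc'
    obtain ⟨q, hq, S, -, hT⟩ := hy hyO
    have h2 : (1:ℝ) ≤ q := by exact_mod_cast hq
    have h3 : c' < q * cg m := by have := cg_pos m; nlinarith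
    have h4 : ∀ᶠ r in 𝓝[>] (0:ℝ), c' ≤ ratio m ν y r :=
      ((BRG.tendsto_ratio hT).eventually (lt_mem_nhds h3)).mono fun r hr => hr.le
    exact h4.frequently
  filter_upwards [hl.ratio_ge_ae hd] with y hy hyt s hs hst
  have hyR : T.starProjection y ∈ ball z (R - t) := hyt
  rw [mem_ball, dist_eq_norm] at hyR
  have hsub : closedBall y s ⊆ T.starProjection ⁻¹' ball z R := by
    intro w hw
    rw [mem_closedBall, dist_eq_norm] at hw
    show T.starProjection w ∈ ball z R
    rw [mem_ball, dist_eq_norm]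
    have h1 : ‖T.starProjection (w - y)‖ ≤ ‖w - y‖ := by
      calc ‖T.starProjection (w - y)‖ ≤ ‖T.starProjection‖ * ‖w - y‖ :=
            T.starProjection.le_opNorm _
        _ ≤ 1 * ‖w - y‖ := by gcongr; exact T.starProjection_norm_le
        _ = _ := one_mul _
    calc ‖T.starProjection w - z‖ = ‖T.starProjection (w - y) + (T.starProjection y - z)‖ := by
          congr 1; rw [map_sub]; abel
      _ ≤ ‖T.starProjection (w - y)‖ + ‖T.starProjection y - z‖ := norm_add_le _ _
      _ < R := by linarith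
  have hyO : y ∈ T.starProjection ⁻¹' ball z R := hsub (mem_closedBall_self hs.le)
  have h1 := hy hyO s hs hsub
  unfold ratio at h1
  rw [le_div_iff₀ (by positivity)] at h1
  exact h1.trans (cut_integral_le hs)

/-- bound of a kernel integral by the mass of the cylinder -/
lemma K_integral_le [IsFiniteMeasure ν] (hk : Kern k k' K) {x : E} {t : ℝ} (ht : 0 < t) :
    ∫ y, K (bsq T x y / t ^ 2) ∂ν ≤ K 0 * ν.real (cy T x t) := by
  have hanti : Antitone K := antitone_of_deriv_nonpos
    (fun s => (hk.pK.der s).differentiableAt) (fun s => by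
      rw [(hk.pK.der s).deriv]; have := hk.nonneg s; linarith)
  have hms : MeasurableSet (cy T x t) := (isOpen_cy T x t).measurableSet
  have hK0 : 0 ≤ K 0 := by
    have := hanti (show (0:ℝ) ≤ 1 by norm_num)
    rw [hk.pK.zero 1 le_rfl] at this
    exact this
  have hKn : ∀ s, 0 ≤ K s := fun s => by
    by_cases h1 : s ≤ 1
    · have := hanti h1
      rwa [hk.pK.zero 1 le_rfl] at this
    · exact (hk.pK.zero s (not_le.1 h1).le).ge
  have e1 : K 0 * ν.real (cy T x t) = ∫ y, (cy T x t).indicator (fun _ => K 0) y ∂ν := by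
    rw [integral_indicator hms, setIntegral_const, smul_eq_mul, mul_comm]
  rw [e1]
  refine integral_mono_of_nonneg (Eventually.of_forall fun y => hKn _)
    ((integrable_const _).indicator hms) (Eventually.of_forall fun y => ?_)
  by_cases hy : y ∈ cy T x t
  · simp only [indicator_of_mem hy]
    exact hanti (div_nonneg (bsq_nonneg T x y) (by positivity))
  · simp only [indicator_of_notMem hy]
    have h1 : t ≤ ‖bx T x y‖ := not_lt.1 hy
    rw [hk.pK.zero]
    rw [one_le_div (by positivity)]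
    unfold bsq
    gcongr

/-- the mass of the half cylinder is bounded by the kernel integral -/
lemma le_K_integral [IsFiniteMeasure ν] (hk : Kern k k' K) {x : E} {t : ℝ} (ht : 0 < t) :
    K (1 / 4) * ν.real (cy T x (t / 2)) ≤ ∫ y, K (bsq T x y / t ^ 2) ∂ν := by
  have hanti : Antitone K := antitone_of_deriv_nonpos
    (fun s => (hk.pK.der s).differentiableAt) (fun s => by
      rw [(hk.pK.der s).deriv]; have := hk.nonneg s; linarith)
  have hms : MeasurableSet (cy T x (t / 2)) := (isOpen_cy T x (t / 2)).measurableSet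
  have hKn : ∀ s, 0 ≤ K s := fun s => by
    by_cases h1 : s ≤ 1
    · have := hanti h1
      rwa [hk.pK.zero 1 le_rfl] at this
    · exact (hk.pK.zero s (not_le.1 h1).le).ge
  have e1 : K (1 / 4) * ν.real (cy T x (t / 2))
      = ∫ y, (cy T x (t / 2)).indicator (fun _ => K (1 / 4)) y ∂ν := by
    rw [integral_indicator hms, setIntegral_const, smul_eq_mul, mul_comm]
  rw [e1]
  obtain ⟨C, hC0, hCb⟩ := hk.pK.exists_bound
  have hcont : Continuous fun y => K (bsq T x y / t ^ 2) :=
    hk.pK.continuous.comp ((continuous_bsq T x).div_const _)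
  have i1 : Integrable (fun y => K (bsq T x y / t ^ 2)) ν :=
    Integrable.of_bound hcont.aestronglyMeasurable C
      (Eventually.of_forall fun y => by
        rw [Real.norm_eq_abs]
        exact (hCb _ (div_nonneg (bsq_nonneg T x y) (sq_nonneg t))).1)
  refine integral_mono ((integrable_const _).indicator hms) i1 fun y => ?_
  by_cases hy : y ∈ cy T x (t / 2)
  · simp only [indicator_of_mem hy]
    apply hanti
    have h1 : ‖bx T x y‖ < t / 2 := hy
    unfold bsq
    rw [div_le_iff₀ (by positivity)]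
    have h2 : ‖bx T x y‖ ^ 2 ≤ (t / 2) ^ 2 := by gcongr
    linarith
  · simp only [indicator_of_notMem hy]
    exact hKn _

lemma Kern.anti (hk : Kern k k' K) : Antitone K := antitone_of_deriv_nonpos
    (fun s => (hk.pK.der s).differentiableAt) (fun s => by
      rw [(hk.pK.der s).deriv]; have := hk.nonneg s; linarith)

lemma Kern.K_nonneg (hk : Kern k k' K) (s : ℝ) : 0 ≤ K s := by
  by_cases h1 : s ≤ 1
  · have := Kern.anti hk h1
    rwa [hk.pK.zero 1 le_rfl] at this
  · exact (hk.pK.zero s (not_le.1 h1).le).ge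

lemma Kern.K_le (hk : Kern k k' K) {s : ℝ} (hs : 0 ≤ s) : K s ≤ K 0 := Kern.anti hk hs

/-- `tiltK ≤ K(0) Dex` in dimension two -/
lemma tiltK_le_Dex (hC : CylStat 2 T G h ν P) (hk : Kern k k' K) {x : E} {s : ℝ} (hs : 0 < s) :
    tiltK 2 T x K P ν s ≤ K 0 * QP.Dex T P ν x s := by
  haveI := hC.fin
  have hint : Integrable (ODE.tilt T P) ν := TH.integrable_tilt hC
  have hms : MeasurableSet (cy T x s) := (isOpen_cy T x s).measurableSet
  unfold tiltK QP.Dex
  rw [show (2 - ((2:ℕ):ℤ)) = 0 by norm_num, zpow_zero, one_mul, ← cy_eq_bset hs.le,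
    ← integral_indicator hms, ← integral_const_mul]
  refine integral_mono_of_nonneg ?_ ((hint.indicator hms).const_mul _) ?_
  · filter_upwards [ODE.CylStat.tilt_nonneg hC] with y hy
    exact mul_nonneg (Kern.K_nonneg hk _) hy
  · filter_upwards [ODE.CylStat.tilt_nonneg hC] with y hy
    by_cases hyb : y ∈ cy T x s
    · simp only [indicator_of_mem hyb]
      have := Kern.K_le hk (s := bsq T x y / s ^ 2) (div_nonneg (bsq_nonneg _ _ _) (by positivity))
      gcongr
    · simp only [indicator_of_notMem hyb, mul_zero]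
      have h1 : s ≤ ‖bx T x y‖ := not_lt.1 hyb
      rw [hk.pK.zero, zero_mul]
      rw [one_le_div (by positivity)]
      unfold bsq
      gcongr

/-- `K(1/4) Dex (s/2) ≤ tiltK s` in dimension two -/
lemma Dex_le_tiltK (hC : CylStat 2 T G h ν P) (hk : Kern k k' K) {x : E} {s : ℝ} (hs : 0 < s) :
    K (1 / 4) * QP.Dex T P ν x (s / 2) ≤ tiltK 2 T x K P ν s := by
  haveI := hC.fin
  have hint : Integrable (ODE.tilt T P) ν := TH.integrable_tilt hC
  have hms : MeasurableSet (cy T x (s / 2)) := (isOpen_cy T x (s / 2)).measurableSet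
  obtain ⟨C, hC0, hCb⟩ := hk.pK.exists_bound
  have hcont : Continuous fun y => K (bsq T x y / s ^ 2) :=
    hk.pK.continuous.comp ((continuous_bsq T x).div_const _)
  have i2 : Integrable (fun y => K (bsq T x y / s ^ 2) * tilt T P y) ν := by
    refine hint.bdd_mul (c := C) hcont.aestronglyMeasurable ?_
    exact Eventually.of_forall fun y => by
      rw [Real.norm_eq_abs]
      exact (hCb _ (div_nonneg (bsq_nonneg T x y) (sq_nonneg s))).1
  unfold tiltK QP.Dex
  rw [show (2 - ((2:ℕ):ℤ)) = 0 by norm_num, zpow_zero, one_mul, ← cy_eq_bset (by positivity),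
    ← integral_indicator hms, ← integral_const_mul]
  refine integral_mono_ae ((hint.indicator hms).const_mul _) i2 ?_
  filter_upwards [ODE.CylStat.tilt_nonneg hC] with y hy
  by_cases hyb : y ∈ cy T x (s / 2)
  · simp only [indicator_of_mem hyb]
    have h1 : ‖bx T x y‖ < s / 2 := hyb
    have h2 : K (1 / 4) ≤ K (bsq T x y / s ^ 2) := by
      apply Kern.anti hk
      unfold bsq
      rw [div_le_iff₀ (by positivity)]
      have h2 : ‖bx T x y‖ ^ 2 ≤ (s / 2) ^ 2 := by gcongr
      linarith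
    gcongr
  · simp only [indicator_of_notMem hyb, mul_zero]
    exact mul_nonneg (Kern.K_nonneg hk _) hy

/-- almost monotonicity of the mass in dimension two -/
lemma massK_le (hC : CylStat 2 T G h ν P) (hk : Kern k k' K) {x : E} {s t : ℝ} (hs : 0 < s)
    (hst : s ≤ t) (hG : BallIn T G x t) :
    massK 2 T x K ν s ≤ massK 2 T x K ν t + K 0 * QP.Dex T P ν x t / (2 * s ^ 2) := by
  have hK0 : 0 ≤ K 0 := Kern.K_nonneg hk 0
  set D := QP.Dex T P ν x t with hD
  have hD0 : 0 ≤ D := Dex_nonneg hC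
  have hder : ∀ u ∈ Icc s t, HasDerivAt (fun u => massK 2 T x K ν u - K 0 * D / (2 * u ^ 2))
      (u⁻¹ ^ 3 * (radK 2 T x k P ν u - tiltK 2 T x K P ν u) + K 0 * D * u⁻¹ ^ 3) u := by
    intro u hu
    have hu0 : 0 < u := hs.trans_le hu.1
    have h1 := ODE.CylStat.mass_ode hC hk hu0 (fun y hy hy2 => hG y hy (hy2.trans hu.2))
    have h2 : HasDerivAt (fun u : ℝ => K 0 * D / (2 * u ^ 2)) (-(K 0 * D * u⁻¹ ^ 3)) u := by
      have h3 := ((hasDerivAt_pow 2 u).const_mul 2).inv (by positivity)
      have h4 := h3.const_mul (K 0 * D)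
      refine (h4.congr_of_eventuallyEq ?_).congr_deriv ?_
      · exact Eventually.of_forall fun v => by simp [div_eq_mul_inv]
      · simp only [Nat.cast_ofNat, Nat.add_one_sub_one, pow_one]
        field_simp
    refine (h1.sub h2).congr_deriv ?_
    ring
  have hmono : MonotoneOn (fun u => massK 2 T x K ν u - K 0 * D / (2 * u ^ 2)) (Icc s t) := by
    refine monotoneOn_of_deriv_nonneg (convex_Icc s t)
      (fun u hu => (hder u hu).continuousAt.continuousWithinAt)
      (fun u hu => (hder u (interior_subset hu)).differentiableAt.differentiableWithinAt)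
      fun u hu => ?_
    have hu' : u ∈ Icc s t := interior_subset hu
    have hu0 : 0 < u := hs.trans_le hu'.1
    rw [(hder u hu').deriv]
    have h1 := ODE.CylStat.radK_nonneg (m := 2) (T := T) (z := x) (P := P) (ν := ν) hk hu0
    have h2 : tiltK 2 T x K P ν u ≤ K 0 * D := by
      refine (tiltK_le_Dex hC hk hu0).trans ?_
      have : QP.Dex T P ν x u ≤ D := Dex_le hC hu0.le (hu0.le.trans hu'.2) (by
        rw [bx_eq, sub_self, norm_zero, add_zero]; exact hu'.2)
      gcongr
    have h3 : u⁻¹ ^ 3 * (radK 2 T x k P ν u - tiltK 2 T x K P ν u) + K 0 * D * u⁻¹ ^ 3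
        = u⁻¹ ^ 3 * (radK 2 T x k P ν u + (K 0 * D - tiltK 2 T x K P ν u)) := by ring
    rw [h3]
    have : 0 ≤ K 0 * D - tiltK 2 T x K P ν u := by linarith
    positivity
  have h5 := hmono (left_mem_Icc.2 hst) (right_mem_Icc.2 hst) hst
  simp only at h5
  have h6 : 0 ≤ K 0 * D / (2 * t ^ 2) := by positivity
  linarith

/-- **Mass bound at the scales `s` with `Dex ≤ s²`.** -/
lemma mass_cy_le (hC : CylStat 2 T G h ν P) (hk : Kern k k' K) (h14 : 0 < K (1 / 4)) {x : E}
    {s t : ℝ} (hs : 0 < s) (hst : s ≤ t) (hG : BallIn T G x t)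
    (hD : QP.Dex T P ν x t ≤ s ^ 2) :
    ν.real (cy T x (s / 2)) ≤ K 0 / K (1 / 4) * (ν.real (cy T x t) / t ^ 2 + 1 / 2) * s ^ 2 := by
  haveI := hC.fin
  have ht : 0 < t := hs.trans_le hst
  have hK0 : 0 ≤ K 0 := Kern.K_nonneg hk 0
  have h1 := massK_le hC hk hs hst hG
  have h2 := le_K_integral (ν := ν) (T := T) (x := x) hk hs
  have h3 := K_integral_le (ν := ν) (T := T) (x := x) hk ht
  have e1 : massK 2 T x K ν s = (∫ y, K (bsq T x y / s ^ 2) ∂ν) / s ^ 2 := by
    unfold massK
    rw [zpow_neg, inv_mul_eq_div]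
    rfl
  have e2 : massK 2 T x K ν t = (∫ y, K (bsq T x y / t ^ 2) ∂ν) / t ^ 2 := by
    unfold massK
    rw [zpow_neg, inv_mul_eq_div]
    rfl
  rw [e1, e2] at h1
  have h4 : K 0 * QP.Dex T P ν x t / (2 * s ^ 2) ≤ K 0 / 2 := by
    rw [div_le_div_iff₀ (by positivity) (by norm_num)]
    have : K 0 * QP.Dex T P ν x t ≤ K 0 * s ^ 2 := by gcongr
    linarith
  have h5 : (∫ y, K (bsq T x y / t ^ 2) ∂ν) / t ^ 2 ≤ K 0 * (ν.real (cy T x t) / t ^ 2) := by
    rw [← mul_div_assoc]
    gcongr
  have h6 : (∫ y, K (bsq T x y / s ^ 2) ∂ν) ≤ (K 0 * (ν.real (cy T x t) / t ^ 2) + K 0 / 2)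
      * s ^ 2 := by
    rw [← div_le_iff₀ (by positivity)]
    linarith
  have h7 : K (1 / 4) * ν.real (cy T x (s / 2))
      ≤ (K 0 * (ν.real (cy T x t) / t ^ 2) + K 0 / 2) * s ^ 2 := h2.trans h6
  have h8 : K 0 / K (1 / 4) * (ν.real (cy T x t) / t ^ 2 + 1 / 2) * s ^ 2
      = (K 0 * (ν.real (cy T x t) / t ^ 2) + K 0 / 2) * s ^ 2 / K (1 / 4) := by
    field_simp
  rw [h8, le_div_iff₀ h14]
  linarith

end Vale.Agent.P214.R2
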