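import Mathlib.Analysis.SpecialFunctions.Pow.Asymptotics
import Mathlib.Analysis.SpecialFunctions.Log.Basic
import Mathlib.Analysis.SpecialFunctions.Pow.Real

/-!
# P214, block R2-U: parameters

`Λ = L / (K log L)`: `p log L ≤ Λ ≤ c L` for large `L`.
-/

open Set Filter Topology

set_option linter.all false

namespace Vale.Agent.P214.R2.UNum

lemma ev_log (M : ℝ) : ∀ᶠ L : ℝ in atTop, M ≤ Real.log L :=
  Real.tendsto_log_atTop.eventually_ge_atTop M

lemma ev_lam_le {K c : ℝ} (hK : 0 < K) (hc : 0 < c) :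
    ∀ᶠ L : ℝ in atTop, L / (K * Real.log L) ≤ c * L := by
  filter_upwards [ev_log (1 / (K * c)), ev_log 1, eventually_gt_atTop 0] with L h1 h2 h3
  have h4 : 0 < Real.log L := by linarith
  rw [div_le_iff₀ (by positivity)]
  rw [div_le_iff₀ (by positivity)] at h1
  nlinarith

lemma ev_log_le_lam {K : ℝ} (hK : 0 < K) (p : ℝ) :
    ∀ᶠ L : ℝ in atTop, p * Real.log L ≤ L / (K * Real.log L) := by
  have h1 := isLittleO_log_rpow_atTop (r := 1 / 2) (by norm_num)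
  have h2 := h1.bound (c := 1 / (|p| * K + 1)) (by positivity)
  filter_upwards [h2, ev_log 1, eventually_ge_atTop 1] with L hL h3 h4
  have h5 : 0 < Real.log L := by linarith
  have hL0 : (0:ℝ) ≤ L := by linarith
  rw [Real.norm_eq_abs, Real.norm_eq_abs, abs_of_nonneg h5.le,
    abs_of_nonneg (Real.rpow_nonneg (by linarith) _)] at hL
  rw [le_div_iff₀ (by positivity)]
  have h6 : (Real.log L) ^ 2 ≤ (1 / (|p| * K + 1) * L ^ (1 / 2 : ℝ)) ^ 2 := by gcongr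
  have h7 : (L ^ (1 / 2 : ℝ)) ^ 2 = L := by
    rw [← Real.rpow_natCast, ← Real.rpow_mul hL0]
    norm_num
  rw [mul_pow, h7] at h6
  have h8 : 1 ≤ |p| * K + 1 := by
    have : 0 ≤ |p| * K := by positivity
    linarith
  have h9 : (1 / (|p| * K + 1)) ^ 2 ≤ 1 / (|p| * K + 1) := by
    have h10 : 0 ≤ 1 / (|p| * K + 1) := by positivity
    have h11 : 1 / (|p| * K + 1) ≤ 1 := by
      rw [div_le_one (by linarith)]; exact h8
    nlinarith
  calc p * Real.log L * (K * Real.log L) = p * K * Real.log L ^ 2 := by ring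
    _ ≤ |p| * K * Real.log L ^ 2 := by
      have := le_abs_self p
      gcongr
    _ ≤ (|p| * K + 1) * ((1 / (|p| * K + 1)) ^ 2 * L) := by
      have h12 : 0 ≤ Real.log L ^ 2 := sq_nonneg _
      have h13 : |p| * K ≤ |p| * K + 1 := by linarith
      calc |p| * K * Real.log L ^ 2 ≤ (|p| * K + 1) * Real.log L ^ 2 := by gcongr
        _ ≤ _ := by gcongr
    _ ≤ (|p| * K + 1) * ((1 / (|p| * K + 1)) * L) := by gcongr
    _ = L := by field_simp

/-- all the parameter inequalities of the block R2-U -/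
structure Num (A₀ C Cn c₃ κ CH C₂ A K L : ℝ) : Prop where
  one_le : 1 ≤ L
  one_le_lam : 1 ≤ L / (K * Real.log L)
  lam_le : L / (K * Real.log L) ≤ L / 8
  log_pos : 0 < Real.log L
  n1 : A₀ * (2 * L) ≤ 64 * Real.exp (L / (K * Real.log L))
  n2 : 64 * (Real.exp (L / (K * Real.log L)) * Real.exp (-L)) ≤ A₀ * (2 * L)
  n3 : C * (2 * L) * Real.exp (-L) ^ 4 < L ^ (-(6 * A)) * Real.exp (-L)
  n5 : 64 * (Real.exp (L / (K * Real.log L)) * Real.exp (-L))
    ≤ Real.exp (2 * (2 * (L / (K * Real.log L)))) * (A₀ * (2 * (L / (K * Real.log L)))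
      * (L ^ (-(6 * A)) * Real.exp (-L) / (C * (2 * L))))
  n6 : CH / 4 * L * Real.exp (-(L / (K * Real.log L))) * (Cn + L) ≤ 1 / Cn
  n7 : 5000 ^ 2 * (Real.exp (L / (K * Real.log L)) * Real.exp (-L)) ≤ 1
  n8 : 2048 * L ^ (A + 1) ≤ Real.exp (L / 4 - L / (K * Real.log L) / 2)
  n9 : Cn * C₂ < κ / (C * 2) * L ^ (-(6 * A) - 1) * L ^ (6 * A + 3)

/-- the basic facts -/
structure Basic (A Λ L : ℝ) : Prop where
  L1 : 1 ≤ L
  Λ1 : 1 ≤ Λ
  ΛL : Λ ≤ L / 8
  EL : L ≤ Real.exp Λ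
  E2 : L ^ 2 ≤ Real.exp Λ
  E3 : L ^ 3 ≤ Real.exp Λ
  A1 : L ^ (6 * A + 1) ≤ Real.exp Λ
  sm : Real.exp Λ * Real.exp (-L) * L ≤ 1

section
variable {A Λ L A₀ C Cn CH C₂ κ : ℝ}

lemma Basic.n2 (b : Basic A Λ L) (hA₀ : 0 < A₀) (h : 32 / A₀ ≤ L) :
    64 * (Real.exp Λ * Real.exp (-L)) ≤ A₀ * (2 * L) := by
  have h1 : 32 ≤ L * A₀ := by rw [div_le_iff₀ hA₀] at h; linarith
  have h2 : 0 ≤ Real.exp Λ * Real.exp (-L) := by positivity
  have h3 := b.L1
  have h4 := b.sm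
  have h5 : Real.exp Λ * Real.exp (-L) ≤ 1 := by
    calc Real.exp Λ * Real.exp (-L) = Real.exp Λ * Real.exp (-L) * 1 := (mul_one _).symm
      _ ≤ Real.exp Λ * Real.exp (-L) * L := by gcongr
      _ ≤ 1 := h4
  linarith

lemma Basic.n3 (b : Basic A Λ L) (hC : 0 < C) (h : 2 * C ≤ L) :
    C * (2 * L) * Real.exp (-L) ^ 4 < L ^ (-(6 * A)) * Real.exp (-L) := by
  have hL0 : 0 < L := by linarith [b.L1]
  have hp6 : 0 < L ^ (6 * A) := Real.rpow_pos_of_pos hL0 _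
  have hneg : L ^ (-(6 * A)) = (L ^ (6 * A))⁻¹ := Real.rpow_neg hL0.le _
  have hsplit : L ^ (6 * A + 1) = L ^ (6 * A) * L := by
    rw [Real.rpow_add hL0, Real.rpow_one]
  rw [hneg]
  have hx : 0 < Real.exp (-L) := Real.exp_pos _
  have h21 : L * L ^ (6 * A) ≤ Real.exp L := by
    rw [mul_comm, ← hsplit]
    exact b.A1.trans (Real.exp_le_exp.2 (by linarith [b.ΛL]))
  have h22 : 2 * C * Real.exp (-L) ≤ 1 := by
    rw [Real.exp_neg, ← div_eq_mul_inv, div_le_one (Real.exp_pos _)]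
    exact h.trans (by have := Real.add_one_le_exp L; linarith)
  have h23 : Real.exp (-L) * Real.exp L = 1 := by rw [← Real.exp_add]; simp
  have h24 : Real.exp (-L) < 1 := by rw [Real.exp_lt_one_iff]; linarith
  set x := Real.exp (-L) with hxdef
  set q := L ^ (6 * A) with hq
  have h20 : C * (2 * L) * x ^ 3 * q < 1 := by
    calc C * (2 * L) * x ^ 3 * q = (2 * C * x) * (x ^ 2) * (L * q) := by ring
      _ ≤ 1 * (x ^ 2) * Real.exp L := by gcongr
      _ = x * (x * Real.exp L) := by ring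
      _ = x := by rw [h23, mul_one]
      _ < 1 := h24
  have h25 : C * (2 * L) * x ^ 4 * q < x := by
    calc C * (2 * L) * x ^ 4 * q = (C * (2 * L) * x ^ 3 * q) * x := by ring
      _ < 1 * x := by gcongr
      _ = x := one_mul _
  rw [inv_mul_eq_div, lt_div_iff₀ hp6]
  exact h25

lemma Basic.n5 (b : Basic A Λ L) (hA₀ : 0 < A₀) (hC : 0 < C) (h : 64 * C / A₀ ≤ L) :
    64 * (Real.exp Λ * Real.exp (-L)) ≤ Real.exp (2 * (2 * Λ)) * (A₀ * (2 * Λ)
      * (L ^ (-(6 * A)) * Real.exp (-L) / (C * (2 * L)))) := by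
  have hL0 : 0 < L := by linarith [b.L1]
  have hp6 : 0 < L ^ (6 * A) := Real.rpow_pos_of_pos hL0 _
  have hneg : L ^ (-(6 * A)) = (L ^ (6 * A))⁻¹ := Real.rpow_neg hL0.le _
  have hsplit : L ^ (6 * A + 1) = L ^ (6 * A) * L := by
    rw [Real.rpow_add hL0, Real.rpow_one]
  have hA1 := b.A1
  have hΛ1 := b.Λ1
  have hEL := b.EL
  rw [hneg]
  have hx : 0 < Real.exp (-L) := Real.exp_pos _
  have e4 : Real.exp (2 * (2 * Λ)) = Real.exp Λ ^ 4 := by
    rw [← Real.exp_nat_mul]; congr 1; push_cast; ring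
  rw [e4]
  have hX1 : 1 ≤ Real.exp Λ := Real.one_le_exp (by linarith)
  rw [hsplit] at hA1
  set x := Real.exp (-L) with hxdef
  set X := Real.exp Λ with hXdef
  set q := L ^ (6 * A) with hq
  have hX0 : 0 < X := by linarith
  have h21 : 64 * C ≤ A₀ * X := by
    rw [div_le_iff₀ hA₀] at h
    calc 64 * C ≤ L * A₀ := h
      _ ≤ X * A₀ := by gcongr
      _ = _ := mul_comm _ _
  have h22 : 1 ≤ Λ * X := by nlinarith
  have h20 : 64 * C * (q * L) ≤ A₀ * Λ * X ^ 3 := by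
    calc 64 * C * (q * L) ≤ (A₀ * X) * X := by gcongr
      _ = A₀ * X ^ 2 * 1 := by ring
      _ ≤ A₀ * X ^ 2 * (Λ * X) := by gcongr
      _ = _ := by ring
  have h23 : X ^ 4 * (A₀ * (2 * Λ) * (q⁻¹ * x / (C * (2 * L))))
      = (A₀ * Λ * X ^ 3) * (X * x / (C * (q * L))) := by
    field_simp
  have h24 : 64 * (X * x) = (64 * C * (q * L)) * (X * x / (C * (q * L))) := by
    field_simp
  rw [h23, h24]
  gcongr

lemma Basic.n6 (b : Basic A Λ L) (hCn : 1 ≤ Cn) (h1 : Cn ≤ L) (h2 : |CH| * Cn ≤ L) :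
    CH / 4 * L * Real.exp (-Λ) * (Cn + L) ≤ 1 / Cn := by
  have hL0 : 0 < L := by linarith [b.L1]
  have hCn0 : 0 < Cn := by linarith
  have hE3 := b.E3
  rw [le_div_iff₀ hCn0]
  have hx : 0 < Real.exp (-Λ) := Real.exp_pos _
  have h25 : Real.exp (-Λ) * L ^ 3 ≤ 1 := by
    rw [Real.exp_neg, inv_mul_le_iff₀ (Real.exp_pos _), mul_one]; exact hE3
  set x := Real.exp (-Λ) with hxdef
  have h21 : CH / 4 * L * x * (Cn + L) * Cn ≤ |CH| / 4 * L * x * (L + L) * Cn := by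
    have h22 := le_abs_self CH
    have h23 : 0 ≤ |CH| := abs_nonneg _
    have h24 : 0 < Cn + L := by linarith
    gcongr
  refine h21.trans ?_
  have h26 : |CH| / 4 * L * x * (L + L) * Cn = (|CH| * Cn) * (x * L ^ 2) / 2 := by ring
  rw [h26]
  have h27 : (|CH| * Cn) * (x * L ^ 2) ≤ L * (x * L ^ 2) := by gcongr
  have h28 : L * (x * L ^ 2) = x * L ^ 3 := by ring
  linarith

lemma Basic.n8 (b : Basic A Λ L) (hA : 0 ≤ A) (h : 2048 ≤ L)
    (h14 : (6 * A + 16) * Real.log L ≤ Λ) :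
    2048 * L ^ (A + 1) ≤ Real.exp (L / 4 - Λ / 2) := by
  have hL0 : 0 < L := by linarith [b.L1]
  have hl0 : 0 ≤ Real.log L := Real.log_nonneg b.L1
  have hΛL := b.ΛL
  have h21 : L ^ (A + 1) ≤ Real.exp (L / 16) := by
    rw [Real.rpow_def_of_pos hL0]
    apply Real.exp_le_exp.2
    have h22 : Real.log L * (A + 1) * 2 ≤ (6 * A + 16) * Real.log L := by nlinarith
    linarith
  have h23 : (2048:ℝ) ≤ Real.exp (L / 8) := by
    refine h.trans ?_
    have h24 : Real.log L ≤ L / 8 := by nlinarith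
    calc L = Real.exp (Real.log L) := (Real.exp_log hL0).symm
      _ ≤ _ := Real.exp_le_exp.2 h24
  calc 2048 * L ^ (A + 1) ≤ Real.exp (L / 8) * Real.exp (L / 16) := by
        have := Real.rpow_nonneg hL0.le (A + 1)
        gcongr
    _ = Real.exp (L / 8 + L / 16) := (Real.exp_add _ _).symm
    _ ≤ _ := Real.exp_le_exp.2 (by linarith)

lemma Basic.n9 (b : Basic A Λ L) (hCn : 1 ≤ Cn) (hC : 0 < C) (hκ : 0 < κ)
    (h13 : Cn * |C₂| * (C * 2) / κ < L) :
    Cn * C₂ < κ / (C * 2) * L ^ (-(6 * A) - 1) * L ^ (6 * A + 3) := by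
  have hL1 := b.L1
  have hL0 : 0 < L := by linarith
  have e2 : L ^ (2:ℝ) = L ^ 2 := by norm_cast
  have h21 : L ^ (-(6 * A) - 1) * L ^ (6 * A + 3) = L ^ 2 := by
    rw [← Real.rpow_add hL0, ← e2]
    congr 1; ring
  rw [mul_assoc, h21]
  have h22 : Cn * |C₂| * (C * 2) < L * κ := by
    rwa [div_lt_iff₀ hκ] at h13
  have h23 : Cn * C₂ ≤ Cn * |C₂| := by
    have h24 := le_abs_self C₂
    have h25 : 0 ≤ Cn := by linarith
    exact mul_le_mul_of_nonneg_left h24 h25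
  refine lt_of_le_of_lt h23 ?_
  rw [div_mul_eq_mul_div, lt_div_iff₀ (by positivity)]
  have h24 : L * κ ≤ κ * L ^ 2 := by
    have h26 : L * 1 ≤ L ^ 2 := by rw [sq]; gcongr
    nlinarith
  linarith

end

lemma ev_basic {A : ℝ} (hA : 0 ≤ A) {K : ℝ} (hK : 0 < K) :
    ∀ᶠ L : ℝ in atTop, Basic A (L / (K * Real.log L)) L := by
  filter_upwards [ev_lam_le (K := K) (c := 1 / 8) hK (by norm_num),
    ev_log_le_lam hK (6 * A + 10), ev_log 1, eventually_ge_atTop (1:ℝ)] with L h1 h2 h3 h4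
  have hL0 : 0 < L := by linarith
  have hexpl : Real.exp (Real.log L) = L := Real.exp_log hL0
  set l := Real.log L with hl
  set Λ := L / (K * l) with hΛ
  have hl0 : 0 < l := by linarith
  have hΛ1 : 1 ≤ Λ := by nlinarith
  have hΛL : Λ ≤ L / 8 := by linarith
  have hpow : ∀ p : ℝ, p ≤ 6 * A + 10 → L ^ p ≤ Real.exp Λ := by
    intro p hp
    rw [Real.rpow_def_of_pos hL0]
    apply Real.exp_le_exp.2
    calc l * p ≤ l * (6 * A + 10) := by gcongr
      _ = (6 * A + 10) * l := by ring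
      _ ≤ Λ := h2
  have e2 : L ^ (2:ℝ) = L ^ 2 := by norm_cast
  have e3 : L ^ (3:ℝ) = L ^ 3 := by norm_cast
  have hE2 : L ^ 2 ≤ Real.exp Λ := by rw [← e2]; exact hpow 2 (by linarith)
  have hE3 : L ^ 3 ≤ Real.exp Λ := by rw [← e3]; exact hpow 3 (by linarith)
  have hEL : L ≤ Real.exp Λ := by
    have : L * 1 ≤ L ^ 2 := by rw [sq]; gcongr
    linarith
  have hbig : Real.exp Λ * Real.exp (-L) ≤ Real.exp (-Λ) := by
    rw [← Real.exp_add]
    apply Real.exp_le_exp.2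
    linarith
  have hinv : Real.exp (-Λ) * L ≤ 1 := by
    rw [Real.exp_neg, inv_mul_le_iff₀ (Real.exp_pos _), mul_one]; exact hEL
  refine ⟨h4, hΛ1, hΛL, hEL, hE2, hE3, hpow _ (by linarith), ?_⟩
  calc Real.exp Λ * Real.exp (-L) * L ≤ Real.exp (-Λ) * L := by gcongr
    _ ≤ 1 := hinv

lemma exists_num {A₀ C Cn c₃ κ CH C₂ A : ℝ} (hA₀ : 0 < A₀) (hC : 0 < C) (hCn : 1 ≤ Cn)
    (hκ : 0 < κ) (hA : 0 ≤ A) {K : ℝ} (hK : 0 < K) :
    ∀ᶠ L : ℝ in atTop, Num A₀ C Cn c₃ κ CH C₂ A K L := by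
  filter_upwards [ev_basic hA hK, ev_log 1,
    eventually_ge_atTop (A₀ / 32), eventually_ge_atTop (32 / A₀),
    eventually_ge_atTop (2 * C), eventually_ge_atTop (64 * C / A₀),
    eventually_ge_atTop Cn, eventually_ge_atTop (|CH| * Cn),
    eventually_ge_atTop (5000 ^ 2 : ℝ), eventually_ge_atTop (2048 : ℝ),
    eventually_gt_atTop (Cn * |C₂| * (C * 2) / κ), ev_log_le_lam hK (6 * A + 16)]
    with L b h3 h5 h6 h7 h8 h9 h10 h11 h12 h13 h14
  refine ⟨b.L1, b.Λ1, b.ΛL, by linarith, ?_, b.n2 hA₀ h6, b.n3 hC h7, b.n5 hA₀ hC h8,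
    b.n6 hCn h9 h10, ?_, b.n8 hA h12 h14, b.n9 hCn hC hκ h13⟩
  · have h20 : A₀ ≤ 32 * L := by rw [div_le_iff₀ (by norm_num)] at h5; linarith
    have h21 := b.E2
    have h22 := b.L1
    have h23 : A₀ * (2 * L) ≤ 32 * L * (2 * L) := by gcongr
    have h24 : 32 * L * (2 * L) = 64 * L ^ 2 := by ring
    linarith
  · have h20 : 0 ≤ Real.exp (L / (K * Real.log L)) * Real.exp (-L) := by positivity
    have h21 := b.sm
    calc 5000 ^ 2 * (Real.exp (L / (K * Real.log L)) * Real.exp (-L))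
        ≤ L * (Real.exp (L / (K * Real.log L)) * Real.exp (-L)) := by gcongr
      _ = Real.exp (L / (K * Real.log L)) * Real.exp (-L) * L := by ring
      _ ≤ 1 := h21

end Vale.Agent.P214.R2.UNum
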