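import Vale.Agent.P214.R2.UDich
import Vale.Agent.P214.R2.UMass
import Vale.Agent.P214.R2.UNum
import Vale.Agent.P214.R2.Props
import Vale.Agent.P214.NGP.Final

/-!
# P214, block R2-U: an unsplit tall cell is compensated (`m = 2`)

Core theorem, in terms of the truncated ratio `Yf` of the mass defect `aK` and the energy `tiltK`.
-/

open Set Filter Topology MeasureTheory Metric
open scoped RealInnerProductSpace ENNReal

set_option linter.all false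

namespace Vale.Agent.P214.R2

open Vale.Agent.P214 Vale.Agent.P214.FV Vale.Agent.P214.ODE Vale.Agent.P214.TH
  Vale.Agent.P214.B4 Vale.Agent.P214.Skel

variable {E : Type*} [NormedAddCommGroup E] [InnerProductSpace ℝ E] [FiniteDimensional ℝ E]
  [MeasurableSpace E] [BorelSpace E]
variable {m Q : ℕ} {T : Submodule ℝ E} {G : Set E} {z : E} {R h δ : ℝ} {ν : Measure E}
  {P : E → E →L[ℝ] E} {k k' K : ℝ → ℝ}

section params

variable {A Kp e : ℝ}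

lemma exp_neg_log_inv (he : 0 < e) : Real.exp (-(Real.log e⁻¹)) = e := by
  rw [Real.log_inv, neg_neg, Real.exp_log he]

lemma rb_pos' (he : 0 < e) : 0 < rb Kp e := mul_pos (Real.exp_pos _) (Real.sqrt_pos.2 he)

lemma rb_sq' (he : 0 < e) : rb Kp e ^ 2 = Real.exp (lam Kp e) * e := by
  unfold rb
  rw [mul_pow, Real.sq_sqrt he.le, ← Real.exp_nat_mul]
  congr 2
  push_cast
  ring

lemma sg_sq (he : 0 < e) (hL : 0 < Real.log e⁻¹) :
    sg A e ^ 2 = (Real.log e⁻¹) ^ (-(6 * A)) * e := by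
  unfold sg
  rw [mul_pow, Real.sq_sqrt he.le]
  congr 1
  rw [← Real.rpow_natCast, ← Real.rpow_mul hL.le]
  congr 1
  push_cast
  ring

lemma sg_pos (he : 0 < e) (hL : 0 < Real.log e⁻¹) : 0 < sg A e :=
  mul_pos (Real.rpow_pos_of_pos hL _) (Real.sqrt_pos.2 he)

end params

/-- the base balls about the points of `ball 0 (3/2)` -/
lemma ballIn_two {x : E} (hx : x ∈ T) {t : ℝ} (h : ‖x‖ + t < 2) :
    BallIn T (ball (0 : E) 2) x t := by
  intro y hy hy2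
  rw [Submodule.starProjection_eq_self_iff.2 hx] at hy2
  rw [mem_ball_zero_iff]
  calc ‖y‖ = ‖(y - x) + x‖ := by congr 1; abel
    _ ≤ ‖y - x‖ + ‖x‖ := norm_add_le _ _
    _ < 2 := by linarith

lemma cy_subset_cylSet {x : E} (hx : x ∈ T) {t : ℝ} (h : ‖x‖ + t ≤ 2) :
    cy T x t ⊆ cylSet T (0 : E) 2 := by
  rw [cy_eq_cylSet hx]
  intro y hy
  have h1 : T.starProjection y ∈ ball x t := hy
  show T.starProjection y ∈ ball (0 : E) 2
  rw [mem_ball, dist_eq_norm] at h1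
  rw [mem_ball_zero_iff]
  calc ‖T.starProjection y‖ = ‖(T.starProjection y - x) + x‖ := by congr 1; abel
    _ ≤ ‖T.starProjection y - x‖ + ‖x‖ := norm_add_le _ _
    _ < 2 := by linarith

/-- the energy of a small ball is at most the total one -/
lemma Dex_le_exc (hC : CylStat m T G h ν P) {x : E} (hx : x ∈ T) {t : ℝ} (ht : 0 < t)
    (h : ‖x‖ + t ≤ 2) : QP.Dex T P ν x t ≤ exc T ν P 0 2 := by
  rw [TCH.exc_eq (T.zero_mem) (by norm_num : (0:ℝ) < 2)]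
  refine Dex_le hC ht.le (by norm_num) ?_
  rw [bx_eq, map_zero, sub_zero, Submodule.starProjection_eq_self_iff.2 hx]
  linarith

/-- the mass constant -/
noncomputable def Mc (Q : ℕ) (K : ℝ → ℝ) : ℝ :=
  K 0 / K (1 / 4) * ((4 * (Q * om 2) + 4) * 16 + 1 / 2)

lemma mass_at (hI : Skel.IntCyl 2 Q T 0 2 h δ ν P) (hδ : δ ≤ 1) (hk : Kern k k' K)
    (h14 : 0 < K (1 / 4)) {x : E} (hx : x ∈ T) (hxn : ‖x‖ ≤ 3 / 2) {s : ℝ} (hs : 0 < s)
    (hs4 : s ≤ 1 / 8) (hE : exc T ν P 0 2 ≤ (2 * s) ^ 2) :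
    ν.real (cy T x s) ≤ Mc Q K * 4 * s ^ 2 := by
  haveI := hI.cyl.fin
  have h1 := mass_cy_le hI.cyl hk h14 (x := x) (s := 2 * s) (t := 1 / 4) (by positivity)
    (by linarith) (ballIn_two hx (by linarith))
    ((Dex_le_exc hI.cyl hx (by norm_num) (by linarith)).trans hE)
  have h2 : ν.real (cy T x (1 / 4)) ≤ 4 * (Q * om 2) + 4 := by
    have h3 : ν.real (cy T x (1 / 4)) ≤ ν.real (cylSet T (0 : E) 2) :=
      measureReal_mono (cy_subset_cylSet hx (by linarith))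
    have h4 := (abs_le.1 hI.mass).2
    have h5 : δ * 2 ^ 2 ≤ 4 := by linarith
    have h6 : (Q : ℝ) * om 2 * 2 ^ 2 = 4 * (Q * om 2) := by ring
    linarith
  have h7 : ν.real (cy T x (1 / 4)) / (1 / 4) ^ 2 ≤ (4 * (Q * om 2) + 4) * 16 := by
    rw [div_le_iff₀ (by norm_num)]
    linarith
  have e1 : 2 * s / 2 = s := by ring
  rw [e1] at h1
  refine h1.trans ?_
  have hK0 : 0 ≤ K 0 := Kern.K_nonneg hk 0
  unfold Mc
  calc K 0 / K (1 / 4) * (ν.real (cy T x (1 / 4)) / (1 / 4) ^ 2 + 1 / 2) * (2 * s) ^ 2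
      ≤ K 0 / K (1 / 4) * ((4 * (Q * om 2) + 4) * 16 + 1 / 2) * (2 * s) ^ 2 := by gcongr
    _ = _ := by ring

section final

variable {A₀ C Cn c₃ κ CH C₂ A Kp e : ℝ}

/-- the length of the path -/
lemma ratio_ge (he : 0 < e) (n : UNum.Num A₀ C Cn c₃ κ CH C₂ A Kp (Real.log e⁻¹)) :
    Real.exp (Real.log e⁻¹ / 4) ≤ 2 * tt A e / (256 * rb Kp e) := by
  set L := Real.log e⁻¹ with hL
  have hL0 : 0 < L := by linarith [n.one_le]
  have hr := rb_pos' (Kp := Kp) he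
  have hsq : √e = Real.exp (-(L / 2)) := by
    have h1 : e = Real.exp (-(L / 2)) ^ 2 := by
      rw [← Real.exp_nat_mul]
      have : ((2:ℕ):ℝ) * -(L / 2) = -L := by push_cast; ring
      rw [this, hL, exp_neg_log_inv he]
    conv_lhs => rw [h1]
    exact Real.sqrt_sq (Real.exp_pos _).le
  have hlam : lam Kp e = L / (Kp * Real.log L) := rfl
  have n8 := n.n8
  rw [← hlam] at n8
  have hp : 0 < L ^ (A + 1) := Real.rpow_pos_of_pos hL0 _
  rw [le_div_iff₀ (by positivity)]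
  unfold tt rb
  rw [hsq, ← hL, Real.rpow_neg hL0.le]
  have e1 : Real.exp (L / 4) * (256 * (Real.exp (lam Kp e / 2) * Real.exp (-(L / 2))))
      = 256 * Real.exp (-(L / 4 - lam Kp e / 2)) := by
    have : Real.exp (-(L / 4 - lam Kp e / 2))
        = Real.exp (L / 4) * (Real.exp (lam Kp e / 2) * Real.exp (-(L / 2))) := by
      rw [← Real.exp_add, ← Real.exp_add]
      congr 1; ring
    rw [this]; ring
  rw [e1, Real.exp_neg]
  have h2 : (Real.exp (L / 4 - lam Kp e / 2))⁻¹ ≤ (2048 * L ^ (A + 1))⁻¹ :=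
    inv_anti₀ (by positivity) n8
  calc 256 * (Real.exp (L / 4 - lam Kp e / 2))⁻¹ ≤ 256 * (2048 * L ^ (A + 1))⁻¹ := by gcongr
    _ = 2 * ((L ^ (A + 1))⁻¹ / 16) := by
      rw [mul_inv]; ring

/-- the growth factor along the path -/
lemma growth_ge (he : 0 < e) (n : UNum.Num A₀ C Cn c₃ κ CH C₂ A Kp (Real.log e⁻¹))
    (hCn : 1 ≤ Cn) (hc₃ : 1 ≤ c₃) (hK1 : 1 ≤ Kp) (hK : 4 * Cn * c₃ * (6 * A + 3) ≤ Kp) :
    (Real.log e⁻¹) ^ (6 * A + 3)
      ≤ (2 * tt A e / (256 * rb Kp e)) ^ (1 / (Cn * (c₃ * lam Kp e))) := by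
  have h1 := ratio_ge he n
  set L := Real.log e⁻¹ with hL
  have hL1 : 1 ≤ L := n.one_le
  have hL0 : 0 < L := by linarith
  have hl := n.log_pos
  have hlam : lam Kp e = L / (Kp * Real.log L) := rfl
  have hΛ1 : 1 ≤ lam Kp e := n.one_le_lam
  set Λ := lam Kp e with hΛ
  have hq : 0 ≤ 1 / (Cn * (c₃ * Λ)) := by positivity
  have h2 : Real.exp (L / 4) ^ (1 / (Cn * (c₃ * Λ)))
      ≤ (2 * tt A e / (256 * rb Kp e)) ^ (1 / (Cn * (c₃ * Λ))) :=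
    Real.rpow_le_rpow (Real.exp_pos _).le h1 hq
  refine le_trans ?_ h2
  rw [← Real.exp_mul, Real.rpow_def_of_pos hL0]
  apply Real.exp_le_exp.2
  have hLΛ : L = Λ * (Kp * Real.log L) := by
    rw [hlam]; field_simp
  have h3 : L / 4 * (1 / (Cn * (c₃ * Λ))) = Kp * Real.log L / (4 * Cn * c₃) := by
    rw [div_mul_div_comm, mul_one]
    nth_rw 1 [hLΛ]
    field_simp
  rw [h3, le_div_iff₀ (by positivity)]
  calc Real.log L * (6 * A + 3) * (4 * Cn * c₃) = (4 * Cn * c₃ * (6 * A + 3)) * Real.log L := by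
        ring
    _ ≤ Kp * Real.log L := by gcongr

/-- the final contradiction -/
lemma final_contra (he : 0 < e) (n : UNum.Num A₀ C Cn c₃ κ CH C₂ A Kp (Real.log e⁻¹))
    (hCn : 1 ≤ Cn) (hc₃ : 1 ≤ c₃) (hK1 : 1 ≤ Kp) (hK : 4 * Cn * c₃ * (6 * A + 3) ≤ Kp)
    (hC : 0 < C) (hκ : 0 < κ) {g₀ D : ℝ} (hD : sg A e ^ 2 / (C * (2 * Real.log e⁻¹)) ≤ D)
    (hg : κ * D ≤ g₀)
    (hgrow : g₀ * (2 * tt A e / (256 * rb Kp e)) ^ (1 / (Cn * (c₃ * lam Kp e)))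
      ≤ Cn * (C₂ * e)) : False := by
  have h1 := growth_ge he n hCn hc₃ hK1 hK
  have hL1 : 1 ≤ Real.log e⁻¹ := n.one_le
  have hL0 : 0 < Real.log e⁻¹ := by linarith
  rw [sg_sq he hL0] at hD
  have n9 := n.n9
  set L := Real.log e⁻¹ with hL
  have hp : 0 < L ^ (6 * A + 3) := Real.rpow_pos_of_pos hL0 _
  have hp2 : 0 < L ^ (-(6 * A)) := Real.rpow_pos_of_pos hL0 _
  have hg0 : 0 ≤ g₀ := by
    have : 0 ≤ D := le_trans (by positivity) hD
    exact le_trans (by positivity) hg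
  have h2 : g₀ * L ^ (6 * A + 3) ≤ Cn * (C₂ * e) := le_trans (by gcongr) hgrow
  have h3 : κ * (L ^ (-(6 * A)) * e / (C * (2 * L))) * L ^ (6 * A + 3) ≤ Cn * (C₂ * e) := by
    refine le_trans ?_ h2
    have : κ * (L ^ (-(6 * A)) * e / (C * (2 * L))) ≤ g₀ := le_trans (by gcongr) hg
    gcongr
  have e1 : L ^ (-(6 * A) - 1) = L ^ (-(6 * A)) / L := by
    rw [Real.rpow_sub hL0, Real.rpow_one]
  rw [e1] at n9
  have h4 : κ * (L ^ (-(6 * A)) * e / (C * (2 * L))) * L ^ (6 * A + 3)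
      = (κ / (C * 2) * (L ^ (-(6 * A)) / L) * L ^ (6 * A + 3)) * e := by
    field_simp
  rw [h4] at h3
  have h5 : Cn * C₂ * e < (κ / (C * 2) * (L ^ (-(6 * A)) / L) * L ^ (6 * A + 3)) * e := by
    gcongr
  linarith

end final

section cell

variable {A₀ C Cn c₃ κ CH C₂ A Kp cD e : ℝ}

lemma rb_smallU (he : 0 < e)
    (n : UNum.Num A₀ C Cn c₃ κ CH C₂ A Kp (Real.log (e)⁻¹)) :
    5000 * rb Kp (e) ≤ 1 := by
  have h1 := n.n7
  rw [exp_neg_log_inv he] at h1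
  have h2 : (5000 * rb Kp (e)) ^ 2 ≤ 1 ^ 2 := by
    rw [mul_pow, rb_sq' he, one_pow]
    exact h1
  exact le_of_sq_le_sq h2 (by norm_num)

lemma exc_le_rb_sq (he : 0 < e)
    (n : UNum.Num A₀ C Cn c₃ κ CH C₂ A Kp (Real.log (e)⁻¹)) :
    e ≤ rb Kp (e) ^ 2 := by
  rw [rb_sq' he]
  have h1 : 1 ≤ Real.exp (lam Kp (e)) := by
    apply Real.one_le_exp
    have : 1 ≤ lam Kp (e) := n.one_le_lam
    linarith
  calc e = 1 * e := (one_mul _).symm
    _ ≤ _ := by gcongr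

/-- **the tall cell** -/
lemma tall_at (hC0 : 0 < C) (hA₀ : 0 < A₀) (hk : Kern k k' K) (h14 : 0 < K (1 / 4))
    (HD : DichC E (cg 2) (Mc Q K * 4 * 81) A₀ cD C)
    (hI : Skel.IntCyl 2 Q T 0 2 h δ ν P) (hδ : δ ≤ 1) (he : 0 < e) (hle : exc T ν P 0 2 ≤ e)
    (he1 : e ≤ 1)
    (n : UNum.Num A₀ C Cn c₃ κ CH C₂ A Kp (Real.log (e)⁻¹)) {c₀ : E}
    (hH : ∀ᵐ y ∂ν, y ∈ cylSet T 0 2 →
        ‖co T y - c₀‖ ^ 2 ≤ CH * Real.log (e)⁻¹ * e)
    {ξ : E} (hξ : ξ ∈ T) (hξn : ‖ξ‖ ≤ 9 / 8)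
    (hns : ¬ Split 2 T ν ξ (64 * rb Kp (e)) cD)
    (hnc : ¬ Collapsed T ν ξ (8 * rb Kp (e)) (sg A (e))) :
    sg A (e) ^ 2 / (C * (2 * Real.log (e)⁻¹))
        ≤ QP.Dex T P ν ξ (80 * rb Kp (e)) ∧
      ∃ c ∈ Tᗮ, ‖c - c₀‖ ^ 2 ≤ CH * Real.log (e)⁻¹ * e ∧
        ∀ᵐ y ∂ν, y ∈ cy T ξ (8 * rb Kp (e)) →
          ‖hgt T c y‖ ^ 2 ≤ C * (2 * lam Kp (e))
            * QP.Dex T P ν ξ (80 * rb Kp (e)) := by
  have hsm := rb_smallU he n
  have her := exc_le_rb_sq he n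
  have hsg0 := sg_pos (A := A) he (by linarith [n.one_le])
  have hsg := sg_sq (A := A) he (by linarith [n.one_le])
  have hr0 := rb_pos' (Kp := Kp) he
  have hrsq := rb_sq' (Kp := Kp) he
  have hexp := exp_neg_log_inv he
  set r := rb Kp e with hrdef
  set L := Real.log e⁻¹ with hLdef
  set σ := sg A e with hσdef
  have hlam : lam Kp e = L / (Kp * Real.log L) := rfl
  have e8 : 8 * (8 * r) = 64 * r := by ring
  have e10 : 10 * (8 * r) = 80 * r := by ring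
  have hm := mass_at hI hδ hk h14 hξ (by linarith) (s := 72 * r) (by positivity) (by linarith)
    (by
      refine (hle.trans her).trans ?_
      rw [← mul_assoc, mul_pow]
      have : 0 ≤ r ^ 2 := sq_nonneg r
      nlinarith)
  have key := tall_cell (E := E) (p := fun y => ‖co T y - c₀‖ ^ 2 ≤ CH * L * e) (c := cD)
    hA₀ hC0 HD hI.cyl (ξ := ξ) (t := 8 * r) (E₀ := e) (L := L) (Λ := lam Kp e) (σ := σ)
    (by rw [e10]; exact ballIn_two hξ (by linarith)) ?_ ?_ ?_ (by positivity) n.one_le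
    n.one_le_lam he he1 hsg0 ?_ ?_ ?_ ?_ ?_ ?_ (by rw [e8]; exact hns) hnc
  · obtain ⟨h1, y₁, hy₁, hp, h2⟩ := key
    rw [e10] at h1 h2
    refine ⟨h1, co T y₁, ?_, hp, h2⟩
    rw [co_eq]; exact Submodule.starProjection_apply_mem _ _
  · -- lower density
    filter_upwards [ld_ae hI (t := 8 * r)] with y hy hyc
    apply hy
    rw [cy_eq_cylSet hξ] at hyc
    have h1 : T.starProjection y ∈ ball ξ (8 * (8 * r)) := hyc
    show T.starProjection y ∈ ball (0 : E) (2 - 8 * r)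
    rw [mem_ball, dist_eq_norm] at h1
    rw [mem_ball_zero_iff]
    calc ‖T.starProjection y‖ = ‖(T.starProjection y - ξ) + ξ‖ := by congr 1; abel
      _ ≤ ‖T.starProjection y - ξ‖ + ‖ξ‖ := norm_add_le _ _
      _ < 2 - 8 * r := by linarith
  · -- (H)
    filter_upwards [hH] with y hy hyc
    exact hy (cy_subset_cylSet hξ (by linarith) hyc)
  · -- mass
    have e9 : 9 * (8 * r) = 72 * r := by ring
    rw [e9]
    refine hm.trans (le_of_eq ?_)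
    ring
  · rw [e10]; exact (Dex_le_exc hI.cyl hξ (by positivity) (by linarith)).trans hle
  · -- n1
    have h1 := n.n1
    rw [← hlam] at h1
    calc A₀ * (2 * L) * e ≤ 64 * Real.exp (lam Kp e) * e := by gcongr
      _ = (8 * r) ^ 2 := by rw [mul_pow, hrsq]; ring
  · -- n2
    have h1 := n.n2
    rw [← hlam, hexp] at h1
    have e4 : Real.exp (2 * (2 * L)) * e ^ 4 = 1 := by
      have h2 : e ^ 4 = Real.exp (((4:ℕ):ℝ) * -L) := by rw [Real.exp_nat_mul, hexp]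
      rw [h2, ← Real.exp_add]
      have : 2 * (2 * L) + ((4:ℕ):ℝ) * -L = 0 := by push_cast; ring
      rw [this, Real.exp_zero]
    calc (8 * r) ^ 2 = 64 * (Real.exp (lam Kp e) * e) := by rw [mul_pow, hrsq]; norm_num
      _ ≤ A₀ * (2 * L) := h1
      _ = A₀ * (2 * L) * (Real.exp (2 * (2 * L)) * e ^ 4) := by rw [e4, mul_one]
      _ = _ := by ring
  · -- n3
    have h1 := n.n3
    rw [hexp] at h1
    rw [hsg]
    exact h1
  · -- n4
    have h1 := n.n1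
    rw [← hlam] at h1
    have h2 : lam Kp e ≤ L := by
      have h3 := n.lam_le
      rw [← hlam] at h3
      have := n.one_le
      linarith
    calc A₀ * (2 * lam Kp e) * e ≤ A₀ * (2 * L) * e := by gcongr
      _ ≤ 64 * Real.exp (lam Kp e) * e := by gcongr
      _ = (8 * r) ^ 2 := by rw [mul_pow, hrsq]; ring
  · -- n5
    have h1 := n.n5
    rw [← hlam, hexp] at h1
    rw [hsg]
    calc (8 * r) ^ 2 = 64 * (Real.exp (lam Kp e) * e) := by rw [mul_pow, hrsq]; norm_num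
      _ ≤ _ := h1

lemma tt_le (he : 0 < e) (hA : 0 ≤ A)
    (n : UNum.Num A₀ C Cn c₃ κ CH C₂ A Kp (Real.log (e)⁻¹)) :
    2 * tt A (e) ≤ 1 / 8 := by
  unfold tt
  have h1 : (Real.log (e)⁻¹) ^ (-(A + 1)) ≤ 1 :=
    Real.rpow_le_one_of_one_le_of_nonpos n.one_le (by linarith)
  linarith

lemma le_tt (he : 0 < e)
    (n : UNum.Num A₀ C Cn c₃ κ CH C₂ A Kp (Real.log (e)⁻¹)) :
    256 * rb Kp (e) ≤ 2 * tt A (e) := by
  have hrat := ratio_ge he n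
  have hr0 := rb_pos' (Kp := Kp) he
  have h1 : 1 ≤ Real.exp (Real.log (e)⁻¹ / 4) :=
    Real.one_le_exp (by linarith [n.one_le])
  have h2 := h1.trans hrat
  rwa [le_div_iff₀ (by positivity), one_mul] at h2

/-- energy at the bottom of the path -/
lemma energy_at (hC : CylStat 2 T G h ν P) (hk : Kern k k' K) (h14 : 0 < K (1 / 4)) {r : ℝ}
    (hr : 0 < r) {x ξ : E} (hx : x ∈ T) (hξ : ξ ∈ T) (hxξ : ‖x - ξ‖ ≤ 4 * r) :
    K (1 / 4) * QP.Dex T P ν ξ (80 * r) ≤ tiltK 2 T x K P ν (256 * r) := by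
  refine le_trans ?_ (Dex_le_tiltK hC hk (by positivity))
  have h1 : QP.Dex T P ν ξ (80 * r) ≤ QP.Dex T P ν x (256 * r / 2) :=
    Dex_le hC (by positivity) (by positivity) (by
      rw [bx_eq, Submodule.starProjection_eq_self_iff.2 hx,
        Submodule.starProjection_eq_self_iff.2 hξ, ← norm_neg, neg_sub]
      linarith)
  gcongr

/-- heights at the bottom of the path -/
lemma heights_at {r S : ℝ} (hr : 0 < r) {x ξ c : E} (hx : x ∈ T) (hξ : ξ ∈ T)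
    (hxξ : ‖x - ξ‖ ≤ 4 * r)
    (hst : ∀ᵐ y ∂ν, y ∈ cy T ξ (8 * r) → ‖hgt T c y‖ ^ 2 ≤ S) :
    ∀ᵐ y ∂ν, bsq T x y < (4 * r) ^ 2 → ‖hgt T c y‖ ^ 2 ≤ S := by
  filter_upwards [hst] with y hy hyx
  apply hy
  have h1 : ‖bx T x y‖ < 4 * r := by
    unfold bsq at hyx
    exact lt_of_pow_lt_pow_left₀ 2 (by positivity) hyx
  show ‖bx T ξ y‖ < 8 * r
  rw [bx_sub T ξ x y]
  have hbxx' : ‖bx T ξ x‖ ≤ 4 * r := by
    rw [bx_eq, Submodule.starProjection_eq_self_iff.2 hx,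
      Submodule.starProjection_eq_self_iff.2 hξ]
    exact hxξ
  calc ‖bx T x y + bx T ξ x‖ ≤ ‖bx T x y‖ + ‖bx T ξ x‖ := norm_add_le _ _
    _ < 8 * r := by linarith

/-- heights along the path -/
lemma heights_path {e L r Λ t₁ : ℝ} (hL : 0 ≤ L) (he : 0 ≤ e) (hrsq : r ^ 2 = Real.exp Λ * e)
    {x c c₀ : E} (hx : x ∈ T) (ht₁ : 0 < t₁) (hxt : ‖x‖ + t₁ ≤ 2)
    (hH : ∀ᵐ y ∂ν, y ∈ cylSet T 0 2 → ‖co T y - c₀‖ ^ 2 ≤ CH * L * e)
    (hcc₀ : ‖c - c₀‖ ^ 2 ≤ CH * L * e) :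
    ∀ᵐ y ∂ν, bsq T x y < t₁ ^ 2 →
      ‖hgt T c y‖ ^ 2 ≤ (|CH| / 4 * L * Real.exp (-Λ)) * (4 * r) ^ 2 := by
  have e1 : (|CH| / 4 * L * Real.exp (-Λ)) * (4 * r) ^ 2 = 4 * (|CH| * L * e) := by
    rw [mul_pow, hrsq, Real.exp_neg]
    have := (Real.exp_pos Λ).ne'
    field_simp
    try ring
  rw [e1]
  filter_upwards [hH] with y hy hyx
  have h1 : ‖bx T x y‖ < t₁ := by
    unfold bsq at hyx
    exact lt_of_pow_lt_pow_left₀ 2 ht₁.le hyx
  have h2 := hy (cy_subset_cylSet hx hxt h1)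
  have h3 : ‖hgt T c y‖ ≤ ‖co T y - c₀‖ + ‖c - c₀‖ := by
    have : hgt T c y = (co T y - c₀) - (c - c₀) := by unfold hgt; abel
    rw [this]; exact norm_sub_le _ _
  have h4 : CH * L * e ≤ |CH| * L * e := by
    have := le_abs_self CH
    gcongr
  have h5 : ‖hgt T c y‖ ^ 2 ≤ (‖co T y - c₀‖ + ‖c - c₀‖) ^ 2 := by gcongr
  nlinarith [sq_nonneg (‖co T y - c₀‖ - ‖c - c₀‖)]

end cell

/-- the conclusion of `NGP.growth` with constant `Cn` -/
def GrowthC (E : Type*) [NormedAddCommGroup E] [InnerProductSpace ℝ E] [FiniteDimensional ℝ E]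
    [MeasurableSpace E] [BorelSpace E] (k K : ℝ → ℝ) (B Cn : ℝ) : Prop :=
  ∀ (T : Submodule ℝ E) (G : Set E) (h : ℝ) (ν : Measure E)
      (P : E → E →L[ℝ] E) (x c : E) (cc tb t₀ t₁ R η R₀ : ℝ), CylStat 2 T G h ν P → c ∈ Tᗮ →
      0 < tb → tb ≤ t₀ → t₀ ≤ t₁ → t₁ < R → BallIn T G x R → 0 ≤ η →
      (∀ᵐ y ∂ν, bsq T x y < t₁ ^ 2 → ‖hgt T c y‖ ^ 2 ≤ η * tb ^ 2) →
      η * (Cn + Real.log (t₁ / tb)) ≤ 1 / Cn → 1 ≤ R₀ → Real.log (t₀ / tb) ≤ R₀ →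
      2 * hgtTh 2 T x k (hsq T c) P ν tb ≤ R₀ * tiltK 2 T x K P ν t₀ →
      0 < tiltK 2 T x K P ν t₀ →
      (∫ t in t₀..t₁, NGP.Yf (aK 2 T x K ν cc) (tiltK 2 T x K P ν) t / t) ≤ B →
      tiltK 2 T x K P ν t₀ * (t₁ / t₀) ^ (1 / (Cn * R₀))
        ≤ Cn * max (aK 2 T x K ν cc t₁) (tiltK 2 T x K P ν t₁)

section path

variable {A₀ C Cn c₃ CH C₂ A Kp cD B e : ℝ}

lemma log_path {L e r t₁ : ℝ} (hr : 0 < r) (hr1 : r ≤ 1) (he : e ≤ r ^ 2)
    (hexp : Real.exp (-L) = e) (ht : 0 < t₁) (ht1 : t₁ ≤ 1 / 8) :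
    Real.log (t₁ / (4 * r)) ≤ L := by
  rw [Real.log_le_iff_le_exp (by positivity), div_le_iff₀ (by positivity)]
  have h1 : Real.exp L * e = 1 := by
    rw [← hexp, ← Real.exp_add, add_neg_cancel, Real.exp_zero]
  have h2 : e ≤ r := he.trans (by nlinarith)
  have h3 : 1 ≤ Real.exp L * r := by
    rw [← h1]
    have := Real.exp_pos L
    gcongr
  linarith

/-- the end of the path -/
lemma path_contra (hk : Kern k k' K) (h14 : 0 < K (1 / 4)) (HG : GrowthC E k K B Cn)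
    (hC0 : 0 < C) (hCn1 : 1 ≤ Cn) (hc₃1 : 1 ≤ c₃) (hl64 : Real.log 64 ≤ c₃) (hKp1 : 1 ≤ Kp)
    (hKp2 : 4 * Cn * c₃ * (6 * A + 3) ≤ Kp) (hI : Skel.IntCyl 2 Q T 0 2 h δ ν P)
    (he : 0 < e) (hle : exc T ν P 0 2 ≤ e)
    (n : UNum.Num A₀ C Cn c₃ (K (1 / 4)) (|CH|) (max C₂ (K 0)) A Kp
      (Real.log (e)⁻¹)) (hA : 0 ≤ A) {cc : ℝ} {x c : E} (hx : x ∈ T) (hcT : c ∈ Tᗮ)
    (hxn : ‖x‖ ≤ 9 / 8 + 4 * rb Kp (e)) {D : ℝ}
    (hDlow : sg A (e) ^ 2 / (C * (2 * Real.log (e)⁻¹)) ≤ D)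
    (hgD : K (1 / 4) * D ≤ tiltK 2 T x K P ν (256 * rb Kp (e)))
    (hη : ∀ᵐ y ∂ν, bsq T x y < (2 * tt A (e)) ^ 2 → ‖hgt T c y‖ ^ 2
      ≤ (|CH| / 4 * Real.log (e)⁻¹ * Real.exp (-lam Kp (e)))
        * (4 * rb Kp (e)) ^ 2)
    (hstart : 2 * hgtTh 2 T x k (hsq T c) P ν (4 * rb Kp (e))
      ≤ c₃ * lam Kp (e) * tiltK 2 T x K P ν (256 * rb Kp (e)))
    (haK : aK 2 T x K ν cc (2 * tt A (e)) ≤ C₂ * e)
    (hcon : ∫ t in (256 * rb Kp (e))..(2 * tt A (e)),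
        NGP.Yf (aK 2 T x K ν cc) (tiltK 2 T x K P ν) t / t ≤ B) : False := by
  have hsm := rb_smallU he n
  have her := exc_le_rb_sq he n
  have hr0 := rb_pos' (Kp := Kp) he
  have hexp := exp_neg_log_inv he
  have htt := tt_le he hA n
  have h01 := le_tt he n
  have n6 := n.n6
  have hL1 : 1 ≤ Real.log (e)⁻¹ := n.one_le
  have hK0 : 0 ≤ K 0 := Kern.K_nonneg hk 0
  have hσ0 : 0 < sg A (e) := sg_pos he (by linarith)
  have hDpos : 0 < D := lt_of_lt_of_le (by positivity) hDlow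
  have hg0 : 0 < tiltK 2 T x K P ν (256 * rb Kp (e)) :=
    lt_of_lt_of_le (by positivity) hgD
  have hΛ1 : 1 ≤ lam Kp (e) := n.one_le_lam
  have hlamdef : lam Kp (e) = Real.log (e)⁻¹
    / (Kp * Real.log (Real.log (e)⁻¹)) := rfl
  rw [← hlamdef] at n6
  have hfin := fun g => final_contra (g₀ := g) he n hCn1 hc₃1 hKp1 hKp2 hC0 h14 hDlow
  have htD := tiltK_le_Dex hI.cyl hk (x := x) (s := 2 * tt A (e))
    (lt_of_lt_of_le (by positivity) h01)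
  have hDe := (Dex_le_exc hI.cyl hx (t := 2 * tt A (e))
    (lt_of_lt_of_le (by positivity) h01) (by linarith)).trans hle
  set r := rb Kp e with hrdef
  set L := Real.log e⁻¹ with hLdef
  set Λ := lam Kp e with hΛdef
  set t₁ := 2 * tt A e with ht₁
  have ht₁0 : 0 < t₁ := lt_of_lt_of_le (by positivity) h01
  have hlog2 := log_path hr0 (by linarith) her hexp ht₁0 htt
  have hR0 : 1 ≤ c₃ * Λ := one_le_mul_of_one_le_of_one_le hc₃1 hΛ1
  have hlog1 : Real.log (256 * r / (4 * r)) ≤ c₃ * Λ := by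
    have e1 : 256 * r / (4 * r) = 64 := by field_simp; norm_num
    rw [e1]
    calc Real.log 64 ≤ c₃ * 1 := by rw [mul_one]; exact hl64
      _ ≤ c₃ * Λ := by gcongr
  have hη0 : 0 ≤ |CH| / 4 * L * Real.exp (-Λ) := by positivity
  have hsmall : (|CH| / 4 * L * Real.exp (-Λ)) * (Cn + Real.log (t₁ / (4 * r))) ≤ 1 / Cn :=
    (mul_le_mul_of_nonneg_left (add_le_add_right hlog2 Cn) hη0).trans n6
  have hgrow := HG T (ball 0 2) h ν P x c cc (4 * r) (256 * r) t₁ (1 / 4)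
    (|CH| / 4 * L * Real.exp (-Λ)) (c₃ * Λ) hI.cyl hcT (by positivity)
    (by gcongr; norm_num) h01 (lt_of_le_of_lt htt (by norm_num))
    (ballIn_two hx (by linarith)) hη0 hη hsmall hR0 hlog1 hstart hg0 hcon
  refine hfin _ hgD (hgrow.trans ?_)
  have h4 : K 0 ≤ max C₂ (K 0) := le_max_right C₂ (K 0)
  have h1 : aK 2 T x K ν cc t₁ ≤ max C₂ (K 0) * e :=
    haK.trans (mul_le_mul_of_nonneg_right (le_max_left C₂ (K 0)) he.le)
  have h2 : tiltK 2 T x K P ν t₁ ≤ max C₂ (K 0) * e :=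
    htD.trans (mul_le_mul h4 hDe (Dex_nonneg hI.cyl) (hK0.trans h4))
  exact mul_le_mul_of_nonneg_left (max_le h1 h2) (by linarith)

end path

/-- **The core of (BB-U).** -/
theorem coreU (hk : Kern k k' K) (hk0 : ∀ s, s ≤ 1 / 4 → k s = 0) (h14 : 0 < K (1 / 4))
    (Q : ℕ) : ∃ cD : ℝ, 0 < cD ∧ ∀ CH C₂ A B : ℝ, 0 ≤ A → 0 ≤ B → ∃ Kp ε : ℝ, 1 ≤ Kp ∧ 0 < ε ∧
    ∀ (T : Submodule ℝ E) (h : ℝ) (ν : Measure E) (P : E → E →L[ℝ] E) (cc e : ℝ) (c₀ : E),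
      Skel.IntCyl 2 Q T 0 2 h ε ν P → 0 < e → e ≤ ε → exc T ν P 0 2 ≤ e →
      (∀ᵐ y ∂ν, y ∈ cylSet T 0 2 →
        ‖co T y - c₀‖ ^ 2 ≤ CH * Real.log (e)⁻¹ * e) →
      (∀ x ∈ T, ∀ t, 0 < t → ‖x‖ + t ≤ 3 / 2 → aK 2 T x K ν cc t ≤ C₂ * e) →
      ∀ ξ ∈ T, ‖ξ‖ ≤ 9 / 8 → ¬ Split 2 T ν ξ (64 * rb Kp (e)) cD →
      ¬ Collapsed T ν ξ (8 * rb Kp (e)) (sg A (e)) →
      ∀ x ∈ T, ‖x - ξ‖ ≤ 4 * rb Kp (e) →
      256 * rb Kp e ≤ 2 * tt A e ∧ ‖x‖ + 2 * tt A e ≤ 3 / 2 ∧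
      B < ∫ t in (256 * rb Kp (e))..(2 * tt A (e)),
        NGP.Yf (aK 2 T x K ν cc) (tiltK 2 T x K P ν) t / t := by
  obtain ⟨A₀, cD, C, hA₀, hcD, hC0, HD⟩ := dich_cell (E := E) (a := cg 2)
    (M := Mc Q K * 4 * 81) (cg_pos 2)
  refine ⟨cD, hcD, ?_⟩
  intro CH C₂ A B hA hB
  obtain ⟨Cn, hCn1, HG⟩ := NGP.growth (E := E) hk hk0 B hB
  obtain ⟨Ck, hCk0, hCk⟩ := hk.pk.exists_bound
  have hK0 : 0 < K 0 := lt_of_lt_of_le h14 (Kern.anti hk (by norm_num))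
  have hom : 0 ≤ om 2 := ENNReal.toReal_nonneg
  have hMc : 0 < Mc Q K := by unfold Mc; positivity
  set c₃ : ℝ := Ck * C * 2 * (Mc Q K * 4) / K (1 / 4) + Real.log 64 + 1 with hc₃
  have hl64 : 0 ≤ Real.log 64 := Real.log_nonneg (by norm_num)
  have hfr : 0 ≤ Ck * C * 2 * (Mc Q K * 4) / K (1 / 4) := by positivity
  have hc₃1 : 1 ≤ c₃ := by linarith
  set Kp : ℝ := max 1 (4 * Cn * c₃ * (6 * A + 3)) with hKp
  have hKp1 : 1 ≤ Kp := le_max_left _ _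
  have hKp2 : 4 * Cn * c₃ * (6 * A + 3) ≤ Kp := le_max_right _ _
  have hKp0 : 0 < Kp := by linarith
  obtain ⟨M, hM⟩ := eventually_atTop.1 (UNum.exists_num (A₀ := A₀) (C := C) (Cn := Cn) (c₃ := c₃)
    (κ := K (1 / 4)) (CH := |CH|) (C₂ := max C₂ (K 0)) (A := A) hA₀ hC0 hCn1 h14 hA hKp0)
  refine ⟨Kp, Real.exp (-(|M|)), hKp1, Real.exp_pos _, ?_⟩
  intro T h ν P cc e c₀ hI he heε hle hH haK ξ hξ hξn hns hnc x hx hxξ
  have hε1 : Real.exp (-|M|) ≤ 1 := by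
    rw [Real.exp_le_one_iff]; have := abs_nonneg M; linarith
  have he1 : e ≤ 1 := heε.trans hε1
  have hLM : M ≤ Real.log (e)⁻¹ := by
    rw [Real.log_inv]
    have h2 := Real.log_le_log he heε
    rw [Real.log_exp] at h2
    have := le_abs_self M
    linarith
  have n := hM _ hLM
  have hsm := rb_smallU he n
  have htt := tt_le he hA n
  have h01 := le_tt he n
  have hxn : ‖x‖ ≤ 9 / 8 + 4 * rb Kp (e) := by
    calc ‖x‖ = ‖(x - ξ) + ξ‖ := by congr 1; abel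
      _ ≤ ‖x - ξ‖ + ‖ξ‖ := norm_add_le _ _
      _ ≤ _ := by linarith
  refine ⟨h01, by linarith, ?_⟩
  by_contra hcon
  push Not at hcon
  have hHa : ∀ᵐ y ∂ν, y ∈ cylSet T 0 2 →
        ‖co T y - c₀‖ ^ 2 ≤ |CH| * Real.log (e)⁻¹ * e := by
    filter_upwards [hH] with y hy hyc
    refine (hy hyc).trans ?_
    have h1 := le_abs_self CH
    have h2 := n.one_le
    gcongr
  obtain ⟨hDlow, c, hcT, hcc₀, hst⟩ := tall_at hC0 hA₀ hk h14 HD hI hε1 he hle he1 n hHa hξ hξn hns hnc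
  have her := exc_le_rb_sq he n
  have hr0 := rb_pos' (Kp := Kp) he
  have hrsq := rb_sq' (Kp := Kp) he
  have hexp := exp_neg_log_inv he
  have hgD := energy_at hI.cyl hk h14 hr0 hx hξ hxξ
  have hstx := heights_at hr0 hx hξ hxξ hst
  have hL1 : 1 ≤ Real.log (e)⁻¹ := n.one_le
  have hη := heights_path (c := c) (by linarith) he.le hrsq hx
    (t₁ := 2 * tt A (e)) (by linarith) (by linarith) hHa hcc₀
  rw [abs_abs] at hη
  set r := rb Kp e with hrdef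
  set L := Real.log e⁻¹ with hLdef
  set D := QP.Dex T P ν ξ (80 * r) with hDdef
  have hL0 : 0 < L := by linarith
  have hΛ1 : 1 ≤ lam Kp e := n.one_le_lam
  set Λ := lam Kp e with hΛdef
  have hσ0 : 0 < sg A e := sg_pos he hL0
  have hD0 : 0 < D := lt_of_lt_of_le (by positivity) hDlow
  have hg0 : 0 < tiltK 2 T x K P ν (256 * r) := lt_of_lt_of_le (by positivity) hgD
  have hm4 : ν.real (QP.bset T x (4 * r)) ≤ Mc Q K * 4 * (4 * r) ^ 2 := by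
    rw [← cy_eq_bset (by positivity)]
    refine mass_at hI hε1 hk h14 hx (by linarith) (by positivity) (by linarith) ((hle.trans her).trans ?_)
    have : 0 ≤ r ^ 2 := sq_nonneg r
    nlinarith
  have hbot := NGP.hgtTh_le hI.cyl hk (fun s hs => (le_abs_self _).trans (hCk s hs).1) hCk0
    (c := c) (x := x) (t := 4 * r) (S := C * (2 * Λ) * D) (M := Mc Q K * 4) (by positivity)
    (by positivity) hstx hm4
  have hstart : 2 * hgtTh 2 T x k (hsq T c) P ν (4 * r)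
      ≤ c₃ * Λ * tiltK 2 T x K P ν (256 * r) := by
    refine hbot.trans ?_
    have h1 : Ck * (C * (2 * Λ) * D) * (Mc Q K * 4)
        = (Ck * C * 2 * (Mc Q K * 4) / K (1 / 4)) * Λ * (K (1 / 4) * D) := by
      field_simp
    rw [h1]
    have h2 : Ck * C * 2 * (Mc Q K * 4) / K (1 / 4) ≤ c₃ := by linarith
    gcongr
  exact path_contra hk h14 HG hC0 hCn1 hc₃1 (by linarith) hKp1 hKp2 hI he hle n hA hx hcT hxn hDlow
    hgD hη hstart (haK x hx _ (by linarith) (by linarith)) hcon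

end Vale.Agent.P214.R2
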