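import Vale.Agent.P214.R2.ExcBasic

/-!
# P214, block R2-GEO: the rate inequality for a cylinder which splits into two pieces

If the cylinder over a base ball is the sum of two stationary integral pieces with `Q₁, Q₂ < Q`
sheets, then the rate lemma for fewer sheets implies the inequality for `Q` sheets.
-/

open Set Filter Topology MeasureTheory Metric
open scoped RealInnerProductSpace ENNReal

set_option linter.all false

namespace Vale.Agent.P214.R2

open Vale.Agent.P214.Skel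

/-- the inequality of the rate lemma with given constants -/
def RateAt (E : Type*) [NormedAddCommGroup E] [InnerProductSpace ℝ E] [FiniteDimensional ℝ E]
    [MeasurableSpace E] [BorelSpace E] (m Q : ℕ) (A C ε : ℝ) : Prop :=
  ∀ (T : Submodule ℝ E) (z : E) (R h : ℝ)
    (ν : Measure E) (P : E → E →L[ℝ] E) (φ : E → ℝ), IntCyl m Q T z (2 * R) h ε ν P →
    exc T ν P z (2 * R) ≤ ε * R ^ m → BaseTest T z R φ →
    Ffl m Q T ν P φ ≤
      C * (Real.log (exc T ν P z (2 * R) / R ^ m)⁻¹) ^ (-A) * exc T ν P z (2 * R)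

variable {E : Type*} [NormedAddCommGroup E] [InnerProductSpace ℝ E] [FiniteDimensional ℝ E]
  [MeasurableSpace E] [BorelSpace E]
variable {m Q : ℕ} {T : Submodule ℝ E} {G : Set E} {h : ℝ} {ν : Measure E} {P : E → E →L[ℝ] E}

lemma rateFlat_iff : RateFlat E m Q ↔ ∀ A : ℝ, 0 < A → ∃ C ε : ℝ, 0 < C ∧ 0 < ε ∧
    RateAt E m Q A C ε := Iff.rfl

lemma intCyl_mono_delta {z : E} {R δ δ' : ℝ} (hI : IntCyl m Q T z R h δ ν P) (h' : δ ≤ δ') :
    IntCyl m Q T z R h δ' ν P :=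
  { hI with mass := hI.mass.trans (by have := hI.pos; gcongr) }

lemma RateAt.mono {A C ε C' ε' : ℝ} (H : RateAt E m Q A C ε) (hC : C ≤ C') (hε : ε' ≤ ε)
    (h1 : ε' ≤ 1) : RateAt E m Q A C' ε' := by
  intro T z R h ν P φ hI hexc hφ
  have hR : 0 < R := by have := hI.pos; linarith
  have hRm : 0 < R ^ m := pow_pos hR m
  refine (H T z R h ν P φ (intCyl_mono_delta hI hε) (hexc.trans (by gcongr)) hφ).trans ?_
  have h0 := exc_nonneg hI.cyl z (2 * R)
  have h2 : 0 ≤ Real.log (exc T ν P z (2 * R) / R ^ m)⁻¹ := by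
    rw [Real.log_inv, neg_nonneg]
    refine Real.log_nonpos (by positivity) ?_
    rw [div_le_one hRm]
    exact hexc.trans (by nlinarith)
  have h3 : 0 ≤ (Real.log (exc T ν P z (2 * R) / R ^ m)⁻¹) ^ (-A) := Real.rpow_nonneg h2 _
  gcongr

/-- common constants for all smaller numbers of sheets -/
lemma exists_common (hind : ∀ Q', 1 ≤ Q' → Q' < Q → RateFlat E m Q') {A : ℝ} (hA : 0 < A) :
    ∃ C ε : ℝ, 0 < C ∧ 0 < ε ∧ ε ≤ 1 / 2 ∧ ∀ Q', 1 ≤ Q' → Q' < Q → RateAt E m Q' A C ε := by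
  have key : ∀ N : ℕ, ∃ C ε : ℝ, 0 < C ∧ 0 < ε ∧ ε ≤ 1 / 2 ∧
      ∀ Q', 1 ≤ Q' → Q' < Q → Q' < N → RateAt E m Q' A C ε := by
    intro N
    induction N with
    | zero =>
      exact ⟨1, 1 / 2, one_pos, by norm_num, le_rfl, fun Q' _ _ h => absurd h (Nat.not_lt_zero _)⟩
    | succ N ih =>
      obtain ⟨C, ε, hC, hε, hε1, H⟩ := ih
      by_cases hN : 1 ≤ N ∧ N < Q
      · obtain ⟨C', ε', hC', hε', H'⟩ := hind N hN.1 hN.2 A hA
        have h5 : min ε ε' ≤ 1 / 2 := (min_le_left _ _).trans hε1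
        have h6 : min ε ε' ≤ 1 := h5.trans (by norm_num)
        refine ⟨max C C', min ε ε', lt_max_of_lt_left hC, lt_min hε hε', h5,
          fun Q' h1 h2 h3 => ?_⟩
        rcases Nat.lt_succ_iff_lt_or_eq.1 h3 with h4 | h4
        · exact (H Q' h1 h2 h4).mono (le_max_left _ _) (min_le_left _ _) h6
        · subst h4
          exact RateAt.mono H' (le_max_right _ _) (min_le_right _ _) h6
      · refine ⟨C, ε, hC, hε, hε1, fun Q' h1 h2 h3 => ?_⟩
        rcases Nat.lt_succ_iff_lt_or_eq.1 h3 with h4 | h4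
        · exact H Q' h1 h2 h4
        · subst h4
          exact absurd ⟨h1, h2⟩ hN
  obtain ⟨C, ε, hC, hε, hε1, H⟩ := key Q
  exact ⟨C, ε, hC, hε, hε1, fun Q' h1 h2 => H Q' h1 h2 h2⟩

/-- `u (log 1/u)^{-A}`: replacing the argument of the logarithm by a larger one -/
lemma rate_mono_arg {A C R u v : ℝ} (hA : 0 < A) (hC : 0 ≤ C) (hR : 0 < R) (hu : 0 ≤ u)
    (huv : u ≤ v) (hv : v / R < 1) :
    C * (Real.log (u / R)⁻¹) ^ (-A) * u ≤ C * (Real.log (v / R)⁻¹) ^ (-A) * u := by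
  rcases hu.eq_or_lt with h0 | h0
  · rw [← h0, mul_zero, mul_zero]
  have hv0 : 0 < v := h0.trans_le huv
  have h2 : 0 < Real.log (v / R)⁻¹ := by
    rw [Real.log_inv, neg_pos]
    exact Real.log_neg (by positivity) hv
  have h3 : Real.log (v / R)⁻¹ ≤ Real.log (u / R)⁻¹ := by
    rw [Real.log_inv, Real.log_inv, neg_le_neg_iff]
    exact Real.log_le_log (by positivity) (by gcongr)
  have h4 := Real.rpow_le_rpow_of_nonpos h2 h3 (z := -A) (by linarith)
  gcongr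

/-- **Two pieces**: the rate inequality for a cylinder which splits. -/
theorem rate_of_pieces (hind : ∀ Q', 1 ≤ Q' → Q' < Q → RateFlat E m Q') {A : ℝ} (hA : 0 < A) :
    ∃ C ε : ℝ, 0 < C ∧ 0 < ε ∧ ε ≤ 1 / 2 ∧ ∀ (T : Submodule ℝ E) (G : Set E) (x : E)
      (R h h' : ℝ) (ν : Measure E) (P : E → E →L[ℝ] E) (φ : E → ℝ) (S : Set E) (Q₁ Q₂ : ℕ),
      FV.CylStat m T G h' ν P → MeasurableSet S → 1 ≤ Q₁ → 1 ≤ Q₂ → Q₁ + Q₂ = Q →
      IntCyl m Q₁ T x (2 * R) h ε (ν.restrict S) P →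
      IntCyl m Q₂ T x (2 * R) h ε (ν.restrict Sᶜ) P →
      exc T ν P x (2 * R) ≤ ε * R ^ m → BaseTest T x R φ →
      Ffl m Q T ν P φ ≤
        C * (Real.log (exc T ν P x (2 * R) / R ^ m)⁻¹) ^ (-A) * exc T ν P x (2 * R) := by
  obtain ⟨C, ε, hC, hε, hε1, H⟩ := exists_common hind hA
  refine ⟨C, ε, hC, hε, hε1, fun T G x R h h' ν P φ S Q₁ Q₂ hCy hS h1 h2 hQ hI₁ hI₂ hexc hφ => ?_⟩
  have hR : 0 < R := by have := hI₁.pos; linarith
  have hRm : 0 < R ^ m := pow_pos hR m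
  have hb : ∀ x, |φ x| ≤ 1 := fun x => by
    rw [abs_of_nonneg (hφ.nonneg x)]; exact hφ.le_one x
  rw [ffl_restrict_add hCy hS (BaseTest.continuous hR hφ) hb hQ]
  have hadd := exc_restrict_add hCy hS x (2 * R)
  have e1 : 0 ≤ exc T (ν.restrict S) P x (2 * R) := exc_nonneg hI₁.cyl x (2 * R)
  have e2 : 0 ≤ exc T (ν.restrict Sᶜ) P x (2 * R) := exc_nonneg hI₂.cyl x (2 * R)
  have l1 : exc T (ν.restrict S) P x (2 * R) ≤ exc T ν P x (2 * R) := by linarith
  have l2 : exc T (ν.restrict Sᶜ) P x (2 * R) ≤ exc T ν P x (2 * R) := by linarith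
  have k1 := H Q₁ h1 (by omega) T x R h _ P φ hI₁ (l1.trans hexc) hφ
  have k2 := H Q₂ h2 (by omega) T x R h _ P φ hI₂ (l2.trans hexc) hφ
  have hv : exc T ν P x (2 * R) / R ^ m < 1 := by
    rw [div_lt_one hRm]
    exact hexc.trans_lt (by nlinarith)
  have k3 := rate_mono_arg hA hC.le hRm e1 l1 hv
  have k4 := rate_mono_arg hA hC.le hRm e2 l2 hv
  calc Ffl m Q₁ T (ν.restrict S) P φ + Ffl m Q₂ T (ν.restrict Sᶜ) P φ
      ≤ C * (Real.log (exc T ν P x (2 * R) / R ^ m)⁻¹) ^ (-A) * exc T (ν.restrict S) P x (2 * R)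
        + C * (Real.log (exc T ν P x (2 * R) / R ^ m)⁻¹) ^ (-A)
          * exc T (ν.restrict Sᶜ) P x (2 * R) := add_le_add (k1.trans k3) (k2.trans k4)
    _ = _ := by rw [← mul_add, hadd]

end Vale.Agent.P214.R2
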