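import Vale.Agent.P214.R2.AsmB

/-!
# P214, block ASM2 (m = 2): the assembly

`rateUnitH_of_boxes`: the rate lemma for `Q` sheets in dimension two, with bounded heights, from
the boxes of `R2/Props.lean`; `rateFlat_two`: the induction on the number of sheets.
-/

open Set Filter Topology MeasureTheory Metric
open scoped RealInnerProductSpace ENNReal ContDiff

set_option linter.all false

namespace Vale.Agent.P214.R2

open Vale.Agent.P214.Skel

variable {E : Type*} [NormedAddCommGroup E] [InnerProductSpace ℝ E] [FiniteDimensional ℝ E]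
  [MeasurableSpace E] [BorelSpace E]
variable {Q : ℕ} {T : Submodule ℝ E} {h : ℝ} {ν : Measure E} {P : E → E →L[ℝ] E}

/-- **The sum over the cells.** -/
theorem sum_cells {ε r t Cw Ci a aC δ : ℝ} (hI : IntCyl 2 Q T 0 2 h ε ν P)
    {ρ N : E → ℝ} (hr : 0 < r) (hr1 : 64 * r ≤ 1) (hrt : 32 * r ≤ t)
    (hρm : Measurable ρ) (hρ0 : ∀ x, 0 ≤ ρ x) (hρ1 : ∀ x, ρ x ≤ 1)
    (hρs : ∀ x, 3 / 2 ≤ ‖x‖ → ρ x = 0) (hρo : ∀ x, 1 ≤ ‖x‖ → ρ x ≤ δ)
    (hNm : Measurable N) (hN0 : ∀ x, 0 ≤ N x) (hN1 : ∀ x, N x ≤ 1)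
    (ll : EX.LogLip (ball (0 : E) (5 / 4)) t ρ)
    (hCi : 0 < Ci) (ha : 0 ≤ a) (hδ : 0 ≤ δ)
    (hW : ∀ (A : Set E) (R : E → ℝ) (R₀ : ℝ), Bornology.IsBounded A →
      0 < R₀ → (∀ x, R₀ ≤ R x) → LOC.LipRad R →
      ∃ (P : Finset E) (χ : E → E → ℝ), (P : Set E) ⊆ A ∧
      (∀ p ∈ P, ContDiff ℝ ∞ (χ p)) ∧
      (∀ p ∈ P, ∀ x, 0 ≤ χ p x ∧ χ p x ≤ 1) ∧
      (∀ p ∈ P, ∀ x, R p ≤ dist x p → χ p x = 0) ∧
      (∀ p ∈ P, ∀ x y, |χ p x - χ p y| ≤ Cw / R p * dist x y) ∧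
      (∀ p ∈ P, ∀ x, ‖fderiv ℝ (χ p) x‖ ≤ Cw / R p) ∧
      (∀ p ∈ P, ∀ x, ‖fderiv ℝ (fderiv ℝ (χ p)) x‖ ≤ Cw / R p ^ 2) ∧
      (∀ x, ∑ p ∈ P, χ p x ≤ 1) ∧
      (∃ U : Set E, IsOpen U ∧ A ⊆ U ∧ ∀ x ∈ U, ∑ p ∈ P, χ p x = 1) ∧
      (∀ x, ((P.filter fun p => dist p x ≤ 4 * R p + R x).card : ℝ) ≤ Cw) ∧
      (∀ c ∈ P, ∀ d ∈ P, c ≠ d → (R c + R d) / 8 ≤ dist c d)) (hCw : 1 ≤ Cw)
    (hIV : ∀ x ∈ T, ‖x‖ ≤ 3 / 2 → ∀ (f : E → ℝ) (M : ℝ), Measurable f → (∀ y, |f y| ≤ M) →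
      (∀ y, r ≤ ‖y - x‖ → f y = 0) → |Ffl 2 Q T ν P f| ≤ Ci * M * exc T ν P x (4 * r))
    {SS UU CC : E → Prop} (hcov : ∀ p ∈ T, ‖p‖ ≤ 17 / 16 → SS p ∨ UU p ∨ CC p)
    (hS : ∀ p ∈ T, ‖p‖ ≤ 17 / 16 → SS p → ∀ f : E → ℝ, BaseTest T p r f →
      Ffl 2 Q T ν P f ≤ a * exc T ν P p (4 * r))
    (hU : ∀ p ∈ T, ‖p‖ ≤ 17 / 16 → UU p → ∀ x ∈ T, dist x p ≤ 4 * r → 2 * Ci * Cw * ρ x ≤ N x)
    (hC : ∀ f : E → ℝ, Measurable f → (∀ x, 0 ≤ f x) → (∀ x, f x ≤ 1) →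
      (∀ x ∈ T, f x ≠ 0 → ∃ p ∈ T, ‖p‖ ≤ 17 / 16 ∧ dist x p < r ∧ CC p) →
      Ffl 2 Q T ν P f ≤ aC) :
    Ffl 2 Q T ν P ρ ≤ aC + (Cw * Ci * δ + 4 * Cw ^ 2 * a) * exc T ν P 0 2 +
      ∫ y, N (T.starProjection y) * FV.tilt T (P y) ∂ν := by
  classical
  have hcy := hI.cyl
  set A : Set E := (T : Set E) ∩ closedBall 0 (3 / 2) with hA
  obtain ⟨Pf, χ, hPA, hχc, hχm, hχs, hχl, -, -, hχ1, ⟨W, -, hAW, hW1⟩, hcard, -⟩ :=
    hW A (fun _ => r) r (isBounded_closedBall.subset inter_subset_right) hr (fun _ => le_rfl)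
      (fun x y => by rw [sub_self, abs_zero]; positivity)
  have hpT : ∀ p ∈ Pf, p ∈ T := fun p hp => (hPA hp).1
  have hpn : ∀ p ∈ Pf, ‖p‖ ≤ 3 / 2 := fun p hp => by
    have := (hPA hp).2
    rwa [mem_closedBall, dist_zero_right] at this
  set f : E → E → ℝ := fun p x => ρ x * χ p x with hf
  have hft : ∀ p ∈ Pf, Tst (f p) := by
    intro p hp
    refine ⟨hρm.mul (hχc p hp).continuous.measurable, ⟨1, fun x => ?_⟩, fun x hx => ?_⟩
    · rw [abs_of_nonneg (mul_nonneg (hρ0 x) (hχm p hp x).1)]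
      exact mul_le_one₀ (hρ1 x) (hχm p hp x).1 (hχm p hp x).2
    · rw [hf]
      simp only
      rw [hρs x (by linarith), zero_mul]
  -- the function is the sum of the cell functions
  have hsum : ∀ x ∈ T, ρ x = ∑ p ∈ Pf, f p x := by
    intro x hx
    simp only [hf]
    rw [← Finset.mul_sum]
    by_cases h0 : 3 / 2 ≤ ‖x‖
    · rw [hρs x h0, zero_mul]
    · have : x ∈ A := ⟨hx, by rw [mem_closedBall, dist_zero_right]; exact (not_le.1 h0).le⟩
      rw [hW1 x (hAW this), mul_one]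
  let good : E → Prop := fun p => ‖p‖ ≤ 17 / 16 ∧ ¬ SS p ∧ ¬ UU p
  set PC := Pf.filter good with hPC
  set PN := Pf.filter (fun p => ¬ good p) with hPN
  have hsplit : Ffl 2 Q T ν P ρ = Ffl 2 Q T ν P (fun x => ∑ p ∈ PC, f p x) +
      ∑ p ∈ PN, Ffl 2 Q T ν P (f p) := by
    rw [Ffl_congr hsum, Ffl_sum hcy Pf hft, ← Finset.sum_filter_add_sum_filter_not Pf good,
      Ffl_sum hcy PC fun p hp => hft p (Finset.mem_filter.1 hp).1]
  -- the flat cells
  have hCC : Ffl 2 Q T ν P (fun x => ∑ p ∈ PC, f p x) ≤ aC := by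
    refine hC _ (Finset.measurable_sum PC fun p hp =>
      (hft p (Finset.mem_filter.1 hp).1).meas) (fun x => ?_) (fun x => ?_) fun x hx h0 => ?_
    · exact Finset.sum_nonneg fun p hp =>
        mul_nonneg (hρ0 x) (hχm p (Finset.mem_filter.1 hp).1 x).1
    · simp only [hf]
      rw [← Finset.mul_sum]
      have h1 : ∑ p ∈ PC, χ p x ≤ 1 :=
        (Finset.sum_le_sum_of_subset_of_nonneg (Finset.filter_subset _ _)
          fun p hp _ => (hχm p hp x).1).trans (hχ1 x)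
      have h2 : 0 ≤ ∑ p ∈ PC, χ p x :=
        Finset.sum_nonneg fun p hp => (hχm p (Finset.mem_filter.1 hp).1 x).1
      exact mul_le_one₀ (hρ1 x) h2 h1
    · obtain ⟨p, hp, hpx⟩ := Finset.exists_ne_zero_of_sum_ne_zero h0
      have hp' := Finset.mem_filter.1 hp
      refine ⟨p, hpT p hp'.1, hp'.2.1, ?_, ?_⟩
      · by_contra hcon
        refine hpx ?_
        simp only [hf]
        rw [hχs p hp'.1 x (not_lt.1 hcon), mul_zero]
      · rcases hcov p (hpT p hp'.1) hp'.2.1 with h1 | h1 | h1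
        · exact absurd h1 hp'.2.2.1
        · exact absurd h1 hp'.2.2.2
        · exact h1
  -- the other cells
  have hKb : 0 < 2 * Ci * Cw := by positivity
  have hNt0 : ∀ᵐ y ∂ν, 0 ≤ N (T.starProjection y) * FV.tilt T (P y) := by
    filter_upwards [tilt_nonneg_ae hcy] with y hy
    exact mul_nonneg (hN0 _) hy
  have hN1' : ∀ x, |N x| ≤ 1 := fun x => by rw [abs_of_nonneg (hN0 x)]; exact hN1 x
  have hNint := Tst.int_tilt hcy hNm hN1'
  have hcell : ∀ p ∈ PN, Ffl 2 Q T ν P (f p) ≤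
      (Ci * δ + 4 * Cw * a) * exc T ν P p (4 * r) +
        1 / Cw * ∫ y in cylSet T p (4 * r), N (T.starProjection y) * FV.tilt T (P y) ∂ν := by
    intro p hp
    obtain ⟨hp1, hp2⟩ := Finset.mem_filter.1 hp
    have e0 : 0 ≤ exc T ν P p (4 * r) := exc_nonneg hcy p (4 * r)
    have i0 : 0 ≤ ∫ y in cylSet T p (4 * r), N (T.starProjection y) * FV.tilt T (P y) ∂ν :=
      integral_nonneg_of_ae (ae_restrict_of_ae hNt0)
    have hfs : ∀ y, r ≤ ‖y - p‖ → f p y = 0 := by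
      intro y hy
      simp only [hf]
      rw [hχs p hp1 y (by rw [dist_eq_norm]; exact hy), mul_zero]
    by_cases hn : ‖p‖ ≤ 17 / 16
    · have H : CellHyp r t Cw ρ (χ p) p :=
        { hr := hr, hr1 := hr1, hrt := hrt, hp := hn, hCw := hCw, ll := ll, ρ0 := hρ0
          χm := hχm p hp1, χs := hχs p hp1, χl := hχl p hp1 }
      by_cases hSp : SS p
      · have h1 := H.cellS (Q := Q) (T := T) (ν := ν) (P := P) (hρ1 p)
          (a := a * exc T ν P p (4 * r)) (by positivity) (hS p (hpT p hp1) hn hSp)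
        refine h1.trans ?_
        have h2 : 0 ≤ Ci * δ * exc T ν P p (4 * r) := by positivity
        have h3 : 0 ≤ 1 / Cw * ∫ y in cylSet T p (4 * r),
          N (T.starProjection y) * FV.tilt T (P y) ∂ν := by positivity
        nlinarith
      · have hUp : UU p := by
          by_contra hcon
          exact hp2 ⟨hn, hSp, hcon⟩
        have h1 := H.cellU (Q := Q) (T := T) (ν := ν) (P := P) hcy hNm hN1' hKb hCi.le
          (fun x hx hxp => hU p (hpT p hp1) hn hUp x hx hxp)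
          ((le_abs_self _).trans (hIV p (hpT p hp1) (hpn p hp1) (f p) _ (hft p hp1).meas
            (fun y => H.prod_le y) hfs))
        refine h1.trans ?_
        have h2 : 0 ≤ (Ci * δ + 4 * Cw * a) * exc T ν P p (4 * r) := by positivity
        have h3 : 2 * Ci / (2 * Ci * Cw) = 1 / Cw := by field_simp
        rw [h3]
        linarith
    · have h1 : ∀ y, |f p y| ≤ δ := by
        intro y
        rw [abs_of_nonneg (mul_nonneg (hρ0 y) (hχm p hp1 y).1)]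
        by_cases hy : r ≤ dist y p
        · rw [hχs p hp1 y hy, mul_zero]
          exact hδ
        · have h2 : 1 ≤ ‖y‖ := by
            have h3 := norm_sub_norm_le p y
            rw [← dist_eq_norm, dist_comm] at h3
            have := not_le.1 hn
            have := not_le.1 hy
            linarith
          calc ρ y * χ p y ≤ ρ y * 1 := mul_le_mul_of_nonneg_left (hχm p hp1 y).2 (hρ0 y)
            _ ≤ δ := by rw [mul_one]; exact hρo y h2
      have h2 := (le_abs_self _).trans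
        (hIV p (hpT p hp1) (hpn p hp1) (f p) δ (hft p hp1).meas h1 hfs)
      refine h2.trans ?_
      have h3 : 0 ≤ 1 / Cw * ∫ y in cylSet T p (4 * r),
        N (T.starProjection y) * FV.tilt T (P y) ∂ν := by positivity
      have h4 : 0 ≤ 4 * Cw * a * exc T ν P p (4 * r) := by positivity
      nlinarith
  -- sum over the other cells
  have hcardN : ∀ x, ((PN.filter fun p => dist p x ≤ 4 * r).card : ℝ) ≤ Cw := by
    intro x
    refine le_trans ?_ (hcard x)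
    exact_mod_cast Finset.card_le_card (fun p hp => by
      rw [Finset.mem_filter] at hp ⊢
      refine ⟨(Finset.mem_filter.1 hp.1).1, ?_⟩
      linarith [hp.2])
  have hcylN : ∀ p ∈ PN, cylSet T p (4 * r) ⊆ cylSet T 0 2 := by
    intro p hp
    refine cylSet_mono ?_
    rw [dist_zero_right]
    have := hpn p (Finset.mem_filter.1 hp).1
    linarith
  have o1 : ∑ p ∈ PN, exc T ν P p (4 * r) ≤ Cw * exc T ν P 0 2 :=
    overlap (integrable_tilt' hcy) (tilt_nonneg_ae hcy) PN hcardN hcylN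
  have o2 := overlap hNint hNt0 PN hcardN hcylN
  have o3 : ∫ y in cylSet T 0 2, N (T.starProjection y) * FV.tilt T (P y) ∂ν ≤
      ∫ y, N (T.starProjection y) * FV.tilt T (P y) ∂ν :=
    setIntegral_le_integral hNint hNt0
  rw [hsplit]
  have h5 : ∑ p ∈ PN, Ffl 2 Q T ν P (f p) ≤ (Ci * δ + 4 * Cw * a) * (Cw * exc T ν P 0 2) +
      1 / Cw * (Cw * ∫ y in cylSet T 0 2, N (T.starProjection y) * FV.tilt T (P y) ∂ν) := by
    refine (Finset.sum_le_sum hcell).trans ?_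
    rw [Finset.sum_add_distrib, ← Finset.mul_sum, ← Finset.mul_sum]
    gcongr
  have h6 : 1 / Cw * (Cw * ∫ y in cylSet T 0 2, N (T.starProjection y) * FV.tilt T (P y) ∂ν)
      = ∫ y in cylSet T 0 2, N (T.starProjection y) * FV.tilt T (P y) ∂ν := by
    field_simp
  rw [h6] at h5
  nlinarith

lemma final_ineq {F G I Fρ e Ln δ CC CS Cw Ci Ct : ℝ} (h2 : 1 / 2 * (F + δ * G) + I ≤ Fρ)
    (hsum : Fρ ≤ CC * Ln * e + (Cw * Ci * δ + 4 * Cw ^ 2 * (CS * Ln)) * e + I)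
    (h4 : -(δ * G) ≤ Ln * (Ct * e)) (h10 : Cw * Ci * (δ * e) ≤ Cw * Ci * (Ln * e)) :
    F ≤ (2 * (Cw * Ci) + 8 * Cw ^ 2 * CS + 2 * CC + Ct) * Ln * e := by
  linarith

/-- **The assembly** (one number of sheets). -/
theorem rateUnitH_of_boxes {η : E → ℝ}
    {Sp : Submodule ℝ E → Measure E → (E → E →L[ℝ] E) → E → ℝ → Prop}
    (hIV : BoxIV E Q) (hTop : BoxTop E Q) (hS : BoxS Sp Q) (hU : BoxU η Sp Q) (hC : BoxC Sp Q)
    (hX : BoxExh η Q) (CH : ℝ) : RateUnitH E Q CH := by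
  intro A₀ hA₀
  set A : ℝ := max A₀ 1 with hA
  have hA1 : 1 ≤ A := le_max_right _ _
  obtain ⟨Cw, hCw, hW⟩ := LOC.whitney' E
  obtain ⟨Ci, hCi, hIV⟩ := hIV
  obtain ⟨Ct, εt, hCt, hεt, hTop⟩ := hTop
  set Kb : ℝ := max 1 (2 * Ci * Cw) with hKb
  obtain ⟨B, hB, η₁, hη₁c, hη₁0, hη₁1, hη₁s, hX⟩ := hX Kb (le_max_left _ _)
  obtain ⟨K, εU, hK, hεU, hU⟩ := hU CH A B hA1 hB
  obtain ⟨εI, hεI, hIV⟩ := hIV K hK
  obtain ⟨CS, εS, hCS, hεS, hS⟩ := hS A K hA1 hK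
  obtain ⟨CC, εC, hCC, hεC, hC⟩ := hC CH A K hA1 hK
  obtain ⟨εr, hεr, hr⟩ := rb_small_asm hA1 hK
  set ε : ℝ := min εt (min εU (min εI (min εS (min εC εr)))) with hε
  have l1 : ε ≤ εt := min_le_left _ _
  have l2 : ε ≤ εU := (min_le_right _ _).trans (min_le_left _ _)
  have l3 : ε ≤ εI := (min_le_right _ _).trans ((min_le_right _ _).trans (min_le_left _ _))
  have l4 : ε ≤ εS := (min_le_right _ _).trans ((min_le_right _ _).trans
    ((min_le_right _ _).trans (min_le_left _ _)))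
  have l5 : ε ≤ εC := (min_le_right _ _).trans ((min_le_right _ _).trans
    ((min_le_right _ _).trans ((min_le_right _ _).trans (min_le_left _ _))))
  have l6 : ε ≤ εr := (min_le_right _ _).trans ((min_le_right _ _).trans
    ((min_le_right _ _).trans ((min_le_right _ _).trans (min_le_right _ _))))
  have hε0 : 0 < ε := by
    rw [hε]
    positivity
  refine ⟨2 * (Cw * Ci) + 8 * Cw ^ 2 * CS + 2 * CC + Ct, ε, by positivity, hε0,
    fun e T h ν P φ hc hφ => ?_⟩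
  have hI := hc.ic
  have h0 := hc.pos
  have hexc := hc.exc_le
  have mono : ∀ ε', ε ≤ ε' → IntCyl 2 Q T 0 2 h ε' ν P := fun ε' h' =>
    { hI with mass := hI.mass.trans (by gcongr) }
  have hcy := hI.cyl
  have hφc : Continuous φ := BaseTest.continuous one_pos hφ
  have hφs : ∀ x, 1 ≤ ‖x‖ → φ x = 0 := fun x hx => hφ.supp x (by rw [sub_zero]; exact hx)
  have hφt : Tst φ := ⟨hφc.measurable, ⟨1, fun x => by
    rw [abs_of_nonneg (hφ.nonneg x)]; exact hφ.le_one x⟩, fun x hx => hφs x (by linarith)⟩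
  have cf0 : ∀ ε', ε ≤ ε' → Conf0 Q ε' e T h ν P := fun ε' h' =>
    ⟨mono ε' h', h0, hc.le.trans h', hexc⟩
  have cf : ∀ ε', ε ≤ ε' → Conf Q CH ε' e T h ν P := fun ε' h' =>
    { toConf0 := cf0 ε' h', hh := hc.hh }
  obtain ⟨hL1, hrb, hrs⟩ := hr e h0 (hc.le.trans l6)
  set L : ℝ := Real.log e⁻¹ with hL
  set r : ℝ := rb K e with hrdef
  have hL0 : 0 < L := by linarith
  have hL1' : 1 ≤ L := by linarith
  set δ : ℝ := L ^ (-(A + 1)) with hδ
  have hδ0 : 0 < δ := Real.rpow_pos_of_pos hL0 _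
  have hδ1 : δ ≤ 1 / 2 := by
    calc δ ≤ L ^ (-(1 : ℝ)) := Real.rpow_le_rpow_of_exponent_le hL1' (by linarith)
      _ = L⁻¹ := Real.rpow_neg_one L
      _ ≤ 1 / 2 := by
        rw [one_div]
        exact inv_anti₀ (by norm_num) hL1
  have hδA : δ ≤ L ^ (-A) := Real.rpow_le_rpow_of_exponent_le hL1' (by linarith)
  have hLA0 : 0 < L ^ (-A) := Real.rpow_pos_of_pos hL0 _
  have htt : tt A e = δ / 16 := rfl
  have ht0 : 0 < tt A e := by rw [htt]; positivity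
  obtain ⟨J, hJ1, hJ2⟩ := exists_level (t₀ := tt A e) hrb (by rw [htt]; linarith)
  obtain ⟨ρ, N, hex⟩ := hX T h ε ν P hI φ hφ δ (tt A e) hδ0 hδ1 ht0 htt.le J
  set t : ℝ := tt A e / 2 ^ J with ht
  have hδη1 : ∀ x, δ * η₁ x ≤ δ := fun x => mul_le_of_le_one_right hδ0.le (hη₁1 x)
  have hρ1 : ∀ x, ρ x ≤ 1 := fun x => (hex.le x).trans (by
    have := hφ.le_one x
    have := hδη1 x
    linarith)
  have hρs : ∀ x, 3 / 2 ≤ ‖x‖ → ρ x = 0 := fun x hx => le_antisymm ((hex.le x).trans (by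
    rw [hφs x (by linarith), hη₁s x hx]
    simp)) (hex.nonneg x)
  have hρo : ∀ x, 1 ≤ ‖x‖ → ρ x ≤ δ := fun x hx => (hex.le x).trans (by
    rw [hφs x hx]
    have := hδη1 x
    linarith)
  have hsum := sum_cells (Q := Q) (T := T) (ν := ν) (P := P) (a := CS * L ^ (-A))
    (aC := CC * L ^ (-A) * e) (δ := δ) (r := r) (t := t) (Cw := Cw) (Ci := Ci) (ρ := ρ) (N := N)
    hI hrb (by linarith) hJ1 hex.measρ hex.nonneg hρ1 hρs hρo hex.measN hex.N_nonneg hex.N_le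
    hex.loglip hCi (by positivity) hδ0.le hW hCw
    (fun x hx hxn f M hfm hfM hfs => hIV e T h ν P (cf0 _ l3) x hx hxn f M hfm hfM hfs)
    (SS := fun p => Sp T ν P p r)
    (UU := fun p => ¬ Sp T ν P p r ∧ ¬ HtIn T ν p (8 * r) (sg A e))
    (CC := fun p => ¬ Sp T ν P p r ∧ HtIn T ν p (8 * r) (sg A e))
    (fun p _ _ => by tauto)
    (fun p hp hpn hSp f hf => hS e T h ν P (cf0 _ l4) p hp (by linarith) hSp f hf)
    (fun p hp hpn hUp x hx hxp => ?_)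
    (fun f hfm hf0 hf1 hf => hC e T h ν P (cf _ l5) f hfm hf0 hf1 fun x hx hx0 => by
      obtain ⟨p, hp, hpn, hxp, hp1, hp2⟩ := hf x hx hx0
      exact ⟨p, hp, by linarith, by rw [← dist_eq_norm]; exact hxp, hp1, hp2⟩)
  · -- conclusion
    have hη₁t : Tst η₁ := ⟨hη₁c.measurable, ⟨1, fun x => by
      rw [abs_of_nonneg (hη₁0 x)]; exact hη₁1 x⟩, fun x hx => hη₁s x (by linarith)⟩
    have hδη : Tst (fun x => δ * η₁ x) := ⟨hη₁c.measurable.const_mul δ, ⟨1, fun x => by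
      rw [abs_of_nonneg (mul_nonneg hδ0.le (hη₁0 x))]
      have := hδη1 x
      linarith⟩, fun x hx => by rw [hη₁s x (by linarith), mul_zero]⟩
    have h1 : Ffl 2 Q T ν P (fun x => (φ x + δ * η₁ x) / 2)
        = 1 / 2 * (Ffl 2 Q T ν P φ + δ * Ffl 2 Q T ν P η₁) := by
      have : (fun x => (φ x + δ * η₁ x) / 2) = fun x => 1 / 2 * (φ x + δ * η₁ x) := by
        funext x; ring
      rw [this, Ffl_smul, Ffl_add hcy hφt hδη, Ffl_smul]
    have h2 := hex.ineq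
    rw [h1] at h2
    have h3 := hTop T h ν P (mono _ l1) (hexc.trans (hc.le.trans l1)) η₁ hη₁c.measurable
      (fun y => by rw [abs_of_nonneg (hη₁0 y)]; exact hη₁1 y) hη₁s
    have h4 : -(δ * Ffl 2 Q T ν P η₁) ≤ L ^ (-A) * (Ct * e) := by
      have h5 := (abs_le.1 (h3.trans (mul_le_mul_of_nonneg_left hexc hCt.le))).1
      have h6 : 0 ≤ Ct * e := by positivity
      calc -(δ * Ffl 2 Q T ν P η₁) = δ * (-Ffl 2 Q T ν P η₁) := by ring
        _ ≤ δ * (Ct * e) := mul_le_mul_of_nonneg_left (by linarith) hδ0.le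
        _ ≤ _ := mul_le_mul_of_nonneg_right hδA h6
    have h8 : L ^ (-A) ≤ L ^ (-A₀) :=
      Real.rpow_le_rpow_of_exponent_le hL1' (by have := le_max_left A₀ 1; linarith)
    have h10 : Cw * Ci * (δ * e) ≤ Cw * Ci * (L ^ (-A) * e) := by gcongr
    have hsum' : Ffl 2 Q T ν P ρ ≤ CC * L ^ (-A) * e +
        (Cw * Ci * δ + 4 * Cw ^ 2 * (CS * L ^ (-A))) * e +
          ∫ y, N (T.starProjection y) * FV.tilt T (P y) ∂ν := by
      refine hsum.trans ?_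
      have : 0 ≤ Cw * Ci * δ + 4 * Cw ^ 2 * (CS * L ^ (-A)) := by positivity
      gcongr
    refine (final_ineq h2 hsum' h4 h10).trans ?_
    have h11 : 0 ≤ 2 * (Cw * Ci) + 8 * Cw ^ 2 * CS + 2 * CC + Ct := by positivity
    exact mul_le_mul_of_nonneg_right (mul_le_mul_of_nonneg_left h8 h11) h0.le
  · have h1 : 2 * Ci * Cw * ρ x ≤ Kb * ρ x :=
      mul_le_mul_of_nonneg_right (le_max_right _ _) (hex.nonneg x)
    refine h1.trans ?_
    have hxn : ‖x‖ ≤ 9 / 8 := by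
      have h2 := norm_sub_norm_le x p
      rw [← dist_eq_norm] at h2
      linarith
    rcases hex.alt x hx hxn with h2 | h2
    · exact h2
    · exfalso
      have h3 := hU e T h ν P (cf _ l2) p hp (by linarith) hUp.1 hUp.2 x hx
        (by rw [← dist_eq_norm]; exact hxp) (2 * t) (by linarith) (by linarith)
      exact absurd h2 (not_le.2 h3)

/-- **The flat rate lemma in dimension two**, by induction on the number of sheets. -/
theorem rateFlat_two {η : E → ℝ}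
    {Sp : ℕ → Submodule ℝ E → Measure E → (E → E →L[ℝ] E) → E → ℝ → Prop}
    (hIV : ∀ Q, 1 ≤ Q → BoxIV E Q) (hTop : ∀ Q, 1 ≤ Q → BoxTop E Q)
    (hS : ∀ Q, 1 ≤ Q → (∀ Q', 1 ≤ Q' → Q' < Q → RateFlat E 2 Q') → BoxS (Sp Q) Q)
    (hU : ∀ Q, 1 ≤ Q → BoxU η (Sp Q) Q) (hC : ∀ Q, 1 ≤ Q → BoxC (Sp Q) Q)
    (hX : ∀ Q, 1 ≤ Q → BoxExh η Q)
    (hD : ∀ Q, 1 ≤ Q → (∀ Q', 1 ≤ Q' → Q' < Q → RateFlat E 2 Q') →
      (∀ CH : ℝ, RateUnitH E Q CH) → RateFlat E 2 Q) : ∀ Q, 1 ≤ Q → RateFlat E 2 Q := by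
  intro Q
  induction Q using Nat.strong_induction_on with
  | _ Q ih =>
    intro hQ
    have ih' : ∀ Q', 1 ≤ Q' → Q' < Q → RateFlat E 2 Q' := fun Q' h1 h2 => ih Q' h2 h1
    exact hD Q hQ ih' fun CH => rateUnitH_of_boxes (hIV Q hQ) (hTop Q hQ)
      (hS Q hQ ih') (hU Q hQ) (hC Q hQ) (hX Q hQ) CH

end Vale.Agent.P214.R2
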