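import Vale.Agent.P214.R2.Props
import Vale.Agent.P214.R2.ExcBasic
import Vale.Agent.P214.DEN.C

/-!
# P214, block ASM2 (m = 2): parameters and linearity of `Ffl`
-/

open Set Filter Topology MeasureTheory Metric
open scoped RealInnerProductSpace ENNReal

set_option linter.all false

namespace Vale.Agent.P214.R2

open Vale.Agent.P214.Skel

section params

lemma sqrt_eq_exp {e : ℝ} (he : 0 < e) : √e = Real.exp (-(Real.log e⁻¹ / 2)) := by
  rw [Real.log_inv, Real.sqrt_eq_rpow, Real.rpow_def_of_pos he]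
  congr 1
  ring

/-- the bottom scale is far below the top scale -/
lemma rb_small_asm {A K : ℝ} (hA : 1 ≤ A) (hK : 1 ≤ K) : ∃ ε : ℝ, 0 < ε ∧ ∀ e : ℝ, 0 < e → e ≤ ε →
    2 ≤ Real.log e⁻¹ ∧ 0 < rb K e ∧ 512 * rb K e ≤ (Real.log e⁻¹) ^ (-(A + 1)) := by
  have h1 := tendsto_rpow_mul_exp_neg_mul_atTop_nhds_zero (A + 1) (1 / 4) (by norm_num)
  have h2 : ∀ᶠ L : ℝ in atTop, L ^ (A + 1) * Real.exp (-(1 / 4) * L) ≤ 1 / 512 :=
    (h1.eventually_lt_const (by norm_num : (0:ℝ) < 1 / 512)).mono fun L hL => hL.le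
  obtain ⟨L₀, hL₀⟩ := eventually_atTop.1 h2
  refine ⟨Real.exp (-(max L₀ (Real.exp 2))), Real.exp_pos _, fun e he hle => ?_⟩
  set L := Real.log e⁻¹ with hL
  have h3 : max L₀ (Real.exp 2) ≤ L := by
    rw [hL, Real.log_inv]
    have := Real.log_le_log he hle
    rw [Real.log_exp] at this
    linarith
  have h4 : Real.exp 2 ≤ L := (le_max_right _ _).trans h3
  have h5 : L₀ ≤ L := (le_max_left _ _).trans h3
  have hL1 : 2 ≤ L := le_trans (by have := Real.add_one_le_exp (2:ℝ); linarith) h4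
  have hL0 : 0 < L := by linarith
  have h6 : 2 ≤ Real.log L := by
    rw [Real.le_log_iff_exp_le hL0]
    exact h4
  have hrb : 0 < rb K e := by
    unfold rb
    have := Real.sqrt_pos.2 he
    positivity
  refine ⟨hL1, hrb, ?_⟩
  have h7 : lam K e ≤ L / 2 := by
    unfold lam
    rw [← hL]
    gcongr
    nlinarith
  have h8 : rb K e ≤ Real.exp (-(1 / 4) * L) := by
    unfold rb
    rw [sqrt_eq_exp he, ← Real.exp_add, ← hL]
    exact Real.exp_le_exp.2 (by linarith)
  have h9 := hL₀ L h5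
  have h10 : L ^ (-(A + 1)) * L ^ (A + 1) = 1 := by
    rw [← Real.rpow_add hL0]
    simp
  have h11 : 0 < L ^ (-(A + 1)) := Real.rpow_pos_of_pos hL0 _
  calc 512 * rb K e ≤ 512 * Real.exp (-(1 / 4) * L) := by gcongr
    _ = L ^ (-(A + 1)) * (512 * (L ^ (A + 1) * Real.exp (-(1 / 4) * L))) := by
        rw [show L ^ (-(A + 1)) * (512 * (L ^ (A + 1) * Real.exp (-(1 / 4) * L)))
          = (L ^ (-(A + 1)) * L ^ (A + 1)) * (512 * Real.exp (-(1 / 4) * L)) by ring, h10, one_mul]
    _ ≤ L ^ (-(A + 1)) * 1 := by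
        gcongr
        linarith
    _ = _ := mul_one _

/-- the number of levels -/
lemma exists_level {t₀ r : ℝ} (hr : 0 < r) (h : 32 * r ≤ t₀) :
    ∃ J : ℕ, 32 * r ≤ t₀ / 2 ^ J ∧ t₀ / 2 ^ J ≤ 64 * r := by
  have h1 : 1 ≤ t₀ / (32 * r) := by
    rw [le_div_iff₀ (by positivity)]
    linarith
  obtain ⟨J, h2, h3⟩ := exists_nat_pow_near h1 (by norm_num : (1:ℝ) < 2)
  refine ⟨J, ?_, ?_⟩
  · rw [le_div_iff₀ (by positivity)] at h2 ⊢
    linarith
  · rw [div_lt_iff₀ (by positivity), pow_succ] at h3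
    rw [div_le_iff₀ (by positivity)]
    linarith

end params

section linear

variable {E : Type*} [NormedAddCommGroup E] [InnerProductSpace ℝ E] [FiniteDimensional ℝ E]
  [MeasurableSpace E] [BorelSpace E]
variable {m Q : ℕ} {T : Submodule ℝ E} {G : Set E} {h : ℝ} {ν : Measure E} {P : E → E →L[ℝ] E}

lemma Ffl_congr {f g : E → ℝ} (hfg : ∀ x ∈ T, f x = g x) :
    Ffl m Q T ν P f = Ffl m Q T ν P g := by
  have hT : MeasurableSet (T : Set E) := T.closed_of_finiteDimensional.measurableSet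
  unfold Ffl
  rw [setIntegral_congr_fun hT (fun x hx => hfg x hx)]
  congr 1
  refine integral_congr_ae (Eventually.of_forall fun y => ?_)
  simp only
  rw [hfg _ (Submodule.starProjection_apply_mem T y)]

/-- bounded Borel functions supported in a ball -/
structure Tst (f : E → ℝ) : Prop where
  meas : Measurable f
  bdd : ∃ M : ℝ, ∀ x, |f x| ≤ M
  supp : ∀ x, 2 ≤ ‖x‖ → f x = 0

lemma Tst.int1 (hC : FV.CylStat m T G h ν P) {f : E → ℝ} (hf : Tst f) :
    Integrable (fun y => f (T.starProjection y) * (1 - FV.tilt T (P y) / 2)) ν := by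
  haveI := hC.fin
  obtain ⟨M, hM⟩ := hf.bdd
  have h1 : Integrable (fun y => 1 - FV.tilt T (P y) / 2) ν :=
    (integrable_const 1).sub ((integrable_tilt' hC).div_const 2)
  refine h1.bdd_mul (c := M)
    (hf.meas.comp T.starProjection.continuous.measurable).aestronglyMeasurable ?_
  exact Eventually.of_forall fun y => by rw [Real.norm_eq_abs]; exact hM _

lemma Tst.int_tilt (hC : FV.CylStat m T G h ν P) {f : E → ℝ} (hf : Measurable f) {M : ℝ}
    (hM : ∀ x, |f x| ≤ M) :
    Integrable (fun y => f (T.starProjection y) * FV.tilt T (P y)) ν := by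
  refine (integrable_tilt' hC).bdd_mul (c := M)
    (hf.comp T.starProjection.continuous.measurable).aestronglyMeasurable ?_
  exact Eventually.of_forall fun y => by rw [Real.norm_eq_abs]; exact hM _

lemma Tst.int2 (hC : FV.CylStat m T G h ν P) {f : E → ℝ} (hf : Tst f) :
    IntegrableOn f (T : Set E) (μH[m] : Measure E) := by
  obtain ⟨M, hM⟩ := hf.bdd
  have hT : MeasurableSet (T : Set E) := T.closed_of_finiteDimensional.measurableSet
  have h1 : IntegrableOn f ((T : Set E) ∩ closedBall 0 2) (μH[m] : Measure E) := by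
    refine Measure.integrableOn_of_bounded (M := M) (DEN.locallyFinite_plane hC.dimT 2).ne
      hf.meas.aestronglyMeasurable ?_
    exact Eventually.of_forall fun y => by rw [Real.norm_eq_abs]; exact hM _
  refine h1.of_forall_diff_eq_zero hT fun x hx => hf.supp x ?_
  by_contra hcon
  refine hx.2 ⟨hx.1, ?_⟩
  rw [mem_closedBall, dist_zero_right]
  exact (not_le.1 hcon).le

lemma Ffl_smul (c : ℝ) (f : E → ℝ) :
    Ffl m Q T ν P (fun x => c * f x) = c * Ffl m Q T ν P f := by
  unfold Ffl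
  rw [integral_const_mul]
  have : (fun y => c * f (T.starProjection y) * (1 - FV.tilt T (P y) / 2))
      = fun y => c * (f (T.starProjection y) * (1 - FV.tilt T (P y) / 2)) := by
    funext y; ring
  rw [this, integral_const_mul]
  ring

lemma Ffl_zero : Ffl m Q T ν P (fun _ => 0) = 0 := by
  simp [Ffl]

lemma Ffl_add (hC : FV.CylStat m T G h ν P) {f g : E → ℝ} (hf : Tst f) (hg : Tst g) :
    Ffl m Q T ν P (fun x => f x + g x) = Ffl m Q T ν P f + Ffl m Q T ν P g := by
  unfold Ffl
  rw [integral_add (hf.int2 hC) (hg.int2 hC)]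
  have : (fun y => (f (T.starProjection y) + g (T.starProjection y)) * (1 - FV.tilt T (P y) / 2))
      = fun y => f (T.starProjection y) * (1 - FV.tilt T (P y) / 2) +
        g (T.starProjection y) * (1 - FV.tilt T (P y) / 2) := by
    funext y; ring
  rw [this, integral_add (hf.int1 hC) (hg.int1 hC)]
  ring

lemma Tst.sum {ι : Type*} (s : Finset ι) {f : ι → E → ℝ} (hf : ∀ i ∈ s, Tst (f i)) :
    Tst (fun x => ∑ i ∈ s, f i x) := by
  refine ⟨Finset.measurable_sum s fun i hi => (hf i hi).meas, ?_, fun x hx => ?_⟩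
  · have : ∀ i, ∃ M : ℝ, i ∈ s → ∀ x, |f i x| ≤ M := by
      intro i
      by_cases hi : i ∈ s
      · obtain ⟨M, hM⟩ := (hf i hi).bdd
        exact ⟨M, fun _ => hM⟩
      · exact ⟨0, fun h => absurd h hi⟩
    choose M hM using this
    refine ⟨∑ i ∈ s, M i, fun x => (Finset.abs_sum_le_sum_abs _ _).trans ?_⟩
    exact Finset.sum_le_sum fun i hi => hM i hi x
  · exact Finset.sum_eq_zero fun i hi => (hf i hi).supp x hx

lemma Ffl_sum (hC : FV.CylStat m T G h ν P) {ι : Type*} (s : Finset ι) {f : ι → E → ℝ}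
    (hf : ∀ i ∈ s, Tst (f i)) :
    Ffl m Q T ν P (fun x => ∑ i ∈ s, f i x) = ∑ i ∈ s, Ffl m Q T ν P (f i) := by
  classical
  induction s using Finset.induction_on with
  | empty => simp [Ffl]
  | insert i s hi ih =>
    simp only [Finset.sum_insert hi]
    rw [Ffl_add hC (hf i (Finset.mem_insert_self i s))
      (Tst.sum s fun j hj => hf j (Finset.mem_insert_of_mem hj)),
      ih fun j hj => hf j (Finset.mem_insert_of_mem hj)]

/-- bounded overlap, integrated -/
lemma overlap {g : E → ℝ} (hg : Integrable g ν) (hg0 : 0 ≤ᵐ[ν] g) (S : Finset E) {C s : ℝ}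
    (hC : ∀ x, ((S.filter fun p => dist p x ≤ s).card : ℝ) ≤ C)
    (hS : ∀ p ∈ S, cylSet T p s ⊆ cylSet T 0 2) :
    ∑ p ∈ S, ∫ y in cylSet T p s, g y ∂ν ≤ C * ∫ y in cylSet T 0 2, g y ∂ν := by
  classical
  have h1 : ∀ p, ∫ y in cylSet T p s, g y ∂ν = ∫ y, (cylSet T p s).indicator g y ∂ν :=
    fun p => (integral_indicator (measurableSet_cylSet T p s)).symm
  simp only [h1]
  rw [← integral_indicator (measurableSet_cylSet T 0 2), ← integral_const_mul,
    ← integral_finset_sum _ fun p _ => hg.indicator (measurableSet_cylSet T p s)]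
  refine integral_mono_ae (integrable_finset_sum _ fun p _ =>
    hg.indicator (measurableSet_cylSet T p s))
    ((hg.indicator (measurableSet_cylSet T 0 2)).const_mul C) ?_
  filter_upwards [hg0] with y hy
  have hC0 : 0 ≤ C := le_trans (by positivity) (hC 0)
  have h2 : ∑ p ∈ S, (cylSet T p s).indicator g y
      = ((S.filter fun p => y ∈ cylSet T p s).card : ℝ) * g y := by
    rw [← nsmul_eq_mul, ← Finset.sum_const, Finset.sum_filter]
    exact Finset.sum_congr rfl fun p _ => by by_cases hx : y ∈ cylSet T p s <;> simp [hx]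
  rw [h2]
  by_cases hy2 : y ∈ cylSet T 0 2
  · rw [indicator_of_mem hy2]
    refine mul_le_mul_of_nonneg_right ?_ hy
    refine le_trans ?_ (hC (T.starProjection y))
    exact_mod_cast Finset.card_le_card (fun p hp => by
      rw [Finset.mem_filter] at hp ⊢
      refine ⟨hp.1, ?_⟩
      rw [dist_comm]
      exact (mem_ball.1 hp.2).le)
  · rw [indicator_of_notMem hy2, mul_zero]
    have h3 : (S.filter fun p => y ∈ cylSet T p s) = ∅ := by
      rw [Finset.filter_eq_empty_iff]
      intro p hp hyp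
      exact hy2 (hS p hp hyp)
    rw [h3]
    simp

end linear

end Vale.Agent.P214.R2
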