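import Vale.Agent.P214.R2.AsmA
import Vale.Agent.P214.LOC.WhitCor

/-!
# P214, block ASM2 (m = 2): the cells
-/

open Set Filter Topology MeasureTheory Metric
open scoped RealInnerProductSpace ENNReal ContDiff

set_option linter.all false

namespace Vale.Agent.P214.R2

open Vale.Agent.P214.Skel

variable {E : Type*} [NormedAddCommGroup E] [InnerProductSpace ℝ E] [FiniteDimensional ℝ E]
  [MeasurableSpace E] [BorelSpace E]
variable {Q : ℕ} {T : Submodule ℝ E} {h : ℝ} {ν : Measure E} {P : E → E →L[ℝ] E}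

/-- one cell: centre `p`, radius `r`, log-Lipschitz function `ρ`, cut-off `χ` -/
structure CellHyp (r t Cw : ℝ) (ρ χ : E → ℝ) (p : E) : Prop where
  hr : 0 < r
  hr1 : 64 * r ≤ 1
  hrt : 32 * r ≤ t
  hp : ‖p‖ ≤ 17 / 16
  hCw : 1 ≤ Cw
  ll : EX.LogLip (ball (0 : E) (5 / 4)) t ρ
  ρ0 : ∀ x, 0 ≤ ρ x
  χm : ∀ x, 0 ≤ χ x ∧ χ x ≤ 1
  χs : ∀ x, r ≤ dist x p → χ x = 0
  χl : ∀ x y, |χ x - χ y| ≤ Cw / r * dist x y

namespace CellHyp

variable {r t Cw : ℝ} {ρ χ : E → ℝ} {p : E}

omit [FiniteDimensional ℝ E] [MeasurableSpace E] [BorelSpace E] in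
lemma mem (H : CellHyp r t Cw ρ χ p) {x : E} (hx : dist x p ≤ 4 * r) :
    x ∈ ball (0 : E) (5 / 4) := by
  rw [mem_ball]
  have h1 := dist_triangle x p 0
  rw [dist_zero_right p] at h1
  have := H.hr1; have := H.hp
  linarith

omit [FiniteDimensional ℝ E] [MeasurableSpace E] [BorelSpace E] in
lemma memp (H : CellHyp r t Cw ρ χ p) : p ∈ ball (0 : E) (5 / 4) :=
  H.mem (by rw [dist_self]; have := H.hr; positivity)

omit [FiniteDimensional ℝ E] [MeasurableSpace E] [BorelSpace E] in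
lemma osc (H : CellHyp r t Cw ρ χ p) {x y : E} (hx : dist x p ≤ 4 * r) (hy : dist y p ≤ 4 * r)
    : |ρ x - ρ y| ≤ dist x y / r / 256 * ρ y := by
  have hr := H.hr
  have hrt := H.hrt
  have h1 : dist x y ≤ 4 * t := by
    have := dist_triangle_right x y p
    linarith
  refine (H.ll x (H.mem hx) y (H.mem hy) h1).trans ?_
  refine mul_le_mul_of_nonneg_right ?_ (H.ρ0 y)
  have h2 : dist x y / t ≤ dist x y / (32 * r) :=
    div_le_div_of_nonneg_left dist_nonneg (by positivity) hrt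
  have h3 : dist x y / (32 * r) = dist x y / r / 32 := by field_simp
  rw [h3] at h2
  linarith

omit [FiniteDimensional ℝ E] [MeasurableSpace E] [BorelSpace E] in
lemma near (H : CellHyp r t Cw ρ χ p) {x : E} (hx : dist x p ≤ 4 * r) :
    |ρ x - ρ p| ≤ 1 / 64 * ρ p := by
  have hr := H.hr
  refine (H.osc hx (by rw [dist_self]; positivity)).trans ?_
  refine mul_le_mul_of_nonneg_right ?_ (H.ρ0 p)
  have : dist x p / r ≤ 4 := by rw [div_le_iff₀ hr]; linarith
  linarith

omit [FiniteDimensional ℝ E] [MeasurableSpace E] [BorelSpace E] in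
lemma upper (H : CellHyp r t Cw ρ χ p) {x : E} (hx : dist x p ≤ 4 * r) :
    ρ x ≤ 65 / 64 * ρ p := by
  have := (abs_le.1 (H.near hx)).2
  linarith

omit [FiniteDimensional ℝ E] [MeasurableSpace E] [BorelSpace E] in
lemma lower (H : CellHyp r t Cw ρ χ p) {x : E} (hx : dist x p ≤ 4 * r) :
    63 / 64 * ρ p ≤ ρ x := by
  have := (abs_le.1 (H.near hx)).1
  linarith

omit [FiniteDimensional ℝ E] [MeasurableSpace E] [BorelSpace E] in
lemma prod_le (H : CellHyp r t Cw ρ χ p) (x : E) : |ρ x * χ x| ≤ 65 / 64 * ρ p := by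
  have hp0 := H.ρ0 p
  rw [abs_of_nonneg (mul_nonneg (H.ρ0 x) (H.χm x).1)]
  by_cases hx : r ≤ dist x p
  · rw [H.χs x hx, mul_zero]
    positivity
  · have h1 := H.upper (x := x) (by have := H.hr; linarith [not_le.1 hx])
    calc ρ x * χ x ≤ ρ x * 1 := mul_le_mul_of_nonneg_left (H.χm x).2 (H.ρ0 x)
      _ ≤ _ := by linarith

omit [FiniteDimensional ℝ E] [MeasurableSpace E] [BorelSpace E] in
lemma lip (H : CellHyp r t Cw ρ χ p) (x y : E) :
    |ρ x * χ x - ρ y * χ y| ≤ 4 * Cw * ρ p * (r⁻¹ * dist x y) := by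
  have hr := H.hr
  have hp0 := H.ρ0 p
  have hCw := H.hCw
  have key : ∀ x y : E, dist x p < r →
      |ρ x * χ x - ρ y * χ y| ≤ 4 * Cw * ρ p * (r⁻¹ * dist x y) := by
    intro x y hx
    have h0 : 0 ≤ r⁻¹ * dist x y := by positivity
    have h1 := H.upper (x := x) (by linarith)
    have h2 : ρ x * |χ x - χ y| ≤ 65 / 64 * ρ p * (Cw * (r⁻¹ * dist x y)) := by
      have h3 := H.χl x y
      have h4 : Cw / r * dist x y = Cw * (r⁻¹ * dist x y) := by rw [div_eq_mul_inv]; ring
      rw [h4] at h3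
      exact mul_le_mul h1 h3 (abs_nonneg _) (by positivity)
    by_cases hy : r ≤ dist y p
    · rw [H.χs y hy, sub_zero] at h2
      rw [H.χs y hy, mul_zero, sub_zero, abs_mul, abs_of_nonneg (H.ρ0 x)]
      refine h2.trans ?_
      have : 0 ≤ ρ p * (Cw * (r⁻¹ * dist x y)) := by positivity
      nlinarith
    · have hy' := not_le.1 hy
      have h5 := H.osc (x := x) (y := y) (by linarith) (by linarith)
      have h6 := H.upper (x := y) (by linarith)
      have h7 : χ y * |ρ x - ρ y| ≤ (r⁻¹ * dist x y) / 256 * (65 / 64 * ρ p) := by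
        have h8 : dist x y / r = r⁻¹ * dist x y := by rw [div_eq_mul_inv]; ring
        rw [h8] at h5
        calc χ y * |ρ x - ρ y| ≤ 1 * |ρ x - ρ y| :=
              mul_le_mul_of_nonneg_right (H.χm y).2 (abs_nonneg _)
          _ ≤ (r⁻¹ * dist x y) / 256 * ρ y := by rw [one_mul]; exact h5
          _ ≤ _ := mul_le_mul_of_nonneg_left h6 (by positivity)
      have h9 : ρ x * χ x - ρ y * χ y = ρ x * (χ x - χ y) + χ y * (ρ x - ρ y) := by ring
      rw [h9]
      refine (abs_add_le _ _).trans ?_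
      rw [abs_mul, abs_mul, abs_of_nonneg (H.ρ0 x), abs_of_nonneg (H.χm y).1]
      have h10 : 0 ≤ ρ p * (r⁻¹ * dist x y) := by positivity
      have h11 : ρ p * (r⁻¹ * dist x y) ≤ ρ p * (Cw * (r⁻¹ * dist x y)) := by
        nlinarith
      nlinarith
  by_cases hx : dist x p < r
  · exact key x y hx
  · by_cases hy : dist y p < r
    · have := key y x hy
      rw [abs_sub_comm, dist_comm y x] at this
      exact this
    · rw [H.χs x (not_lt.1 hx), H.χs y (not_lt.1 hy)]
      simp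
      positivity

/-- the rescaled cell function is a test function of the bottom scale -/
lemma baseTest (H : CellHyp r t Cw ρ χ p) (hρ : 0 < ρ p) (T : Submodule ℝ E) :
    BaseTest T p r (fun x => (4 * Cw * ρ p)⁻¹ * (ρ x * χ x)) := by
  have hCw := H.hCw
  have hr := H.hr
  have h0 : 0 < 4 * Cw * ρ p := by positivity
  refine ⟨fun x => ?_, fun x => ?_, fun x hx => ?_, fun x y => ?_⟩
  · exact mul_nonneg (inv_nonneg.2 h0.le) (mul_nonneg (H.ρ0 x) (H.χm x).1)
  · rw [inv_mul_le_iff₀ h0]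
    have := (le_abs_self _).trans (H.prod_le x)
    nlinarith
  · rw [H.χs x (by rw [dist_eq_norm]; exact hx)]
    simp
  · rw [← mul_sub, abs_mul, abs_of_pos (inv_pos.2 h0), inv_mul_le_iff₀ h0, ← dist_eq_norm]
    exact H.lip x y

/-- a cell of type (S) -/
lemma cellS (H : CellHyp r t Cw ρ χ p) (hρ1 : ρ p ≤ 1) {a : ℝ} (ha : 0 ≤ a)
    (hS : ∀ f : E → ℝ, BaseTest T p r f → Ffl 2 Q T ν P f ≤ a) :
    Ffl 2 Q T ν P (fun x => ρ x * χ x) ≤ 4 * Cw * a := by
  have hCw := H.hCw
  rcases (H.ρ0 p).eq_or_lt with h0 | h0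
  · have h1 : (fun x => ρ x * χ x) = fun _ => 0 := by
      funext x
      have := H.prod_le x
      rw [← h0, mul_zero] at this
      exact abs_nonpos_iff.1 this
    rw [h1, Ffl_zero]
    positivity
  · have h1 := hS _ (H.baseTest h0 T)
    rw [Ffl_smul, inv_mul_le_iff₀ (by positivity)] at h1
    refine h1.trans ?_
    have : ρ p * a ≤ a := by nlinarith
    nlinarith

/-- a cell of type (U) -/
lemma cellU (H : CellHyp r t Cw ρ χ p) {G : Set E} {h' : ℝ} (hC : FV.CylStat 2 T G h' ν P)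
    {N : E → ℝ} (hNm : Measurable N)
    (hN1 : ∀ x, |N x| ≤ 1) {Kb a : ℝ} (hKb : 0 < Kb) (ha : 0 ≤ a)
    (hU : ∀ x ∈ T, dist x p ≤ 4 * r → Kb * ρ x ≤ N x)
    (hF : Ffl 2 Q T ν P (fun x => ρ x * χ x) ≤ a * (65 / 64 * ρ p) * exc T ν P p (4 * r)) :
    Ffl 2 Q T ν P (fun x => ρ x * χ x) ≤
      2 * a / Kb * ∫ y in cylSet T p (4 * r), N (T.starProjection y) * FV.tilt T (P y) ∂ν := by
  refine hF.trans ?_
  have h1 : 63 / 64 * Kb * ρ p * exc T ν P p (4 * r)
      ≤ ∫ y in cylSet T p (4 * r), N (T.starProjection y) * FV.tilt T (P y) ∂ν := by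
    unfold exc
    rw [← integral_const_mul]
    refine setIntegral_mono_on_ae ((integrable_tilt' hC).integrableOn.const_mul _)
      (Tst.int_tilt hC hNm hN1).integrableOn
      (measurableSet_cylSet T p (4 * r)) ?_
    filter_upwards [tilt_nonneg_ae hC] with y hy hyp
    refine mul_le_mul_of_nonneg_right ?_ hy
    have h2 : dist (T.starProjection y) p ≤ 4 * r := (mem_ball.1 hyp).le
    have h3 := hU _ (Submodule.starProjection_apply_mem T y) h2
    have h4 := H.lower h2
    nlinarith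
  have h2 : a * (65 / 64 * ρ p) * exc T ν P p (4 * r)
      = 65 / 63 * (a / Kb) * (63 / 64 * Kb * ρ p * exc T ν P p (4 * r)) := by
    field_simp
  rw [h2]
  have h3 : 0 ≤ 63 / 64 * Kb * ρ p * exc T ν P p (4 * r) := by
    have := H.ρ0 p
    have := exc_nonneg hC p (4 * r)
    positivity
  have h4 : 0 ≤ a / Kb := by positivity
  calc 65 / 63 * (a / Kb) * (63 / 64 * Kb * ρ p * exc T ν P p (4 * r))
      ≤ 2 * (a / Kb) * (63 / 64 * Kb * ρ p * exc T ν P p (4 * r)) := by
        refine mul_le_mul_of_nonneg_right ?_ h3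
        linarith
    _ ≤ 2 * (a / Kb) * _ := mul_le_mul_of_nonneg_left h1 (by positivity)
    _ = _ := by ring

end CellHyp

end Vale.Agent.P214.R2
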