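import Vale.Agent.P214.R2.U
import Vale.Agent.P214.R2.Split
import Vale.Agent.P214.R2.WinSk
import Vale.Agent.P214.B4.SplitInt

/-!
# P214, block R2-S: the box (S) for the splitting predicate `SpD`
-/

open Set Filter Topology MeasureTheory Metric
open scoped RealInnerProductSpace ENNReal

set_option linter.all false

namespace Vale.Agent.P214.R2

open Vale.Agent.P214.Skel

variable {E : Type*} [NormedAddCommGroup E] [InnerProductSpace ℝ E] [FiniteDimensional ℝ E]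
  [MeasurableSpace E] [BorelSpace E]

/-- common constants for finitely many numbers of sheets -/
lemma exists_common_delta {p : ℕ → ℝ → Prop} (hmono : ∀ q δ δ', 0 < δ → δ ≤ δ' → p q δ' → p q δ)
    (h : ∀ q, ∃ δ : ℝ, 0 < δ ∧ p q δ) (Q : ℕ) : ∃ δ : ℝ, 0 < δ ∧ ∀ q ≤ Q, p q δ := by
  induction Q with
  | zero =>
    obtain ⟨δ, hδ, H⟩ := h 0
    exact ⟨δ, hδ, fun q hq => by rw [Nat.le_zero.1 hq]; exact H⟩
  | succ Q ih =>
    obtain ⟨δ, hδ, H⟩ := ih
    obtain ⟨δ', hδ', H'⟩ := h (Q + 1)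
    refine ⟨min δ δ', lt_min hδ hδ', fun q hq => ?_⟩
    rcases Nat.lt_succ_iff_lt_or_eq.1 (Nat.lt_succ_of_le hq) with h1 | h1
    · exact hmono q _ _ (lt_min hδ hδ') (min_le_left _ _) (H q (Nat.lt_succ_iff.1 h1))
    · subst h1
      exact hmono _ _ _ (lt_min hδ hδ') (min_le_right _ _) H'

/-- the excess of a ball at a scale above the bottom scale -/
lemma exc_le_lam {Q : ℕ} {ε e K : ℝ} {T : Submodule ℝ E} {h : ℝ} {ν : Measure E}
    {P : E → E →L[ℝ] E} (hc : Conf0 Q ε e T h ν P) {δ : ℝ}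
    (hb : Real.exp (-lam K e) ≤ δ) {x : E} {s : ℝ} (hs : rb K e ≤ s) (hxs : s + ‖x‖ ≤ 2) :
    exc T ν P x s ≤ δ * s ^ 2 := by
  have hδ : 0 < δ := (Real.exp_pos _).trans_le hb
  have hr := rb_pos (K := K) hc.pos
  calc exc T ν P x s ≤ exc T ν P 0 2 := exc_mono hc.ic.cyl (by rw [dist_zero_right]; exact hxs)
    _ ≤ e := hc.exc_le
    _ = Real.exp (-lam K e) * rb K e ^ 2 := (exp_neg_mul_rb_sq hc.pos).symm
    _ ≤ δ * s ^ 2 := by gcongr

/-- **D2 for the splitting predicate of the cells** -/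
theorem splitInt_SpD {cD : ℝ} (hcD : 0 < cD) (Q : ℕ) : SplitInt E (SpD cD) Q := by
  intro K δ hK hδ
  have hK0 : 0 < K := by linarith
  -- from `8 r` down to `2 r`, for all numbers of sheets
  obtain ⟨δ₁, hδ₁, H₁⟩ := exists_common_delta
    (p := fun q δ₁ => ∀ (T : Submodule ℝ E) (x : E) (t h : ℝ) (ν : Measure E)
      (P : E → E →L[ℝ] E), Skel.IntCyl 2 q T x t h δ₁ ν P → Skel.exc T ν P x t ≤ δ₁ * t ^ 2 →
      ∀ x' ∈ T, ∀ s, 1 / 4 * t ≤ s → ‖x' - x‖ + s ≤ t → Skel.IntCyl 2 q T x' s h δ ν P)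
    (fun q a b ha hab H T x t h ν P hI hexc => H T x t h ν P (intCyl_mono_delta hI hab)
      (hexc.trans (by have := hI.pos; gcongr)))
    (fun q => B4.intCyl_sub (E := E) (m := 2) (by norm_num) q hδ (by norm_num)) Q
  obtain ⟨δ₂, hδ₂, H₂⟩ := B4.split_int (E := E) (m := 2) (by norm_num) Q hδ₁ hcD
  obtain ⟨δ₃, hδ₃, H₃⟩ := intCyl_down E 2 Q (by norm_num) hδ₂
  set δ₀ : ℝ := min (min (1 / 2) (δ₁ / 64)) (min δ₂ δ₃) with hδ₀
  have hδ₀0 : 0 < δ₀ := by positivity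
  obtain ⟨ε₁, hε₁, hε₁1, H₄⟩ := eventually_rb_le (K := K) (c := 1 / 1024) hK (by norm_num)
  obtain ⟨ε₂, hε₂, hε₂1, H₅⟩ := exists_eps_of_eventually
    (eventually_lam_ge (K := K) hK0 (Real.log δ₀⁻¹))
  refine ⟨min δ₀ (min ε₁ ε₂), by positivity, ?_⟩
  intro e T h ν P hc x hx hx1 hsp
  have hle : e ≤ δ₀ := hc.le.trans (min_le_left _ _)
  have hle1 : e ≤ ε₁ := hc.le.trans ((min_le_right _ _).trans (min_le_left _ _))
  have hle2 : e ≤ ε₂ := hc.le.trans ((min_le_right _ _).trans (min_le_right _ _))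
  have hr := rb_pos (K := K) hc.pos
  have hrs := H₄ _ hc.pos hle1
  have hlam := H₅ _ hc.pos hle2
  rw [← lam_eq, Real.log_inv] at hlam
  have hb : Real.exp (-lam K e) ≤ δ₀ := by
    rw [← Real.le_log_iff_exp_le hδ₀0]; linarith
  have d1 : δ₀ ≤ δ₁ / 64 := (min_le_left _ _).trans (min_le_right _ _)
  have d2 : δ₀ ≤ δ₂ := (min_le_right _ _).trans (min_le_left _ _)
  have d3 : δ₀ ≤ δ₃ := (min_le_right _ _).trans (min_le_right _ _)
  have hI : IntCyl 2 Q T 0 2 h δ₃ ν P := intCyl_mono_delta hc.ic ((min_le_left _ _).trans d3)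
  have hexc := exc_nonneg hc.ic.cyl (0 : E) 2
  set r : ℝ := rb K e with hrdef
  have hI64 : IntCyl 2 Q T x (64 * r) h δ₂ ν P := by
    refine H₃ T 0 2 h ν P hI ?_ x hx (by rw [sub_zero]; linarith) (64 * r) (by positivity)
      (by linarith) fun s' h1 h2 => ?_
    · have := hc.exc_le
      linarith
    · exact exc_le_lam hc (hb.trans d3) (by rw [← hrdef]; linarith) (by linarith)
  have he64 : exc T ν P x (64 * r) ≤ δ₂ * (64 * r) ^ 2 :=
    exc_le_lam hc (hb.trans d2) (by rw [← hrdef]; linarith) (by linarith)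
  obtain ⟨b, ρ, Q₁, Q₂, hQ₁, hQ₂, hQ, hpc⟩ := H₂ T x (64 * r) h ν P hI64 he64 hsp
  obtain ⟨p1, p2⟩ := hpc x hx (8 * r) (by linarith) (by rw [sub_self, norm_zero]; linarith)
  have hm := B4.measurableSet_lo T b ρ
  have hadd := exc_restrict_add hc.ic.cyl hm x (8 * r)
  have n1 := exc_nonneg p1.cyl x (8 * r)
  have n2 := exc_nonneg p2.cyl x (8 * r)
  have he8 : exc T ν P x (8 * r) ≤ δ₁ * (8 * r) ^ 2 := by
    have h1 : exc T ν P x (8 * r) ≤ δ₀ * (8 * r) ^ 2 :=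
      exc_le_lam hc hb (by rw [← hrdef]; linarith) (by linarith)
    refine h1.trans ?_
    have : δ₀ ≤ δ₁ := by linarith
    gcongr
  refine ⟨B4.lo T b ρ, Q₁, Q₂, hm, hQ₁, hQ₂, hQ, ?_, ?_⟩
  · exact H₁ Q₁ (by omega) T x (8 * r) h _ P p1 (by linarith) x hx (2 * r) (by linarith)
      (by rw [sub_self, norm_zero]; linarith)
  · exact H₁ Q₂ (by omega) T x (8 * r) h _ P p2 (by linarith) x hx (2 * r) (by linarith)
      (by rw [sub_self, norm_zero]; linarith)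

/-- **(BB-S)** for the splitting predicate of the cells -/
theorem boxSD {cD : ℝ} (hcD : 0 < cD) {Q : ℕ}
    (hind : ∀ Q', 1 ≤ Q' → Q' < Q → RateFlat E 2 Q') : BoxS (E := E) (SpD cD) Q :=
  boxS_of hind (splitInt_SpD hcD Q)

end Vale.Agent.P214.R2
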