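import Vale.Agent.P214.R2.Exh

/-!
# P214, block R2: the sum over the compensated cells
-/

open Set Filter Topology MeasureTheory Metric
open scoped RealInnerProductSpace ENNReal

set_option linter.all false

namespace Vale.Agent.P214.R2

open Vale.Agent.P214.Skel Vale.Agent.P214.EX

variable {E : Type*} [NormedAddCommGroup E] [InnerProductSpace ℝ E] [FiniteDimensional ℝ E]
  [MeasurableSpace E] [BorelSpace E]
variable {m Q : ℕ} {T : Submodule ℝ E} {G : Set E} {h : ℝ} {ν : Measure E} {P : E → E →L[ℝ] E}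
  {k k' K : ℝ → ℝ}

omit [FiniteDimensional ℝ E] [MeasurableSpace E] [BorelSpace E] in
/-- values of a log-Lipschitz function at two points of a ball of radius `4τ` -/
lemma LogLip.le_mul {Ω : Set E} {τ : ℝ} {ρ : E → ℝ} (hl : LogLip Ω τ ρ) (hτ : 0 < τ)
    (h0 : ∀ x, 0 ≤ ρ x) {x y : E} (hx : x ∈ Ω) (hy : y ∈ Ω) (hxy : dist x y ≤ 4 * τ) :
    ρ x ≤ 3 / 2 * ρ y := by
  have h1 := hl x hx y hy hxy
  have h2 : dist x y / τ ≤ 4 := by rwa [div_le_iff₀ hτ]
  have h3 : 1 / 8 * (dist x y / τ) * ρ y ≤ 1 / 2 * ρ y := by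
    refine mul_le_mul_of_nonneg_right ?_ (h0 y)
    linarith
  have h4 := le_abs_self (ρ x - ρ y)
  linarith

/-- **One cell**: `M · exc x s ≤ C ∫_{cyl x s} Neg tilt` if `M ≤ C' ρ` and `Kb ρ ≤ Neg` over the
ball. -/
lemma cell_le (hC : FV.CylStat m T G h ν P) {Neg : E → ℝ} (hNc : Continuous Neg)
    (hN0 : ∀ x, 0 ≤ Neg x) (hN1 : ∀ x, Neg x ≤ 1) {x : E} {s Mx A : ℝ}
    (hM : ∀ y ∈ T, y ∈ ball x s → Mx ≤ A * Neg y) :
    Mx * exc T ν P x s ≤
      A * ∫ y in cylSet T x s, Neg (T.starProjection y) * FV.tilt T (P y) ∂ν := by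
  haveI := hC.fin
  unfold exc
  rw [← integral_const_mul, ← integral_const_mul]
  have hi2 : Integrable (fun y => Neg (T.starProjection y) * FV.tilt T (P y)) ν := by
    refine (integrable_tilt' hC).bdd_mul (c := 1)
      (hNc.comp T.starProjection.continuous).aestronglyMeasurable ?_
    exact Eventually.of_forall fun y => by
      rw [Real.norm_eq_abs, abs_of_nonneg (hN0 _)]; exact hN1 _
  refine integral_mono_ae ((integrable_tilt' hC).integrableOn.const_mul _)
    (hi2.integrableOn.const_mul _) ?_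
  filter_upwards [ae_restrict_of_ae (tilt_nonneg_ae hC),
    ae_restrict_mem (measurableSet_cylSet T x s)] with y hy hmem
  have h1 := hM (T.starProjection y) (T.starProjection_apply_mem y) hmem
  calc Mx * FV.tilt T (P y) ≤ (A * Neg (T.starProjection y)) * FV.tilt T (P y) :=
        mul_le_mul_of_nonneg_right h1 hy
    _ = A * (Neg (T.starProjection y) * FV.tilt T (P y)) := by ring

/-- finite overlap -/
lemma sum_cyl_le (hC : FV.CylStat m T G h ν P) {f : E → ℝ} (hf : Integrable f ν)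
    (hf0 : ∀ᵐ y ∂ν, 0 ≤ f y) (I : Finset E) {s : ℝ} {Nov : ℕ}
    (hov : ∀ y ∈ T, ((I.filter fun x => dist y x < s).card) ≤ Nov) :
    ∑ x ∈ I, ∫ y in cylSet T x s, f y ∂ν ≤ Nov * ∫ y, f y ∂ν := by
  classical
  have h1 : ∀ x ∈ I, ∫ y in cylSet T x s, f y ∂ν
      = ∫ y, (cylSet T x s).indicator f y ∂ν := fun x _ =>
    (integral_indicator (measurableSet_cylSet T x s)).symm
  rw [Finset.sum_congr rfl h1, ← integral_finsetSum _
    (fun x _ => hf.indicator (measurableSet_cylSet T x s)), ← integral_const_mul]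
  refine integral_mono_ae (integrable_finset_sum _
    (fun x _ => hf.indicator (measurableSet_cylSet T x s))) (hf.const_mul _) ?_
  filter_upwards [hf0] with y hy
  have h2 : ∀ x ∈ I, (cylSet T x s).indicator f y
      = if dist (T.starProjection y) x < s then f y else 0 := by
    intro x _
    by_cases hx : dist (T.starProjection y) x < s
    · rw [if_pos hx, indicator_of_mem]
      exact hx
    · rw [if_neg hx, indicator_of_notMem]
      exact hx
  show ∑ x ∈ I, (cylSet T x s).indicator f y ≤ Nov * f y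
  rw [Finset.sum_congr rfl h2, ← Finset.sum_filter, Finset.sum_const, nsmul_eq_mul]
  refine mul_le_mul_of_nonneg_right ?_ hy
  exact_mod_cast hov _ (T.starProjection_apply_mem y)

/-- **The sum over the compensated cells.**  `I`: centres; over the balls `ball x s` the
alternative `Kb ρ ≤ Neg` holds; `M x` is at most the value of `ρ` at a point of
`closedBall x r`. -/
theorem sum_U_le (hC : FV.CylStat m T G h ν P) {ρ Neg : E → ℝ} (hρ0 : ∀ x, 0 ≤ ρ x)
    (hNc : Continuous Neg) (hN0 : ∀ x, 0 ≤ Neg x) (hN1 : ∀ x, Neg x ≤ 1) {τ : ℝ} (hτ : 0 < τ)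
    (hl : LogLip (closedBall (0 : E) (5 / 4)) τ ρ) {Kb : ℝ} (hKb : 0 < Kb) (I : Finset E)
    {r s : ℝ} (hrs : r + s ≤ 4 * τ) (hIr : ∀ x ∈ I, closedBall x r ⊆ closedBall (0 : E) (5 / 4))
    (hIs : ∀ x ∈ I, ball x s ⊆ closedBall (0 : E) (5 / 4)) {Nov : ℕ}
    (hov : ∀ y ∈ T, ((I.filter fun x => dist y x < s).card) ≤ Nov) (M : E → ℝ)
    (hM : ∀ x ∈ I, ∃ y ∈ closedBall x r, M x ≤ ρ y)
    (hU : ∀ x ∈ I, ∀ y ∈ T, y ∈ ball x s → Kb * ρ y ≤ Neg y) :
    ∑ x ∈ I, M x * exc T ν P x s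
      ≤ 3 / 2 * Nov / Kb * ∫ y, Neg (T.starProjection y) * FV.tilt T (P y) ∂ν := by
  classical
  haveI := hC.fin
  have hi : Integrable (fun y => Neg (T.starProjection y) * FV.tilt T (P y)) ν := by
    refine (integrable_tilt' hC).bdd_mul (c := 1)
      (hNc.comp T.starProjection.continuous).aestronglyMeasurable ?_
    exact Eventually.of_forall fun y => by
      rw [Real.norm_eq_abs, abs_of_nonneg (hN0 _)]; exact hN1 _
  have hi0 : ∀ᵐ y ∂ν, 0 ≤ Neg (T.starProjection y) * FV.tilt T (P y) := by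
    filter_upwards [tilt_nonneg_ae hC] with y hy
    exact mul_nonneg (hN0 _) hy
  have h1 : ∀ x ∈ I, M x * exc T ν P x s ≤
      3 / 2 / Kb * ∫ y in cylSet T x s, Neg (T.starProjection y) * FV.tilt T (P y) ∂ν := by
    intro x hx
    refine cell_le hC hNc hN0 hN1 fun y hyT hy => ?_
    obtain ⟨y', hy', hMy'⟩ := hM x hx
    have h2 : ρ y' ≤ 3 / 2 * ρ y := by
      refine LogLip.le_mul hl hτ hρ0 (hIr x hx hy') (hIs x hx hy) ?_
      have h3 : dist y' x ≤ r := hy'
      have h4 : dist y x < s := hy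
      linarith [dist_triangle y' x y, dist_comm x y]
    have h5 := hU x hx y hyT hy
    have h6 : ρ y ≤ Neg y / Kb := by
      rw [le_div_iff₀ hKb]
      linarith
    calc M x ≤ 3 / 2 * (Neg y / Kb) := by linarith
      _ = 3 / 2 / Kb * Neg y := by ring
  calc ∑ x ∈ I, M x * exc T ν P x s
      ≤ ∑ x ∈ I, 3 / 2 / Kb *
          ∫ y in cylSet T x s, Neg (T.starProjection y) * FV.tilt T (P y) ∂ν :=
        Finset.sum_le_sum h1
    _ = 3 / 2 / Kb * ∑ x ∈ I,
          ∫ y in cylSet T x s, Neg (T.starProjection y) * FV.tilt T (P y) ∂ν := by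
        rw [Finset.mul_sum]
    _ ≤ 3 / 2 / Kb * (Nov * ∫ y, Neg (T.starProjection y) * FV.tilt T (P y) ∂ν) := by
        refine mul_le_mul_of_nonneg_left (sum_cyl_le hC hi hi0 I hov) ?_
        positivity
    _ = _ := by ring

end Vale.Agent.P214.R2
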