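import Vale.Agent.P214.R2.Split
import Vale.Agent.P214.B4.DichInt
import Vale.Agent.P214.SCALE.Int

/-!
# P214, block R2-TOP (m = 2): localisation and the dichotomy at the top scale

The rate inequality for cylinders in which all heights are within `(C_H e log 1/e)^{1/2}` of one
height (`e` an upper bound of the excess) implies `RateFlat E 2 Q`, given the rate lemma for fewer
sheets.
-/

open Set Filter Topology MeasureTheory Metric Module
open scoped RealInnerProductSpace ENNReal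

set_option linter.all false

namespace Vale.Agent.P214.R2

open Vale.Agent.P214.Skel Vale.Agent.P214.SCALE

variable {E : Type*} [NormedAddCommGroup E] [InnerProductSpace ℝ E] [FiniteDimensional ℝ E]
  [MeasurableSpace E] [BorelSpace E]
variable {m Q : ℕ} {T : Submodule ℝ E} {G : Set E} {h : ℝ} {ν : Measure E} {P : E → E →L[ℝ] E}

/-- the fluctuation depends only on the values on the plane -/
lemma ffl_congr {f g : E → ℝ} (h : ∀ x ∈ T, f x = g x) : Ffl m Q T ν P f = Ffl m Q T ν P g := by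
  unfold Ffl
  have h1 : ∀ y, f (T.starProjection y) = g (T.starProjection y) := fun y =>
    h _ (T.starProjection_apply_mem y)
  simp only [h1]
  rw [setIntegral_congr_fun (Submodule.closed_of_finiteDimensional T).measurableSet
    (fun x hx => h x hx)]

/-- the rate inequality at unit scale, with a free upper bound `e` of the excess, for cylinders in
which all heights are within `(C_H e log 1/e)^{1/2}` of one height -/
def RateH (E : Type*) [NormedAddCommGroup E] [InnerProductSpace ℝ E] [FiniteDimensional ℝ E]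
    [MeasurableSpace E] [BorelSpace E] (Q : ℕ) (CH A C ε : ℝ) : Prop :=
  ∀ (e : ℝ) (T : Submodule ℝ E) (h : ℝ) (ν : Measure E) (P : E → E →L[ℝ] E) (φ : E → ℝ),
    IntCyl 2 Q T 0 2 h ε ν P → 0 < e → e ≤ ε → exc T ν P 0 2 ≤ e →
    (∃ b ∈ Tᗮ, ∀ᵐ y ∂ν, y ∈ cylSet T 0 2 → ‖FV.co T y - b‖ ^ 2 ≤ CH * Real.log e⁻¹ * e) →
    BaseTest T 0 1 φ → Ffl 2 Q T ν P φ ≤ C * (Real.log e⁻¹) ^ (-A) * e

/-- numerics: all the smallness conditions on `e` -/
lemma exists_eps_top (A₁ c₁ c₂ : ℝ) (hc₁ : 0 < c₁) (hc₂ : 0 < c₂) : ∃ ε : ℝ, 0 < ε ∧ ε < 1 ∧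
    ∀ e : ℝ, 0 < e → e ≤ ε → 1 ≤ Real.log e⁻¹ ∧ A₁ * Real.log e⁻¹ * e ≤ c₁ ∧ e ≤ c₂ ∧
      Real.log e⁻¹ / 2 ≤ Real.log (1600 * e)⁻¹ := by
  have h1 : ∀ᶠ L : ℝ in atTop, A₁ * L * Real.exp (-L) ≤ c₁ := by
    have h2 : Tendsto (fun L : ℝ => A₁ * (L * Real.exp (-L))) atTop (𝓝 (A₁ * 0)) := by
      have := Real.tendsto_pow_mul_exp_neg_atTop_nhds_zero 1
      simp only [pow_one] at this
      exact this.const_mul A₁
    rw [mul_zero] at h2
    filter_upwards [h2.eventually (ge_mem_nhds hc₁)] with L hL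
    rw [mul_assoc]; exact hL
  have h3 : ∀ᶠ L : ℝ in atTop, Real.exp (-L) ≤ c₂ :=
    Real.tendsto_exp_neg_atTop_nhds_zero.eventually (ge_mem_nhds hc₂)
  obtain ⟨ε, hε, hε1, H⟩ := exists_eps_of_eventually ((h1.and h3).and
    ((eventually_ge_atTop 1).and (eventually_ge_atTop (2 * Real.log 1600))))
  refine ⟨ε, hε, hε1, fun e he heε => ?_⟩
  obtain ⟨⟨k1, k2⟩, k3, k4⟩ := H e he heε
  have e1 : Real.exp (-Real.log e⁻¹) = e := by
    rw [Real.log_inv, neg_neg, Real.exp_log he]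
  rw [e1] at k1 k2
  refine ⟨k3, k1, k2, ?_⟩
  have e2 : Real.log (1600 * e)⁻¹ = Real.log e⁻¹ - Real.log 1600 := by
    rw [Real.log_inv, Real.log_inv, Real.log_mul (by norm_num) he.ne']; ring
  rw [e2]; linarith

lemma rpow_half_le {L L' A : ℝ} (hA : 0 < A) (hL : 0 < L) (h : L / 2 ≤ L') :
    L' ^ (-A) ≤ 2 ^ A * L ^ (-A) := by
  refine (Real.rpow_le_rpow_of_nonpos (by positivity) h (by linarith)).trans (le_of_eq ?_)
  rw [div_eq_mul_inv, Real.mul_rpow hL.le (by norm_num), Real.inv_rpow (by norm_num),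
    Real.rpow_neg (by norm_num : (0:ℝ) ≤ 2), inv_inv, mul_comm]

/-- the case of small heights, at a small ball -/
lemma cell_flat {CH A C ε : ℝ} (hA : 0 < A) (hCH : 0 < CH) (hC : 0 < C)
    (H : RateH E Q (2 * CH) A C ε) {e : ℝ} {p : E} {ψ : E → ℝ}
    (hI : IntCyl 2 Q T p (1 / 20) h ε ν P) (he : 0 < e) (heε : 1600 * e ≤ ε)
    (hL1 : 1 ≤ Real.log e⁻¹) (hL : Real.log e⁻¹ / 2 ≤ Real.log (1600 * e)⁻¹)
    (hexc : exc T ν P p (1 / 20) ≤ e)
    (hh : ∃ b ∈ Tᗮ, ∀ᵐ y ∂ν, y ∈ cylSet T p (1 / 20) →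
      ‖FV.co T y - b‖ ^ 2 ≤ CH * Real.log e⁻¹ * e)
    (hψ : BaseTest T p (1 / 40) ψ) :
    Ffl 2 Q T ν P ψ ≤ 2 ^ A * C * (Real.log e⁻¹) ^ (-A) * e := by
  set l : ℝ := 40 with hl_def
  have hl : 0 < l := by norm_num
  set a : E := -(l • p) with ha_def
  have hp := hI.mem
  have ha : a ∈ T := T.neg_mem (T.smul_mem _ hp)
  have hpa : T.starProjection a = a := Submodule.starProjection_eq_self_iff.2 ha
  have hz0 : dil a l p = 0 := by simp [dil, ha_def]
  have h2 : l * (1 / 20) = 2 := by norm_num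
  have hI' := intCyl_dil_mem hl ha hI
  rw [hz0, h2] at hI'
  have hexc' := exc_dil T 2 a hl ν P p (1 / 20)
  rw [hpa, hz0, h2] at hexc'
  set φ : E → ℝ := ψ ∘ dilInv a l with hφ
  have hφψ : φ ∘ dil a l = ψ := by
    ext y; simp [hφ, dilInv_dil a hl]
  have hinv : dilInv a l = dil (-(l⁻¹ • a)) l⁻¹ := funext fun y => dilInv_eq_dil a y
  have hli : 0 < l⁻¹ := inv_pos.2 hl
  have hφ' : BaseTest T 0 1 φ := by
    have h3 : dil (-(l⁻¹ • a)) l⁻¹ (0 : E) = p := by
      rw [← dilInv_eq_dil, ← hz0, dilInv_dil a hl]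
    have h4 : l⁻¹ * 1 = 1 / 40 := by norm_num
    rw [hφ, hinv]
    refine baseTest_dil hli ?_
    rw [h3, h4]
    exact hψ
  have hF := ffl_dil T 2 Q a hl ν P φ
  rw [hpa, hφψ] at hF
  obtain ⟨b, hb, hbh⟩ := hh
  have key := H (1600 * e) T (l * h) (dilM 2 a l ν) (dilP a l P) φ hI' (by positivity) heε
    (by rw [hexc', hl_def]; nlinarith) ⟨l • b, Tᗮ.smul_mem _ hb, ?_⟩ hφ'
  · rw [hF] at key
    have e1 : l ^ 2 * Ffl 2 Q T ν P ψ ≤ l ^ 2 * (C * (Real.log (1600 * e)⁻¹) ^ (-A) * e) := by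
      refine key.trans (le_of_eq ?_)
      rw [hl_def]; ring
    have e2 := le_of_mul_le_mul_left e1 (by positivity)
    refine e2.trans ?_
    have e3 := rpow_half_le (A := A) hA (by linarith) hL
    calc C * Real.log (1600 * e)⁻¹ ^ (-A) * e
        ≤ C * (2 ^ A * Real.log e⁻¹ ^ (-A)) * e := by gcongr
      _ = _ := by ring
  · rw [ae_dilM 2 hl]
    filter_upwards [hbh] with y hy hmem
    have hmem' : y ∈ cylSet T p (1 / 20) := by
      have := preimage_dil_cylSet T a hl p (1 / 20)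
      rw [hpa, hz0, h2] at this
      rw [← this]; exact hmem
    have e1 : FV.co T (dil a l y) - l • b = l • (FV.co T y - b) := by
      have : FV.co T a = 0 := by
        rw [FV.co_apply, hpa, sub_self]
      simp [dil, this, smul_sub]
    rw [e1, norm_smul, Real.norm_eq_abs, abs_of_pos hl, mul_pow]
    calc l ^ 2 * ‖FV.co T y - b‖ ^ 2 ≤ l ^ 2 * (CH * Real.log e⁻¹ * e) := by
          gcongr; exact hy hmem'
      _ ≤ l ^ 2 * (CH * (2 * Real.log (1600 * e)⁻¹) * e) := by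
          gcongr; linarith
      _ = 2 * CH * Real.log (1600 * e)⁻¹ * (1600 * e) := by rw [hl_def]; ring

/-- **one cell at the top scale** -/
theorem cell_top (hind : ∀ Q', 1 ≤ Q' → Q' < Q → RateFlat E 2 Q') {A : ℝ} (hA : 0 < A)
    (H : ∀ CH : ℝ, 0 < CH → ∃ C ε : ℝ, 0 < C ∧ 0 < ε ∧ RateH E Q CH A C ε) :
    ∃ C ε : ℝ, 0 < C ∧ 0 < ε ∧ ε < 1 ∧ (∀ e, 0 < e → e ≤ ε → 1 ≤ Real.log e⁻¹) ∧
      ∀ (e : ℝ) (T : Submodule ℝ E) (h : ℝ) (ν : Measure E)
      (P : E → E →L[ℝ] E) (p : E) (ψ : E → ℝ), IntCyl 2 Q T 0 2 h ε ν P → 0 < e → e ≤ ε →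
      exc T ν P 0 2 ≤ e → p ∈ T → ‖p‖ < 1 → BaseTest T p (1 / 40) ψ →
      Ffl 2 Q T ν P ψ ≤ C * (Real.log e⁻¹) ^ (-A) * e := by
  obtain ⟨A₀, c, C₀, hA₀, hc, hC₀, Hdich⟩ := B4.dich_int (E := E)
    (M := ((Q : ℝ) * om 2 + 1) * 4 * 400)
  set A₁ : ℝ := max A₀ 1 with hA₁
  have hA₁0 : 0 < A₁ := lt_max_of_lt_right one_pos
  obtain ⟨CF, εF, hCF, hεF, HF⟩ := H (2 * (C₀ ^ 2 * A₁)) (by positivity)
  obtain ⟨CR, εR, hCR, hεR, hεR1, HR⟩ := rate_of_pieces (E := E) (m := 2) hind hA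
  obtain ⟨δT, hδT, HT⟩ := B4.twoPieces (E := E) (m := 2) (by norm_num) Q (δ' := εR) (c := c) hεR hc
  obtain ⟨δS, hδS, HS⟩ := B4.intCyl_sub (E := E) (m := 2) (by norm_num) Q (δ' := min δT εF)
    (ρ₀ := 1 / 40) (by positivity) (by norm_num)
  obtain ⟨ε₁, hε₁, hε₁1, Hε⟩ := exists_eps_top A₁ ((1 / 20) ^ 2)
    (min (min (εF / 1600) (εR / 1600)) (min (δT / 100) δS)) (by norm_num)
    (lt_min (lt_min (by positivity) (by positivity)) (lt_min (by positivity) hδS))
  refine ⟨max (2 ^ A * CF) (2 ^ A * CR), min ε₁ (min δS 1), lt_max_of_lt_left (by positivity),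
    lt_min hε₁ (lt_min hδS one_pos), (min_le_left _ _).trans_lt hε₁1,
    fun e he heε => (Hε e he (heε.trans (min_le_left _ _))).1, ?_⟩
  intro e T h ν P p ψ hI he heε hexc hp hp1 hψ
  obtain ⟨hL1, hLc, hec, hL2⟩ := Hε e he (heε.trans (min_le_left _ _))
  have heF : e ≤ εF / 1600 := hec.trans ((min_le_left _ _).trans (min_le_left _ _))
  have heR : e ≤ εR / 1600 := hec.trans ((min_le_left _ _).trans (min_le_right _ _))
  have heT : e ≤ δT / 100 := hec.trans ((min_le_right _ _).trans (min_le_left _ _))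
  have heS : e ≤ δS := hec.trans ((min_le_right _ _).trans (min_le_right _ _))
  have hδS' : min ε₁ (min δS 1) ≤ δS := (min_le_right _ _).trans (min_le_left _ _)
  have hδ1 : min ε₁ (min δS 1) ≤ 1 := (min_le_right _ _).trans (min_le_right _ _)
  haveI := hI.cyl.fin
  have hd : dist p 0 = ‖p‖ := dist_zero_right p
  have hexcp : ∀ s, s ≤ 1 → exc T ν P p s ≤ e := fun s hs =>
    (exc_mono hI.cyl (by rw [hd]; linarith)).trans hexc
  -- integral cylinders at the scales `1/20` and `8/20`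
  have hsub : ∀ s, 1 / 20 ≤ s → s ≤ 1 → IntCyl 2 Q T p s h (min δT εF) ν P := fun s hs hs1 =>
    HS T 0 2 h ν P (intCyl_mono_delta hI hδS') (by linarith) p hp s (by linarith)
      (by rw [sub_zero]; linarith)
  have hI1 := hsub (1 / 20) le_rfl (by norm_num)
  have hI8 := hsub (8 * (1 / 20)) (by norm_num) (by norm_num)
  -- the mass
  have hmass : ν.real (cylSet T p (9 * (1 / 20))) ≤ ((Q : ℝ) * om 2 + 1) * 4 * 400 * (1 / 20) ^ 2 := by
    have h1 : ν.real (cylSet T p (9 * (1 / 20))) ≤ ν.real (cylSet T 0 2) :=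
      measureReal_mono (cylSet_mono (by rw [hd]; linarith))
    have h2 := (abs_le.1 hI.mass).2
    nlinarith
  -- the dichotomy
  set L := Real.log e⁻¹ with hL
  set R₁ : ℝ := √(A₁ * L * e) with hR₁
  have hpos : 0 < A₁ * L * e := by positivity
  have hR₁0 : 0 < R₁ := Real.sqrt_pos.2 hpos
  have hR₁sq : R₁ ^ 2 = A₁ * L * e := Real.sq_sqrt hpos.le
  have hR₁t : R₁ ≤ 1 / 20 := by
    rw [hR₁, Real.sqrt_le_left (by norm_num)]; exact hLc
  have hlog : Real.log (1 / 20 / R₁) ≤ L := by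
    have h1 : √e ≤ R₁ := by
      refine Real.sqrt_le_sqrt ?_
      have : 1 ≤ A₁ * L := by
        have : 1 ≤ A₁ := le_max_right _ _
        nlinarith
      nlinarith
    have h2 : 0 < √e := Real.sqrt_pos.2 he
    have h3 : 1 / 20 / R₁ ≤ (√e)⁻¹ := by
      rw [div_eq_mul_inv]
      calc 1 / 20 * R₁⁻¹ ≤ 1 * (√e)⁻¹ := by gcongr; norm_num
        _ = _ := one_mul _
    have h4 := Real.log_le_log (by positivity) h3
    refine h4.trans ?_
    rw [Real.log_inv, Real.log_sqrt he.le, hL, Real.log_inv]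
    rw [hL, Real.log_inv] at hL1
    linarith
  have hbnd : ∀ C', 0 ≤ C' → C' ≤ max (2 ^ A * CF) (2 ^ A * CR) →
      C' * L ^ (-A) * e ≤ max (2 ^ A * CF) (2 ^ A * CR) * L ^ (-A) * e := by
    intro C' hC' hle
    have : 0 ≤ L ^ (-A) := Real.rpow_nonneg (by linarith) _
    gcongr
  have hkey : A₀ * L * exc T ν P p (10 * (1 / 20)) ≤ R₁ ^ 2 := by
    rw [hR₁sq]
    have h1 : exc T ν P p (10 * (1 / 20)) ≤ e := hexcp _ (by norm_num)
    have h2 : A₀ ≤ A₁ := le_max_left _ _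
    have h3 : 0 ≤ exc T ν P p (10 * (1 / 20)) := exc_nonneg hI.cyl _ _
    calc A₀ * L * exc T ν P p (10 * (1 / 20)) ≤ A₁ * L * exc T ν P p (10 * (1 / 20)) := by gcongr
      _ ≤ A₁ * L * e := by gcongr
  rcases Hdich Q T 0 2 h _ ν P hI p hp (1 / 20) R₁ L (by rw [sub_zero]; linarith) hmass hR₁0 hR₁t
    hL1 hlog hkey with hflat | hsp
  · obtain ⟨b, hb, hbh⟩ := hflat
    refine (cell_flat (CH := C₀ ^ 2 * A₁) hA (by positivity) hCF HF (intCyl_mono_delta hI1 (min_le_right _ _)) he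
      (by linarith) hL1 hL2 (hexcp _ (by norm_num)) ⟨b, hb, ?_⟩ hψ).trans
      (hbnd _ (by positivity) (le_max_left _ _))
    filter_upwards [hbh] with y hy hmem
    calc ‖FV.co T y - b‖ ^ 2 ≤ (C₀ * R₁) ^ 2 := by gcongr; exact hy hmem
      _ = C₀ ^ 2 * A₁ * L * e := by rw [mul_pow, hR₁sq]; ring
  · obtain ⟨S, Q₁, Q₂, hS, hQ₁, hQ₂, hQ, hJ₁, hJ₂⟩ := HT T p (8 * (1 / 20)) h ν P
      (intCyl_mono_delta hI8 (min_le_left _ _))
      ((hexcp _ (by norm_num)).trans (by linarith)) hsp p hp (1 / 20) (by norm_num)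
      (by rw [sub_self, norm_zero]; norm_num)
    have e20 : (1 : ℝ) / 20 = 2 * (1 / 40) := by norm_num
    rw [e20] at hJ₁ hJ₂
    have hexc2 : exc T ν P p (2 * (1 / 40)) ≤ e := hexcp _ (by norm_num)
    have k1 := HR T _ p (1 / 40) h h ν P ψ S Q₁ Q₂ hI.cyl hS hQ₁ hQ₂ hQ hJ₁ hJ₂
      (hexc2.trans (by linarith)) hψ
    have e0 : 0 ≤ exc T ν P p (2 * (1 / 40)) := exc_nonneg hI.cyl _ _
    have k2 := rate_mono_arg (C := CR) hA hCR.le (R := (1 / 40) ^ 2) (by norm_num) e0 hexc2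
      (by rw [div_lt_one (by norm_num)]; linarith)
    have e3 : e / (1 / 40) ^ 2 = 1600 * e := by ring
    rw [e3] at k2
    refine (k1.trans k2).trans (le_trans ?_ (hbnd _ (by positivity) (le_max_right _ _)))
    have e4 := rpow_half_le (A := A) hA (by linarith) hL2
    have e5 : 0 ≤ Real.log (1600 * e)⁻¹ ^ (-A) := Real.rpow_nonneg (by linarith) _
    calc CR * Real.log (1600 * e)⁻¹ ^ (-A) * exc T ν P p (2 * (1 / 40))
        ≤ CR * Real.log (1600 * e)⁻¹ ^ (-A) * e := by gcongr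
      _ ≤ CR * (2 ^ A * L ^ (-A)) * e := by gcongr
      _ = _ := by ring

/-- **the reduction to small heights**, `m = 2`. -/
theorem rateFlat_of_rateH (hind : ∀ Q', 1 ≤ Q' → Q' < Q → RateFlat E 2 Q')
    (H : ∀ A CH : ℝ, 0 < A → 0 < CH → ∃ C ε : ℝ, 0 < C ∧ 0 < ε ∧ RateH E Q CH A C ε) :
    RateFlat E 2 Q := by
  refine rateFlat_of_unit fun A hA => ?_
  obtain ⟨C, ε, hC, hε, hε1, Hlog, Hc⟩ := cell_top (E := E) hind hA (fun CH hCH => H A CH hA hCH)
  obtain ⟨Cc, hCc, Hcells⟩ := exists_cells E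
  have hov := ovl_nonneg (F := E) (K := 40) (by norm_num)
  have hC2 : 0 < ovl E 40 * ((Cc + 1) * C) + 1 := by positivity
  refine ⟨ovl E 40 * ((Cc + 1) * C) + 1, ε, hC2, hε, fun T h ν P φ hI hexc hφ => ?_⟩
  have hT := hI.cyl.dimT
  -- the inequality with a free parameter
  have main : ∀ e, 0 < e → e ≤ ε → exc T ν P 0 2 ≤ e →
      Ffl 2 Q T ν P φ ≤ (ovl E 40 * ((Cc + 1) * C) + 1) * (Real.log e⁻¹) ^ (-A) * e := by
    intro e he heε hee
    obtain ⟨N, χ, hN⟩ := Hcells ((T : Set E) ∩ ball 0 1) (1 / 40)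
      (isBounded_ball.subset inter_subset_right) (by norm_num)
    have hφc : Continuous φ := BaseTest.continuous one_pos hφ
    have hr := hN.pos
    have hχc : ∀ p ∈ N, Continuous (χ p) := fun p hp => by
      refine LipschitzWith.continuous (K := Real.toNNReal (Cc / (1 / 40)))
        (LipschitzWith.of_dist_le_mul fun x y => ?_)
      rw [Real.dist_eq]
      refine (hN.lip p hp x y).trans ?_
      gcongr
      exact Real.le_coe_toNNReal _
    have hmem : ∀ p ∈ N, p ∈ T ∧ ‖p‖ < 1 := fun p hp => by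
      have := hN.sub hp
      exact ⟨this.1, by simpa using this.2⟩
    have h1 : Ffl 2 Q T ν P φ = Ffl 2 Q T ν P (fun x => ∑ p ∈ N, φ x * χ p x) := by
      refine ffl_congr fun x hx => ?_
      rw [← Finset.mul_sum]
      by_cases hx1 : x ∈ ball (0 : E) 1
      · rw [hN.sum_one x ⟨hx, hx1⟩, mul_one]
      · have : φ x = 0 := hφ.supp x (by rw [sub_zero]; simpa using hx1)
        rw [this, zero_mul]
    have h2 := ffl_sum (Q := Q) (P := P) (f := fun p x => φ x * χ p x) hI.cyl N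
      (fun p hp => hφc.mul (hχc p hp)) (D := 1) (fun p hp x => by
        rw [abs_mul, abs_of_nonneg (hN.nonneg p hp x), abs_of_nonneg (hφ.nonneg x)]
        exact mul_le_one₀ (hφ.le_one x) (hN.nonneg p hp x) (hN.le_one p hp x)) (R := 1 / 40)
      (fun p hp x hx => by simp only [hN.supp p hp x hx, mul_zero])
    have hC0 : 0 < Cc + 1 := by linarith
    have hLA : 0 ≤ Real.log e⁻¹ ^ (-A) :=
      Real.rpow_nonneg (by linarith [Hlog e he heε]) _
    have h3 : ∀ p ∈ N, Ffl 2 Q T ν P (fun x => φ x * χ p x) ≤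
        (Cc + 1) * C * Real.log e⁻¹ ^ (-A) * e := by
      intro p hp
      have ht := hN.test (T := T) hCc hp hφ.nonneg hφ.le_one (fun x _ y _ => by
        refine (hφ.lip x y).trans ?_
        rw [← dist_eq_norm]
        gcongr
        norm_num)
      have k := Hc e T h ν P p _ hI he heε hee (hmem p hp).1 (hmem p hp).2 ht
      rw [ffl_smul] at k
      have k4 := mul_le_mul_of_nonneg_left k hC0.le
      rw [← mul_assoc, mul_inv_cancel₀ hC0.ne', one_mul] at k4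
      refine k4.trans (le_of_eq (by ring))
    have hcard : (N.card : ℝ) ≤ ovl E 40 := by
      have := hN.card_le (K := 40) (by norm_num) (0 : E)
      have hf : N.filter (fun p => dist (0 : E) p ≤ 40 * (1 / 40)) = N := by
        refine Finset.filter_true_of_mem fun p hp => ?_
        rw [dist_zero_left]; linarith [(hmem p hp).2]
      rwa [hf] at this
    rw [h1, h2]
    calc ∑ p ∈ N, Ffl 2 Q T ν P (fun x => φ x * χ p x)
        ≤ ∑ p ∈ N, (Cc + 1) * C * Real.log e⁻¹ ^ (-A) * e := Finset.sum_le_sum h3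
      _ = N.card * ((Cc + 1) * C * Real.log e⁻¹ ^ (-A) * e) := by
          rw [Finset.sum_const, nsmul_eq_mul]
      _ ≤ ovl E 40 * ((Cc + 1) * C * Real.log e⁻¹ ^ (-A) * e) := by gcongr
      _ = (ovl E 40 * ((Cc + 1) * C)) * Real.log e⁻¹ ^ (-A) * e := by ring
      _ ≤ _ := by gcongr; linarith
  rcases (exc_nonneg hI.cyl (P := P) 0 2).eq_or_lt with h0 | h0
  · rw [← h0, mul_zero]
    refine le_of_forall_pos_le_add fun η hη => ?_
    rw [zero_add]
    set C' := ovl E 40 * ((Cc + 1) * C) + 1 with hC'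
    have he : 0 < min ε (η / C') := lt_min hε (by positivity)
    refine (main _ he (min_le_left _ _) (by rw [← h0]; exact he.le)).trans ?_
    have h1 : Real.log (min ε (η / C'))⁻¹ ^ (-A) ≤ 1 :=
      Real.rpow_le_one_of_one_le_of_nonpos (Hlog _ he (min_le_left _ _)) (by linarith)
    calc C' * Real.log (min ε (η / C'))⁻¹ ^ (-A) * min ε (η / C')
        ≤ C' * 1 * (η / C') := by gcongr; exact min_le_right _ _
      _ = η := by field_simp
  · exact main _ h0 hexc le_rfl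

/-- **the reduction to small heights**, in the form of the assembly. -/
theorem rateFlat_of_rateUnitH (hind : ∀ Q', 1 ≤ Q' → Q' < Q → RateFlat E 2 Q')
    (H : ∀ CH : ℝ, RateUnitH E Q CH) : RateFlat E 2 Q := by
  refine rateFlat_of_rateH hind fun A CH hA _ => ?_
  obtain ⟨C, ε, hC, hε, H⟩ := H CH A hA
  exact ⟨C, ε, hC, hε, fun e T h ν P φ hI he heε hexc hh hφ =>
    H e T h ν P φ ⟨⟨hI, he, heε, hexc⟩, hh⟩ hφ⟩

end Vale.Agent.P214.R2
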