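import Vale.Agent.P214.R2.Asm
import Vale.Agent.P214.R2.BoxExh
import Vale.Agent.P214.R2.BoxSD
import Vale.Agent.P214.R2.Iv
import Vale.Agent.P214.R2.Top
import Vale.Agent.P214.R2F.BBC

/-!
# P214, block R2: the flat rate lemma in dimension two

All boxes are put together; the only input is the statement COL (`R2F.ColStmt`).
-/

open Set Filter Topology MeasureTheory Metric
open scoped RealInnerProductSpace ENNReal

namespace Vale.Agent.P214.R2

open Vale.Agent.P214.Skel

variable {E : Type*} [NormedAddCommGroup E] [InnerProductSpace ℝ E] [FiniteDimensional ℝ E]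
  [MeasurableSpace E] [BorelSpace E]

/-- **The flat rate lemma in dimension two** (one number of sheets, with the induction
hypothesis). -/
theorem rateFlat_step (hC : ∀ (Q : ℕ), 1 ≤ Q →
      ∀ Sp : Submodule ℝ E → Measure E → (E → E →L[ℝ] E) → E → ℝ → Prop, BoxC Sp Q)
    {Q : ℕ} (hQ : 1 ≤ Q) (ih : ∀ Q', 1 ≤ Q' → Q' < Q → RateFlat E 2 Q') : RateFlat E 2 Q := by
  have h14 : 0 < TH.win (1 / 4) := by rw [TH.win_one le_rfl]; exact one_pos
  obtain ⟨cD, hcD, hU⟩ := boxU (E := E) NGP.kernW NGP.kk_zero h14 Q (boxTop E Q)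
  exact rateFlat_of_rateUnitH ih fun CH => rateUnitH_of_boxes (boxIV E Q) (boxTop E Q)
    (boxSD hcD ih) hU (hC Q hQ _) (boxExh NGP.kernW h14 Q) CH

/-- **The flat rate lemma in dimension two**, from the box (C). -/
theorem rateFlat_two_of_boxC (hC : ∀ (Q : ℕ), 1 ≤ Q →
      ∀ Sp : Submodule ℝ E → Measure E → (E → E →L[ℝ] E) → E → ℝ → Prop, BoxC Sp Q) :
    ∀ Q, 1 ≤ Q → RateFlat E 2 Q := by
  intro Q
  induction Q using Nat.strong_induction_on with
  | _ Q ih => exact fun hQ => rateFlat_step hC hQ fun Q' h1 h2 => ih Q' h2 h1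

/-- **The flat rate lemma in dimension two**, from COL. -/
theorem rateFlat_two_of_col (hCol : R2F.ColStmt E 2) : ∀ Q, 1 ≤ Q → RateFlat E 2 Q :=
  rateFlat_two_of_boxC fun _ hQ Sp => R2F.boxC_of hCol hQ Sp

end Vale.Agent.P214.R2
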