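import Vale.Agent.P214.R2.Split
import Vale.Agent.P214.B4.DichInt

/-!
# P214, block R2-S (m = 2): the split cells are sums of two integral pieces, (BB-S) unconditional
-/

open Set Filter Topology MeasureTheory Metric Module
open scoped RealInnerProductSpace ENNReal

set_option linter.all false

namespace Vale.Agent.P214.R2

open Vale.Agent.P214.Skel

variable {E : Type*} [NormedAddCommGroup E] [InnerProductSpace ℝ E] [FiniteDimensional ℝ E]
  [MeasurableSpace E] [BorelSpace E]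
variable {m Q : ℕ} {T : Submodule ℝ E} {G : Set E} {h : ℝ} {ν : Measure E} {P : E → E →L[ℝ] E}

lemma exists_pos_le (f : ℕ → ℝ) (hf : ∀ n, 0 < f n) (Q : ℕ) :
    ∃ δ : ℝ, 0 < δ ∧ ∀ n, n ≤ Q → δ ≤ f n := by
  induction Q with
  | zero => exact ⟨f 0, hf 0, fun n hn => by rw [Nat.le_zero.1 hn]⟩
  | succ Q ih =>
    obtain ⟨δ, hδ, H⟩ := ih
    refine ⟨min δ (f (Q + 1)), lt_min hδ (hf _), fun n hn => ?_⟩
    rcases Nat.le_succ_iff.1 hn with h | h
    · exact (min_le_left _ _).trans (H n h)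
    · rw [h]; exact min_le_right _ _

lemma exc_restrict_le (hC : FV.CylStat m T G h ν P) {A : Set E} (hA : MeasurableSet A) (x : E)
    (s : ℝ) : exc T (ν.restrict A) P x s ≤ exc T ν P x s := by
  unfold exc
  rw [Measure.restrict_restrict (measurableSet_cylSet T x s)]
  exact setIntegral_mono_set (integrable_tilt' hC).integrableOn
    (ae_restrict_of_ae (tilt_nonneg_ae hC)) inter_subset_left.eventuallyLE

/-- two pieces at a comparable smaller scale -/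
theorem TwoPieces.sub (hm : 1 ≤ m) (Q : ℕ) {δ' ρ₀ : ℝ} (hδ' : 0 < δ') (hρ₀ : 0 < ρ₀) :
    ∃ δ : ℝ, 0 < δ ∧ ∀ (T : Submodule ℝ E) (G : Set E) (x : E) (t h h' : ℝ) (ν : Measure E)
      (P : E → E →L[ℝ] E), FV.CylStat m T G h' ν P → TwoPieces m Q T ν P h δ x t →
      exc T ν P x t ≤ δ * t ^ m → ∀ x' ∈ T, ∀ s, ρ₀ * t ≤ s → ‖x' - x‖ + s ≤ t →
        TwoPieces m Q T ν P h δ' x' s := by
  have h0 := fun n : ℕ => B4.intCyl_sub (E := E) hm n hδ' hρ₀
  choose f hf hf' using h0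
  obtain ⟨δ, hδ, hδf⟩ := exists_pos_le f hf Q
  refine ⟨δ, hδ, ?_⟩
  rintro T G x t h h' ν P hC ⟨S, Q₁, Q₂, hS, hQ₁, hQ₂, hQ, hI₁, hI₂⟩ hexc x' hx' s hs hsub
  have ht := hI₁.pos
  refine ⟨S, Q₁, Q₂, hS, hQ₁, hQ₂, hQ, ?_, ?_⟩
  · have h1 := hδf Q₁ (by omega)
    refine hf' Q₁ T x t h _ P (intCyl_mono_delta hI₁ h1) ?_ x' hx' s hs hsub
    exact ((exc_restrict_le hC hS x t).trans hexc).trans (by gcongr)
  · have h1 := hδf Q₂ (by omega)
    refine hf' Q₂ T x t h _ P (intCyl_mono_delta hI₂ h1) ?_ x' hx' s hs hsub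
    exact ((exc_restrict_le hC hS.compl x t).trans hexc).trans (by gcongr)

/-- the integral cylinder over `ball x (a r_b)`, `a ≥ 1` -/
theorem Conf0.intCyl {a : ℝ} (ha : 1 ≤ a) {K δ : ℝ} (hK : 1 ≤ K) (hδ : 0 < δ) (Q : ℕ) :
    ∃ ε : ℝ, 0 < ε ∧ ε < 1 ∧ ∀ (e : ℝ) (T : Submodule ℝ E) (h : ℝ) (ν : Measure E)
      (P : E → E →L[ℝ] E), Conf0 Q ε e T h ν P → ∀ x ∈ T, ‖x‖ ≤ 3 / 2 →
      IntCyl 2 Q T x (a * rb K e) h δ ν P ∧ exc T ν P x (a * rb K e) ≤ δ * (a * rb K e) ^ 2 ∧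
        a * rb K e ≤ 1 / 4 := by
  have hK0 : 0 < K := by linarith
  obtain ⟨δ₁, hδ₁, H⟩ := B4.intCyl_down (E := E) (m := 2) (by norm_num) Q (δ' := δ)
    (ρ₀ := 1 / 4) hδ (by norm_num)
  obtain ⟨ε₁, hε₁, hε₁1, H₁⟩ := eventually_rb_le (K := K) (c := 1 / (4 * a)) hK (by positivity)
  have hmin : 0 < min δ₁ δ := lt_min hδ₁ hδ
  obtain ⟨ε₂, hε₂, hε₂1, H₂⟩ := exists_eps_of_eventually
    (eventually_lam_ge (K := K) hK0 (Real.log (min δ₁ δ)⁻¹))
  refine ⟨min δ₁ (min ε₁ ε₂), by positivity,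
    ((min_le_right _ _).trans (min_le_left _ _)).trans_lt hε₁1, ?_⟩
  intro e T h ν P hc x hx hx1
  have hle : e ≤ δ₁ := hc.le.trans (min_le_left _ _)
  have hle1 : e ≤ ε₁ := hc.le.trans ((min_le_right _ _).trans (min_le_left _ _))
  have hle2 : e ≤ ε₂ := hc.le.trans ((min_le_right _ _).trans (min_le_right _ _))
  have hr := rb_pos (K := K) hc.pos
  have hrs := H₁ _ hc.pos hle1
  have hlam := H₂ _ hc.pos hle2
  rw [← lam_eq, Real.log_inv] at hlam
  have hb : Real.exp (-lam K e) ≤ min δ₁ δ := by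
    rw [← Real.le_log_iff_exp_le hmin]; linarith
  have hpos := hc.pos
  have hexc := hc.exc_le
  have ha0 : 0 < a := by linarith
  have har : a * rb K e ≤ 1 / 4 := by
    calc a * rb K e ≤ a * (1 / (4 * a)) := by gcongr
      _ = 1 / 4 := by field_simp
  have hexc' : ∀ s', a * rb K e ≤ s' → s' ≤ 1 / 2 → exc T ν P x s' ≤ min δ₁ δ * s' ^ 2 := by
    intro s' h1 h2
    have e1 : exc T ν P x s' ≤ exc T ν P 0 2 := exc_mono hc.ic.cyl (by
      rw [dist_zero_right]; linarith)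
    have e2 : rb K e ≤ s' := by nlinarith
    calc exc T ν P x s' ≤ e := e1.trans hexc
      _ = Real.exp (-lam K e) * rb K e ^ 2 := (exp_neg_mul_rb_sq hc.pos).symm
      _ ≤ min δ₁ δ * s' ^ 2 := by gcongr
  refine ⟨?_, ?_, har⟩
  · refine H T 0 2 h ν P (intCyl_mono_delta hc.ic (min_le_left _ _)) (by linarith) x hx
      (by rw [sub_zero]; linarith) (a * rb K e) (by positivity) (by rw [sub_zero]; linarith) ?_
    intro s' h1 h2
    refine (hexc' s' h1 (by linarith)).trans ?_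
    gcongr
    exact min_le_left _ _
  · refine (hexc' _ le_rfl (by linarith)).trans ?_
    gcongr
    exact min_le_right _ _

/-- **(D2) at the split cells** -/
theorem splitInt {c : ℝ} (hc : 0 < c) (Q : ℕ) :
    SplitInt E (fun T ν _ x r => B4.Split 2 T ν x (64 * r) c) Q := by
  intro K δ hK hδ
  obtain ⟨δ₁, hδ₁, H₁⟩ := TwoPieces.sub (E := E) (m := 2) (by norm_num) Q (δ' := δ)
    (ρ₀ := 1 / 4) hδ (by norm_num)
  obtain ⟨δ₂, hδ₂, H₂⟩ := B4.twoPieces (E := E) (m := 2) (by norm_num) Q (δ' := δ₁) (c := c) hδ₁ hc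
  obtain ⟨ε₁, hε₁, hε₁1, HI⟩ := Conf0.intCyl (E := E) (a := 64) (by norm_num) hK
    (δ := min δ₂ (δ₁ / 64)) (by positivity) Q
  refine ⟨ε₁, hε₁, ?_⟩
  intro e T h ν P hcf x hx hx1 hsp
  obtain ⟨hI, hexc, hr4⟩ := HI e T h ν P hcf x hx (by linarith)
  have hr := rb_pos (K := K) hcf.pos
  have h2 := H₂ T x (64 * rb K e) h ν P (intCyl_mono_delta hI (min_le_left _ _))
    (hexc.trans (by gcongr; exact min_le_left _ _)) hsp x hx (8 * rb K e) (by linarith)
    (by rw [sub_self, norm_zero]; linarith)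
  refine H₁ T _ x (8 * rb K e) h h ν P hcf.ic.cyl h2 ?_ x hx (2 * rb K e) (by linarith)
    (by rw [sub_self, norm_zero]; linarith)
  have h3 : exc T ν P x (8 * rb K e) ≤ exc T ν P x (64 * rb K e) :=
    exc_mono' hcf.ic.cyl (by linarith)
  refine h3.trans (hexc.trans ?_)
  calc min δ₂ (δ₁ / 64) * (64 * rb K e) ^ 2 ≤ δ₁ / 64 * (64 * rb K e) ^ 2 := by
        gcongr; exact min_le_right _ _
    _ = δ₁ * (8 * rb K e) ^ 2 := by ring

/-- **(BB-S)**, unconditional for the splitting predicate of the dichotomy. -/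
theorem boxS_split {c : ℝ} (hc : 0 < c) (hind : ∀ Q', 1 ≤ Q' → Q' < Q → RateFlat E 2 Q') :
    BoxS (E := E) (fun T ν _ x r => B4.Split 2 T ν x (64 * r) c) Q :=
  boxS_of hind (splitInt hc Q)

end Vale.Agent.P214.R2
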