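import Vale.Agent.P214.R2.U
import Vale.Agent.P214.R2.Asm
import Vale.Agent.P214.R2.Iv
import Vale.Agent.P214.R2.Top
import Vale.Agent.P214.R2.BoxExh
import Vale.Agent.P214.R2.SpInt
import Vale.Agent.P214.R2F.BBC

/-!
# P214, block R2: the flat rate lemma in dimension two, from the collapse lemma (COL)
-/

open Set Filter Topology MeasureTheory Metric

set_option linter.all false

namespace Vale.Agent.P214.R2

open Vale.Agent.P214.Skel

variable {E : Type*} [NormedAddCommGroup E] [InnerProductSpace ℝ E] [FiniteDimensional ℝ E]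
  [MeasurableSpace E] [BorelSpace E]

/-- `RateFlat E 2 Q` for all `Q ≥ 1` from the boxes `BoxS` and `BoxC`. -/
theorem rateFlat_two_of (E : Type*) [NormedAddCommGroup E] [InnerProductSpace ℝ E]
    [FiniteDimensional ℝ E] [MeasurableSpace E] [BorelSpace E]
    (hS : ∀ Q, 1 ≤ Q → ∀ cD : ℝ, 0 < cD →
      (∀ Q', 1 ≤ Q' → Q' < Q → RateFlat E 2 Q') → BoxS (E := E) (SpD cD) Q)
    (hC : ∀ Q, 1 ≤ Q → ∀ cD : ℝ, 0 < cD → BoxC (E := E) (SpD cD) Q) :
    ∀ Q, 1 ≤ Q → RateFlat E 2 Q := by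
  have h14 : 0 < TH.win (1 / 4) := by
    have := NGP.one_le_win_of (s := 1 / 4) le_rfl
    linarith
  have hU := fun Q : ℕ => boxU (E := E) NGP.kernW NGP.kk_zero h14 Q (boxTop E Q)
  choose cD hcD hU using hU
  exact rateFlat_two (η := etaK TH.win) (Sp := fun Q => SpD (cD Q)) (fun Q _ => boxIV E Q)
    (fun Q _ => boxTop E Q) (fun Q hQ ih => hS Q hQ (cD Q) (hcD Q) ih) (fun Q _ => hU Q)
    (fun Q hQ => hC Q hQ (cD Q) (hcD Q)) (fun Q _ => boxExh NGP.kernW h14 Q)
    (fun Q _ ih H => rateFlat_of_rateUnitH ih H)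

/-- The flat rate lemma in dimension two, from the collapse lemma. -/
theorem rateFlat_two_of_col (hCol : R2F.ColStmt E 2) : ∀ Q, 1 ≤ Q → RateFlat E 2 Q :=
  rateFlat_two_of E (fun Q hQ cD hcD ih => boxS_split hcD ih)
    (fun Q hQ cD hcD => R2F.boxC_of hCol hQ (SpD cD))

end Vale.Agent.P214.R2
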