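import Mathlib.Analysis.Calculus.MeanValue
import Mathlib.Analysis.SpecialFunctions.ExpDeriv
import Mathlib.Analysis.Calculus.Deriv.Inv
import Mathlib.Analysis.Calculus.Deriv.Add
import Mathlib.Analysis.Calculus.Deriv.Mul
import Mathlib.Tactic
import Mathlib.MeasureTheory.Integral.IntervalIntegral.FundThmCalculus

/-!
# P214, block R2-NGP: the frequency ODE along a path (pure real analysis)

Variable `u = log t`.  `a' = 2(a - g) + 2b`, `H' ≤ 2g + 2εb`, `g² ≤ bH`, `g > 0`, `g' ≥ -κ g`,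
`b ≤ g' + κ g`.  `Y = min(1, (1 - a/g)⁺)`, `A = max(a, g/2)`, `n = A/H`.

* `path_freq`   : `n(u) ≥ min(1/2, n(u₀)) exp (-(2κ+4) ∫ Y - 8ε(u-u₀))`
* `path_growth` : `A(u₁) ≥ A(u₀) exp (2δ(u₁-u₀) - (2κ+4) ∫ Y)` if `n ≥ δ`, `δ ≤ 1/2`.
-/

open Set Filter Topology MeasureTheory intervalIntegral

set_option linter.all false

namespace Vale.Agent.P214.R2

/-- the truncated negativity `min(1, (1 - a/g)⁺)` -/
noncomputable def negY (a g : ℝ) : ℝ := min 1 (max 0 (1 - a / g))

lemma negY_nonneg (a g : ℝ) : 0 ≤ negY a g := le_min zero_le_one (le_max_left _ _)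

lemma negY_le_one (a g : ℝ) : negY a g ≤ 1 := min_le_left _ _

/-- the frequency system along a path -/
structure PathSys (κ ε : ℝ) (a g H b a' g' H' : ℝ → ℝ) (u₀ u₁ : ℝ) : Prop where
  κ0 : 0 ≤ κ
  ε0 : 0 ≤ ε
  ε1 : ε ≤ 1 / 2
  da : ∀ u ∈ Icc u₀ u₁, HasDerivAt a (a' u) u
  dg : ∀ u ∈ Icc u₀ u₁, HasDerivAt g (g' u) u
  dH : ∀ u ∈ Icc u₀ u₁, HasDerivAt H (H' u) u
  ea : ∀ u ∈ Icc u₀ u₁, a' u = 2 * (a u - g u) + 2 * b u
  eg : ∀ u ∈ Icc u₀ u₁, -κ * g u ≤ g' u
  eb : ∀ u ∈ Icc u₀ u₁, b u ≤ g' u + κ * g u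
  eH : ∀ u ∈ Icc u₀ u₁, H' u ≤ 2 * g u + 2 * ε * b u
  gpos : ∀ u ∈ Icc u₀ u₁, 0 < g u
  bnn : ∀ u ∈ Icc u₀ u₁, 0 ≤ b u
  Hpos : ∀ u ∈ Icc u₀ u₁, 0 < H u
  cs : ∀ u ∈ Icc u₀ u₁, g u ^ 2 ≤ b u * H u

variable {κ ε : ℝ} {a g H b a' g' H' : ℝ → ℝ} {u₀ u₁ : ℝ}

namespace PathSys

lemma contY (h : PathSys κ ε a g H b a' g' H' u₀ u₁) :
    ContinuousOn (fun u => negY (a u) (g u)) (Icc u₀ u₁) := by
  intro u hu
  have h1 : ContinuousAt (fun u => a u / g u) u :=
    (h.da u hu).continuousAt.div (h.dg u hu).continuousAt (h.gpos u hu).ne'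
  have h2 : ContinuousAt (fun u => negY (a u) (g u)) u := by
    unfold negY
    exact continuousAt_const.min (continuousAt_const.max (continuousAt_const.sub h1))
  exact h2.continuousWithinAt

/-- the primitive of `Y` -/
lemma hasDeriv_intY (h : PathSys κ ε a g H b a' g' H' u₀ u₁) {u : ℝ} (hu : u ∈ Ico u₀ u₁) :
    HasDerivWithinAt (fun v => ∫ s in u₀..v, negY (a s) (g s)) (negY (a u) (g u)) (Ici u) u := by
  have hc := h.contY
  have hint : IntervalIntegrable (fun s => negY (a s) (g s)) volume u₀ u := by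
    refine ContinuousOn.intervalIntegrable ?_
    rw [uIcc_of_le hu.1]
    exact hc.mono (Icc_subset_Icc le_rfl hu.2.le)
  have hu' : u ∈ Icc u₀ u₁ := ⟨hu.1, hu.2.le⟩
  have hcw : ContinuousWithinAt (fun s => negY (a s) (g s)) (Ioi u) u := by
    have h1 : ContinuousAt (fun u => a u / g u) u :=
      (h.da u hu').continuousAt.div (h.dg u hu').continuousAt (h.gpos u hu').ne'
    have h2 : ContinuousAt (fun u => negY (a u) (g u)) u := by
      unfold negY
      exact continuousAt_const.min (continuousAt_const.max (continuousAt_const.sub h1))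
    exact h2.continuousWithinAt
  refine integral_hasDerivWithinAt_right hint ?_ hcw
  have hmem : Icc u₀ u₁ ∈ 𝓝[>] u := by
    have : Ioo u u₁ ∈ 𝓝[>] u := Ioo_mem_nhdsGT hu.2
    exact mem_of_superset this fun s hs => ⟨hu.1.trans hs.1.le, hs.2.le⟩
  exact ⟨Icc u₀ u₁, hmem, (hc.aestronglyMeasurable measurableSet_Icc)⟩

lemma contW (h : PathSys κ ε a g H b a' g' H' u₀ u₁) :
    ContinuousOn (fun v => ∫ s in u₀..v, negY (a s) (g s)) (Icc u₀ u₁) := by
  by_cases h01 : u₀ ≤ u₁
  · have hint : IntegrableOn (fun s => negY (a s) (g s)) (Icc u₀ u₁) volume :=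
      h.contY.integrableOn_Icc
    have := continuousOn_primitive_interval (a := u₀) (b := u₁)
      (f := fun s => negY (a s) (g s)) (μ := volume) (by rwa [uIcc_of_le h01])
    rwa [uIcc_of_le h01] at this
  · rw [Icc_eq_empty h01]; exact continuousOn_empty _

end PathSys

/-- slopes of the negative of a maximum -/
lemma frequently_slope_neg_max {f₁ f₂ : ℝ → ℝ} {x D r : ℝ}
    (h : (HasDerivAt f₁ D x ∧ f₂ x ≤ f₁ x) ∨ (HasDerivAt f₂ D x ∧ f₁ x ≤ f₂ x)) (hr : -D < r) :
    ∃ᶠ z in 𝓝[>] x, slope (fun u => -max (f₁ u) (f₂ u)) x z < r := by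
  refine Eventually.frequently ?_
  rcases h with ⟨h1, h2⟩ | ⟨h1, h2⟩
  · have h3 : HasDerivWithinAt (fun u => -f₁ u) (-D) (Ioi x) x := h1.neg.hasDerivWithinAt
    have h4 := (hasDerivWithinAt_iff_tendsto_slope' (by simp)).1 h3
    filter_upwards [h4.eventually_lt_const hr, self_mem_nhdsWithin] with z hz hxz
    refine lt_of_le_of_lt ?_ hz
    have hxz' : 0 < z - x := sub_pos.2 hxz
    have e1 : max (f₁ x) (f₂ x) = f₁ x := max_eq_left h2
    rw [slope_def_field, slope_def_field]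
    refine div_le_div_of_nonneg_right ?_ hxz'.le
    simp only [e1]
    have := le_max_left (f₁ z) (f₂ z)
    linarith
  · have h3 : HasDerivWithinAt (fun u => -f₂ u) (-D) (Ioi x) x := h1.neg.hasDerivWithinAt
    have h4 := (hasDerivWithinAt_iff_tendsto_slope' (by simp)).1 h3
    filter_upwards [h4.eventually_lt_const hr, self_mem_nhdsWithin] with z hz hxz
    refine lt_of_le_of_lt ?_ hz
    have hxz' : 0 < z - x := sub_pos.2 hxz
    have e1 : max (f₁ x) (f₂ x) = f₂ x := max_eq_right h2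
    rw [slope_def_field, slope_def_field]
    refine div_le_div_of_nonneg_right ?_ hxz'.le
    simp only [e1]
    have := le_max_right (f₁ z) (f₂ z)
    linarith

/-- comparison for the maximum of two differentiable functions from below -/
lemma max_ge_of_deriv {f₁ f₂ d₁ d₂ B B' : ℝ → ℝ} (h01 : u₀ ≤ u₁)
    (h1 : ∀ u ∈ Icc u₀ u₁, HasDerivAt f₁ (d₁ u) u) (h2 : ∀ u ∈ Icc u₀ u₁, HasDerivAt f₂ (d₂ u) u)
    (hB : ContinuousOn B (Icc u₀ u₁))
    (hB' : ∀ u ∈ Ico u₀ u₁, HasDerivWithinAt B (B' u) (Ici u) u)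
    (h0 : B u₀ ≤ max (f₁ u₀) (f₂ u₀))
    (hA : ∀ u ∈ Ico u₀ u₁, f₂ u ≤ f₁ u → f₁ u = B u → B' u < d₁ u)
    (hC : ∀ u ∈ Ico u₀ u₁, f₁ u < f₂ u → f₂ u = B u → B' u < d₂ u) :
    ∀ u ∈ Icc u₀ u₁, B u ≤ max (f₁ u) (f₂ u) := by
  have hc : ContinuousOn (fun u => -max (f₁ u) (f₂ u)) (Icc u₀ u₁) := by
    intro u hu
    have h3 : ContinuousAt (fun u => max (f₁ u) (f₂ u)) u :=
      (h1 u hu).continuousAt.max (h2 u hu).continuousAt
    exact h3.neg.continuousWithinAt
  classical
  have key := image_le_of_liminf_slope_right_lt_deriv_boundary' (f := fun u => -max (f₁ u) (f₂ u))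
    (f' := fun u => if f₂ u ≤ f₁ u then -d₁ u else -d₂ u) (a := u₀) (b := u₁) hc
    (fun x hx r hr => by
      have hx' : x ∈ Icc u₀ u₁ := ⟨hx.1, hx.2.le⟩
      by_cases hcase : f₂ x ≤ f₁ x
      · rw [if_pos hcase] at hr
        exact frequently_slope_neg_max (Or.inl ⟨h1 x hx', hcase⟩) hr
      · rw [if_neg hcase] at hr
        exact frequently_slope_neg_max (Or.inr ⟨h2 x hx', (not_le.1 hcase).le⟩) hr)
    (B := fun u => -B u) (B' := fun u => -B' u) (by simpa using h0) hB.neg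
    (fun x hx => (hB' x hx).neg)
    (fun x hx hfx => by
      have hfx' : max (f₁ x) (f₂ x) = B x := by simpa using hfx
      by_cases hcase : f₂ x ≤ f₁ x
      · rw [if_pos hcase]
        have := hA x hx hcase (by rwa [max_eq_left hcase] at hfx')
        linarith
      · rw [if_neg hcase]
        have := hC x hx (not_le.1 hcase) (by rwa [max_eq_right (not_le.1 hcase).le] at hfx')
        linarith)
  intro u hu
  have := key hu
  simpa using this


namespace PathSys

/-- algebra of the frequency inequality on `a ≥ g/2` -/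
lemma alg_freq_a {a g H b ε Y η : ℝ} (hg : 0 < g) (hga : g / 2 ≤ a) (haH : a ≤ H / 2)
    (hb : 0 ≤ b) (hcs : g ^ 2 ≤ b * H) (hε0 : 0 ≤ ε) (hε1 : ε ≤ 1 / 2) (hY0 : 0 ≤ Y)
    (hY : g - a ≤ g * Y) {κ : ℝ} (hκ : 0 ≤ κ) (hη : 0 < η) {H' : ℝ}
    (hH' : H' ≤ 2 * g + 2 * ε * b) :
    -(a * H * ((2 * κ + 4) * Y + 8 * ε + η)) < (2 * (a - g) + 2 * b) * H - a * H' := by
  have ha : 0 < a := by linarith
  have hH : 0 < H := by linarith
  have hgH : g ≤ H := by linarith
  -- `b ≥ g²/H`
  have hbg : g ^ 2 / H ≤ b := by rw [div_le_iff₀ hH]; exact hcs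
  have h1 : 0 ≤ 2 * H - 2 * ε * a := by nlinarith
  have h2 : g ^ 2 / H * (2 * H - 2 * ε * a) ≤ b * (2 * H - 2 * ε * a) := by gcongr
  have h3 : g ^ 2 / H * (2 * H - 2 * ε * a) = 2 * g ^ 2 - 2 * ε * a * (g ^ 2 / H) := by
    field_simp
  have h4 : g ^ 2 / H ≤ H := by
    rw [div_le_iff₀ hH]
    nlinarith
  have h5 : a * H' ≤ a * (2 * g + 2 * ε * b) := by gcongr
  have h6 : ε * a * (g ^ 2 / H) ≤ ε * a * H := by gcongr
  -- main
  have h7 : -(4 * a * H * Y) ≤ 2 * ((a - g) * (H - g)) := by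
    by_cases h8 : g ≤ a
    · have : 0 ≤ (a - g) * (H - g) := mul_nonneg (by linarith) (by linarith)
      have : 0 ≤ 4 * a * H * Y := by positivity
      linarith
    · have h9 : 0 ≤ g - a := by linarith
      have h10 : (g - a) * (H - g) ≤ (g * Y) * H := by
        refine mul_le_mul hY (by linarith) (by linarith) (by positivity)
      have h11 : (g * Y) * H ≤ (2 * a * Y) * H := by
        have : g ≤ 2 * a := by linarith
        gcongr
      nlinarith
  have h12 : 0 ≤ κ * (a * H * Y) := by positivity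
  have h13 : 0 < a * H * η := by positivity
  have h14 : 0 ≤ ε * a * H := by positivity
  nlinarith

/-- algebra of the frequency inequality on `a < g/2` -/
lemma alg_freq_g {g H b ε Y η κ g' H' : ℝ} (hg : 0 < g) (hgH : g ≤ H)
    (hε0 : 0 ≤ ε) (hε1 : ε ≤ 1 / 2) (hY : 1 / 2 ≤ Y) (hκ : 0 ≤ κ) (hη : 0 < η)
    (hg' : -κ * g ≤ g') (hb : b ≤ g' + κ * g) (hH' : H' ≤ 2 * g + 2 * ε * b) :
    -(g * H * ((2 * κ + 4) * Y + 8 * ε + η)) < g' * H - g * H' := by
  have hH : 0 < H := by linarith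
  have h1 : g * H' ≤ g * (2 * g + 2 * ε * (g' + κ * g)) := by
    have : H' ≤ 2 * g + 2 * ε * (g' + κ * g) := by
      refine hH'.trans ?_
      have : 2 * ε * b ≤ 2 * ε * (g' + κ * g) := by gcongr
      linarith
    gcongr
  have h2 : 0 ≤ H - 2 * ε * g := by nlinarith
  have h3 : -κ * g * (H - 2 * ε * g) ≤ g' * (H - 2 * ε * g) := by gcongr
  have h4 : g * g ≤ g * H := by gcongr
  have h5 : g * H * ((2 * κ + 4) * (1 / 2)) ≤ g * H * ((2 * κ + 4) * Y) := by gcongr
  have h6 : 0 < g * H * η := by positivity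
  have h7 : 0 ≤ g * H * (8 * ε) := by positivity
  nlinarith

/-- **Lower bound of the frequency along the path.** -/
theorem freq (h : PathSys κ ε a g H b a' g' H' u₀ u₁) (h01 : u₀ ≤ u₁) {u : ℝ}
    (hu : u ∈ Icc u₀ u₁) :
    min (1 / 2) (max (a u₀) (g u₀ / 2) / H u₀)
      * Real.exp (-((2 * κ + 4) * ∫ s in u₀..u, negY (a s) (g s)) - 8 * ε * (u - u₀))
      ≤ max (a u) (g u / 2) / H u := by
  set δ := min (1 / 2) (max (a u₀) (g u₀ / 2) / H u₀) with hδ
  have hu₀ : u₀ ∈ Icc u₀ u₁ := left_mem_Icc.2 h01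
  have hδ0 : 0 < δ := by
    have h1 : 0 < max (a u₀) (g u₀ / 2) :=
      lt_of_lt_of_le (by have := h.gpos u₀ hu₀; positivity) (le_max_right _ _)
    have := h.Hpos u₀ hu₀
    rw [hδ]
    positivity
  -- it suffices to prove the bound with `η`
  suffices hsuff : ∀ η > 0, δ * Real.exp (-((2 * κ + 4) * ∫ s in u₀..u, negY (a s) (g s))
      - (8 * ε + η) * (u - u₀)) ≤ max (a u) (g u / 2) / H u by
    have hlim : Tendsto (fun η : ℝ => δ * Real.exp (-((2 * κ + 4) * ∫ s in u₀..u,
        negY (a s) (g s)) - (8 * ε + η) * (u - u₀))) (𝓝[>] 0)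
        (𝓝 (δ * Real.exp (-((2 * κ + 4) * ∫ s in u₀..u, negY (a s) (g s))
          - (8 * ε + 0) * (u - u₀)))) := by
      refine Tendsto.mono_left ?_ nhdsWithin_le_nhds
      have : Continuous (fun η : ℝ => δ * Real.exp (-((2 * κ + 4) * ∫ s in u₀..u,
        negY (a s) (g s)) - (8 * ε + η) * (u - u₀))) := by fun_prop
      exact this.tendsto 0
    have := le_of_tendsto hlim (by
      filter_upwards [self_mem_nhdsWithin] with η hη using hsuff η hη)
    simpa using this
  intro η hη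
  set B : ℝ → ℝ := fun u => δ * Real.exp (-((2 * κ + 4) * ∫ s in u₀..u, negY (a s) (g s))
      - (8 * ε + η) * (u - u₀)) with hB
  set W' : ℝ → ℝ := fun u => -((2 * κ + 4) * negY (a u) (g u)) - (8 * ε + η) with hW'
  have hBpos : ∀ u, 0 < B u := fun u => by rw [hB]; positivity
  have hBle : ∀ u ∈ Icc u₀ u₁, B u ≤ 1 / 2 := by
    intro u hu
    have hint : 0 ≤ ∫ s in u₀..u, negY (a s) (g s) :=
      intervalIntegral.integral_nonneg hu.1 fun s _ => negY_nonneg _ _
    have hκ := h.κ0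
    have hε := h.ε0
    have h1 : Real.exp (-((2 * κ + 4) * ∫ s in u₀..u, negY (a s) (g s))
        - (8 * ε + η) * (u - u₀)) ≤ 1 := by
      rw [Real.exp_le_one_iff]
      have h2 : 0 ≤ (2 * κ + 4) * ∫ s in u₀..u, negY (a s) (g s) := by positivity
      have h3 : 0 ≤ (8 * ε + η) * (u - u₀) := mul_nonneg (by linarith) (sub_nonneg.2 hu.1)
      linarith
    calc B u ≤ δ * 1 := mul_le_mul_of_nonneg_left h1 hδ0.le
      _ ≤ 1 / 2 := by rw [mul_one]; exact min_le_left _ _
  have hBd : ∀ u ∈ Ico u₀ u₁, HasDerivWithinAt B (B u * W' u) (Ici u) u := by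
    intro u hu
    have h1 := h.hasDeriv_intY hu
    have h2 : HasDerivWithinAt (fun v : ℝ => (8 * ε + η) * (v - u₀)) (8 * ε + η) (Ici u) u := by
      have := (((hasDerivAt_id u).sub_const u₀).const_mul (8 * ε + η)).hasDerivWithinAt (s := Ici u)
      simpa using this
    have h3 := ((h1.const_mul (2 * κ + 4)).neg.sub h2).exp.const_mul δ
    refine h3.congr_deriv ?_
    simp only [hB, hW', Pi.sub_apply, Pi.neg_apply]
    ring
  have hBc : ContinuousOn B (Icc u₀ u₁) := by
    have h1 := h.contW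
    rw [hB]
    refine ContinuousOn.mul continuousOn_const ?_
    refine Real.continuous_exp.comp_continuousOn ?_
    refine ContinuousOn.sub (ContinuousOn.neg (continuousOn_const.mul h1)) ?_
    exact (continuous_const.mul (continuous_id.sub continuous_const)).continuousOn
  have hnd : ∀ u ∈ Icc u₀ u₁, HasDerivAt (fun u => a u / H u)
      ((a' u * H u - a u * H' u) / H u ^ 2) u := fun u hu =>
    (h.da u hu).div (h.dH u hu) (h.Hpos u hu).ne'
  have hnd2 : ∀ u ∈ Icc u₀ u₁, HasDerivAt (fun u => g u / 2 / H u)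
      ((g' u / 2 * H u - g u / 2 * H' u) / H u ^ 2) u := fun u hu =>
    ((h.dg u hu).div_const 2).div (h.dH u hu) (h.Hpos u hu).ne'
  have hmax : ∀ u ∈ Icc u₀ u₁, max (a u / H u) (g u / 2 / H u) = max (a u) (g u / 2) / H u := by
    intro u hu
    exact (max_div_div_right (h.Hpos u hu).le _ _)
  have key := max_ge_of_deriv (f₁ := fun u => a u / H u) (f₂ := fun u => g u / 2 / H u)
    (B := B) (B' := fun u => B u * W' u) h01 hnd hnd2 hBc hBd ?_ ?_ ?_ u hu
  · rw [hmax u hu] at key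
    exact key
  · -- initial value
    rw [hmax u₀ hu₀, hB]
    simp only [integral_same, mul_zero, neg_zero, sub_self, Real.exp_zero, mul_one]
    exact min_le_right _ _
  · intro u hu hle heq
    have hu' : u ∈ Icc u₀ u₁ := ⟨hu.1, hu.2.le⟩
    have hH := h.Hpos u hu'
    have hg := h.gpos u hu'
    have hB2 := hBle u hu'
    have hB1 := hBpos u
    have e1 : a u = B u * H u := by rw [← heq]; field_simp
    have e2 : a u ≤ H u / 2 := by rw [e1]; nlinarith
    have e3 : g u / 2 ≤ a u := by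
      rwa [div_le_div_iff_of_pos_right hH] at hle
    have hgY : g u - a u ≤ g u * negY (a u) (g u) := by
      unfold negY
      have hx : 0 < a u / g u := by
        have : 0 < a u := by linarith
        positivity
      have h1 : 1 - a u / g u ≤ min 1 (max 0 (1 - a u / g u)) :=
        le_min (by linarith) (le_max_right _ _)
      calc g u - a u = g u * (1 - a u / g u) := by field_simp
        _ ≤ _ := by gcongr
    have halg := alg_freq_a hg e3 e2 (h.bnn u hu') (h.cs u hu') h.ε0 h.ε1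
      (negY_nonneg (a u) (g u)) hgY h.κ0 hη (h.eH u hu')
    rw [← h.ea u hu'] at halg
    rw [lt_div_iff₀ (by positivity)]
    calc B u * W' u * H u ^ 2 = (B u * H u) * H u * W' u := by ring
      _ = a u * H u * W' u := by rw [← e1]
      _ = -(a u * H u * ((2 * κ + 4) * negY (a u) (g u) + 8 * ε + η)) := by rw [hW']; ring
      _ < _ := halg
  · intro u hu hlt heq
    have hu' : u ∈ Icc u₀ u₁ := ⟨hu.1, hu.2.le⟩
    have hH := h.Hpos u hu'
    have hg := h.gpos u hu'
    have hB2 := hBle u hu'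
    have e1 : g u / 2 = B u * H u := by rw [← heq]; field_simp
    have e2 : g u ≤ H u := by nlinarith
    have e3 : a u < g u / 2 := by
      rwa [div_lt_div_iff_of_pos_right hH] at hlt
    have hY : 1 / 2 ≤ negY (a u) (g u) := by
      unfold negY
      refine le_min (by norm_num) ((le_max_right _ _).trans' ?_)
      have : a u / g u < 1 / 2 := by rw [div_lt_iff₀ hg]; linarith
      linarith
    have halg := alg_freq_g hg e2 h.ε0 h.ε1 hY h.κ0 hη (h.eg u hu') (h.eb u hu') (h.eH u hu')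
    rw [lt_div_iff₀ (by positivity)]
    calc B u * W' u * H u ^ 2 = (B u * H u) * H u * W' u := by ring
      _ = g u / 2 * H u * W' u := by rw [← e1]
      _ = -(g u * H u * ((2 * κ + 4) * negY (a u) (g u) + 8 * ε + η)) / 2 := by rw [hW']; ring
      _ < (g' u * H u - g u * H' u) / 2 := by linarith
      _ = _ := by ring

/-- **Growth of `A = max(a, g/2)` along the path** with frequency `≥ δ`. -/
theorem growth (h : PathSys κ ε a g H b a' g' H' u₀ u₁) (h01 : u₀ ≤ u₁) {δ : ℝ} (hδ0 : 0 ≤ δ)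
    (hδ1 : δ ≤ 1 / 2) (hn : ∀ u ∈ Icc u₀ u₁, δ * H u ≤ max (a u) (g u / 2)) {u : ℝ}
    (hu : u ∈ Icc u₀ u₁) :
    max (a u₀) (g u₀ / 2)
      * Real.exp (2 * δ * (u - u₀) - (2 * κ + 4) * ∫ s in u₀..u, negY (a s) (g s))
      ≤ max (a u) (g u / 2) := by
  have hu₀ : u₀ ∈ Icc u₀ u₁ := left_mem_Icc.2 h01
  set A₀ := max (a u₀) (g u₀ / 2) with hA₀
  have hA₀pos : 0 < A₀ :=
    lt_of_lt_of_le (by have := h.gpos u₀ hu₀; positivity) (le_max_right _ _)
  suffices hsuff : ∀ η > 0, A₀ * Real.exp ((2 * δ - η) * (u - u₀)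
      - (2 * κ + 4) * ∫ s in u₀..u, negY (a s) (g s)) ≤ max (a u) (g u / 2) by
    have hlim : Tendsto (fun η : ℝ => A₀ * Real.exp ((2 * δ - η) * (u - u₀)
        - (2 * κ + 4) * ∫ s in u₀..u, negY (a s) (g s))) (𝓝[>] 0)
        (𝓝 (A₀ * Real.exp ((2 * δ - 0) * (u - u₀)
          - (2 * κ + 4) * ∫ s in u₀..u, negY (a s) (g s)))) := by
      refine Tendsto.mono_left ?_ nhdsWithin_le_nhds
      have : Continuous (fun η : ℝ => A₀ * Real.exp ((2 * δ - η) * (u - u₀)
        - (2 * κ + 4) * ∫ s in u₀..u, negY (a s) (g s))) := by fun_prop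
      exact this.tendsto 0
    have := le_of_tendsto hlim (by
      filter_upwards [self_mem_nhdsWithin] with η hη using hsuff η hη)
    simpa using this
  intro η hη
  set B : ℝ → ℝ := fun u => A₀ * Real.exp ((2 * δ - η) * (u - u₀)
      - (2 * κ + 4) * ∫ s in u₀..u, negY (a s) (g s)) with hB
  set W' : ℝ → ℝ := fun u => (2 * δ - η) - (2 * κ + 4) * negY (a u) (g u) with hW'
  have hBpos : ∀ u, 0 < B u := fun u => by rw [hB]; positivity
  have hBd : ∀ u ∈ Ico u₀ u₁, HasDerivWithinAt B (B u * W' u) (Ici u) u := by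
    intro u hu
    have h1 := h.hasDeriv_intY hu
    have h2 : HasDerivWithinAt (fun v : ℝ => (2 * δ - η) * (v - u₀)) (2 * δ - η) (Ici u) u := by
      have := (((hasDerivAt_id u).sub_const u₀).const_mul (2 * δ - η)).hasDerivWithinAt (s := Ici u)
      simpa using this
    have h3 := (h2.sub (h1.const_mul (2 * κ + 4))).exp.const_mul A₀
    refine h3.congr_deriv ?_
    simp only [hB, hW', Pi.sub_apply, Pi.neg_apply]
    ring
  have hBc : ContinuousOn B (Icc u₀ u₁) := by
    have h1 := h.contW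
    rw [hB]
    refine ContinuousOn.mul continuousOn_const ?_
    refine Real.continuous_exp.comp_continuousOn ?_
    refine ContinuousOn.sub ?_ (continuousOn_const.mul h1)
    exact (continuous_const.mul (continuous_id.sub continuous_const)).continuousOn
  refine max_ge_of_deriv (f₁ := a) (f₂ := fun u => g u / 2) (d₁ := a')
    (d₂ := fun u => g' u / 2)
    (B := B) (B' := fun u => B u * W' u) h01 h.da (fun u hu => (h.dg u hu).div_const 2) hBc hBd
    ?_ ?_ ?_ u hu
  · rw [hB]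
    simp only [integral_same, mul_zero, sub_self, sub_zero, Real.exp_zero, mul_one]
    exact le_of_eq hA₀
  · intro u hu hle heq
    have hu' : u ∈ Icc u₀ u₁ := ⟨hu.1, hu.2.le⟩
    have hH := h.Hpos u hu'
    have hg := h.gpos u hu'
    have hn' := hn u hu'
    rw [max_eq_left hle] at hn'
    have ha : 0 < a u := by linarith
    have hb : g u ^ 2 / H u ≤ b u := by rw [div_le_iff₀ hH]; exact h.cs u hu'
    have hb2 : δ * g u ^ 2 / a u ≤ g u ^ 2 / H u := by
      rw [div_le_div_iff₀ ha hH]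
      calc δ * g u ^ 2 * H u = (δ * H u) * g u ^ 2 := by ring
        _ ≤ a u * g u ^ 2 := by gcongr
        _ = _ := by ring
    have hY0 := negY_nonneg (a u) (g u)
    rw [h.ea u hu', ← heq, hW']
    simp only
    set Y := negY (a u) (g u) with hYdef
    have hgY : g u - a u ≤ g u * Y := by
      rw [hYdef]
      unfold negY
      have hx : 0 < a u / g u := by positivity
      have h1 : 1 - a u / g u ≤ min 1 (max 0 (1 - a u / g u)) :=
        le_min (by linarith) (le_max_right _ _)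
      calc g u - a u = g u * (1 - a u / g u) := by field_simp
        _ ≤ _ := by gcongr
    have hκ := h.κ0
    -- `2 (a - g) + 2 δ g²/a + 4 a Y ≥ 2 δ a`
    have hmain : 2 * δ * a u ≤ 2 * (a u - g u) + 2 * (δ * g u ^ 2 / a u) + 4 * (a u * Y) := by
      by_cases hcase : g u ≤ a u
      · have h3 : δ * (a u - (a u - g u) * 2) ≤ δ * g u ^ 2 / a u := by
          rw [le_div_iff₀ ha]
          have : (a u - (a u - g u) * 2) * a u ≤ g u ^ 2 := by nlinarith [sq_nonneg (a u - g u)]
          nlinarith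
        have h4 : 0 ≤ a u * Y := by positivity
        nlinarith
      · have hcase' : a u < g u := not_le.1 hcase
        have h3 : δ * a u ≤ δ * g u ^ 2 / a u := by
          rw [le_div_iff₀ ha]
          have : a u * a u ≤ g u ^ 2 := by nlinarith
          nlinarith
        have h4 : g u * Y ≤ 2 * a u * Y := by
          have : g u ≤ 2 * a u := by linarith
          gcongr
        nlinarith
    have h5 : 0 ≤ κ * (a u * Y) := by positivity
    have h6 : 0 < a u * η := by positivity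
    nlinarith
  · intro u hu hlt heq
    have hu' : u ∈ Icc u₀ u₁ := ⟨hu.1, hu.2.le⟩
    have hg := h.gpos u hu'
    have hY : 1 / 2 ≤ negY (a u) (g u) := by
      unfold negY
      refine le_min (by norm_num) ((le_max_right _ _).trans' ?_)
      have : a u / g u < 1 / 2 := by rw [div_lt_iff₀ hg]; linarith
      linarith
    have hκ := h.κ0
    have hg' := h.eg u hu'
    rw [← heq, hW']
    simp only
    have h5 : (2 * κ + 4) * (1 / 2) ≤ (2 * κ + 4) * negY (a u) (g u) := by gcongr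
    have h6 : g u / 2 * (2 * δ - η - (2 * κ + 4) * negY (a u) (g u))
        ≤ g u / 2 * (1 - η - (κ + 2)) := by
      refine mul_le_mul_of_nonneg_left ?_ (by linarith)
      linarith
    have h7 : 0 < g u * η := by positivity
    nlinarith

end PathSys

end Vale.Agent.P214.R2
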