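import Mathlib

/-!
# P214, block R2-GEO: the radius function of a family of bad scales

`B y` is the set of bad scales at `y`, contained in `(0, τ₀]`.  The radius function
`rad B x = sup_{y, t ∈ B y} (t - 8 dist x y)^+` is `8`-Lipschitz and dominates the bad scales.
-/

open Set Metric

set_option linter.all false

namespace Vale.Agent.P214.R2

variable {X : Type*} [PseudoMetricSpace X]

/-- the radius function of a family of bad scales -/
noncomputable def rad (B : X → Set ℝ) (x : X) : ℝ :=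
  sSup (insert 0 {u | ∃ y, ∃ t ∈ B y, u = t - 8 * dist x y})

variable {B : X → Set ℝ} {τ₀ : ℝ}

lemma bddAbove_rad (hB : ∀ y, ∀ t ∈ B y, t ≤ τ₀) (x : X) :
    BddAbove (insert 0 {u | ∃ y, ∃ t ∈ B y, u = t - 8 * dist x y}) := by
  refine ⟨max 0 τ₀, ?_⟩
  rintro u (rfl | ⟨y, t, ht, rfl⟩)
  · exact le_max_left _ _
  · have := hB y t ht
    have h2 : 0 ≤ dist x y := dist_nonneg
    exact (by linarith : t - 8 * dist x y ≤ τ₀).trans (le_max_right _ _)

lemma rad_nonneg (hB : ∀ y, ∀ t ∈ B y, t ≤ τ₀) (x : X) : 0 ≤ rad B x :=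
  le_csSup (bddAbove_rad hB x) (mem_insert _ _)

lemma le_rad (hB : ∀ y, ∀ t ∈ B y, t ≤ τ₀) (x : X) {y : X} {t : ℝ} (ht : t ∈ B y) :
    t - 8 * dist x y ≤ rad B x :=
  le_csSup (bddAbove_rad hB x) (mem_insert_of_mem _ ⟨y, t, ht, rfl⟩)

lemma le_rad_self (hB : ∀ y, ∀ t ∈ B y, t ≤ τ₀) {x : X} {t : ℝ} (ht : t ∈ B x) : t ≤ rad B x := by
  have := le_rad hB x ht
  rwa [dist_self, mul_zero, sub_zero] at this

/-- scales above the radius function are not bad -/
lemma notMem_of_rad_lt (hB : ∀ y, ∀ t ∈ B y, t ≤ τ₀) {x y : X} {t : ℝ}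
    (h : rad B x + 8 * dist x y < t) : t ∉ B y := fun ht => by
  have := le_rad hB x ht
  linarith

lemma rad_le (h0 : 0 ≤ τ₀) (hB : ∀ y, ∀ t ∈ B y, t ≤ τ₀) (x : X) : rad B x ≤ τ₀ := by
  refine csSup_le (insert_nonempty _ _) ?_
  rintro u (rfl | ⟨y, t, ht, rfl⟩)
  · exact h0
  · have := hB y t ht
    have h2 : 0 ≤ dist x y := dist_nonneg
    linarith

lemma rad_le_add (hB : ∀ y, ∀ t ∈ B y, t ≤ τ₀) (x x' : X) :
    rad B x ≤ rad B x' + 8 * dist x x' := by
  refine csSup_le (insert_nonempty _ _) ?_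
  rintro u (rfl | ⟨y, t, ht, rfl⟩)
  · have h2 : 0 ≤ dist x x' := dist_nonneg
    have := rad_nonneg hB x'
    linarith
  · have h1 := le_rad hB x' ht
    have h2 : dist x' y ≤ dist x x' + dist x y := by
      rw [dist_comm x x']; exact dist_triangle _ _ _
    linarith

/-- the radius function is `8`-Lipschitz -/
theorem abs_rad_sub_le (hB : ∀ y, ∀ t ∈ B y, t ≤ τ₀) (x x' : X) :
    |rad B x - rad B x'| ≤ 8 * dist x x' := by
  rw [abs_le]
  have h1 := rad_le_add hB x x'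
  have h2 := rad_le_add hB x' x
  rw [dist_comm x' x] at h2
  constructor <;> linarith

theorem continuous_rad (hB : ∀ y, ∀ t ∈ B y, t ≤ τ₀) : Continuous (rad B) := by
  refine LipschitzWith.continuous (K := 8) (LipschitzWith.of_dist_le_mul fun x y => ?_)
  rw [Real.dist_eq]
  exact abs_rad_sub_le hB x y

/-- a pair `(y, t)` which nearly produces `rad B x` -/
theorem exists_near (hB : ∀ y, ∀ t ∈ B y, t ≤ τ₀) {x : X} {c : ℝ} (hc : c < 1)
    (hx : 0 < rad B x) : ∃ y, ∃ t ∈ B y, c * rad B x < t - 8 * dist x y := by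
  by_contra hcon
  push Not at hcon
  have h1 : rad B x ≤ max 0 (c * rad B x) := by
    refine csSup_le (insert_nonempty _ _) ?_
    rintro u (rfl | ⟨y, t, ht, rfl⟩)
    · exact le_max_left _ _
    · exact (hcon y t ht).trans (le_max_right _ _)
  rcases le_max_iff.1 h1 with h2 | h2
  · linarith
  · nlinarith

/-- the form used in the applications: `c = 7/8` -/
theorem exists_near' (hB : ∀ y, ∀ t ∈ B y, t ≤ τ₀) {x : X} (hx : 0 < rad B x) :
    ∃ y, ∃ t ∈ B y, 7 / 8 * rad B x < t - 8 * dist x y ∧ dist x y < t / 8 ∧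
      7 / 8 * rad B x < t ∧ t ≤ rad B x + 8 * dist x y ∧ 49 / 64 * rad B x < 7 / 8 * t := by
  obtain ⟨y, t, ht, h⟩ := exists_near hB (c := 7 / 8) (by norm_num) hx
  have h2 : 0 ≤ dist x y := dist_nonneg
  have h3 := le_rad hB x ht
  refine ⟨y, t, ht, h, ?_, ?_, ?_, ?_⟩ <;> linarith

/-- a small multiple of the radius function, cut off from below, is `1/8`-Lipschitz -/
theorem abs_max_rad_sub_le (hB : ∀ y, ∀ t ∈ B y, t ≤ τ₀) {δ : ℝ} (h0 : 0 ≤ δ)
    (hδ : δ ≤ 1 / 64) (R₀ : ℝ) (x x' : X) :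
    |max (δ * rad B x) R₀ - max (δ * rad B x') R₀| ≤ dist x x' / 8 := by
  refine (abs_max_sub_max_le_abs _ _ _).trans ?_
  rw [← mul_sub, abs_mul, abs_of_nonneg h0]
  have h1 := abs_rad_sub_le hB x x'
  have h2 : 0 ≤ dist x x' := dist_nonneg
  have h3 : δ * |rad B x - rad B x'| ≤ 1 / 64 * (8 * dist x x') := by
    gcongr
  linarith

end Vale.Agent.P214.R2
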