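import Vale.Agent.P214.R2.Final
import Vale.Agent.P214.CLS.ColMain

/-!
# P214: the flat rate lemma in dimension two, unconditionally
-/

open MeasureTheory

namespace Vale.Agent.P214.R2

open Vale.Agent.P214.Skel

/-- **The flat rate lemma in dimension two**, for every number of sheets. -/
theorem rateFlat_two_all (E : Type*) [NormedAddCommGroup E] [InnerProductSpace ℝ E]
    [FiniteDimensional ℝ E] [MeasurableSpace E] [BorelSpace E] (Q : ℕ) (hQ : 1 ≤ Q) :
    RateFlat E 2 Q :=
  rateFlat_two_of_col (CLS.colStmt E one_le_two) Q hQ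

end Vale.Agent.P214.R2
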