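import Vale.Agent.P214.R2.UCore
import Vale.Agent.P214.NGP.Link

/-!
# P214, block R2-U: (BB-U) of the assembly in dimension two
-/

open Set Filter Topology MeasureTheory Metric
open scoped RealInnerProductSpace ENNReal

set_option linter.all false

namespace Vale.Agent.P214.R2

open Vale.Agent.P214 Vale.Agent.P214.FV Vale.Agent.P214.ODE Vale.Agent.P214.TH
  Vale.Agent.P214.B4 Vale.Agent.P214.Skel

variable {E : Type*} [NormedAddCommGroup E] [InnerProductSpace ℝ E] [FiniteDimensional ℝ E]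
  [MeasurableSpace E] [BorelSpace E]
variable {Q : ℕ} {T : Submodule ℝ E} {h δ : ℝ} {ν : Measure E}
  {P : E → E →L[ℝ] E} {k k' K : ℝ → ℝ}

lemma HtIn.of_collapsed {x : E} (hx : x ∈ T) {s σ : ℝ} (hc : Collapsed T ν x s σ) :
    HtIn T ν x s σ := by
  obtain ⟨c, hc⟩ := hc
  refine ⟨co T c, ?_, ?_⟩
  · rw [co_eq]; exact Submodule.starProjection_apply_mem _ _
  · filter_upwards [hc] with y hy hys
    have h1 := hy (by rw [cy_eq_cylSet hx]; exact hys)
    have h2 : co T y - co T c = Tᗮ.starProjection (hgt T c y) := by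
      unfold hgt
      rw [map_sub, co_eq, Submodule.starProjection_eq_self_iff.2
        (Submodule.starProjection_apply_mem _ _)]
    rw [h2]
    calc ‖Tᗮ.starProjection (hgt T c y)‖ ≤ ‖Tᗮ.starProjection‖ * ‖hgt T c y‖ :=
          ContinuousLinearMap.le_opNorm _ _
      _ ≤ 1 * ‖hgt T c y‖ := by gcongr; exact Tᗮ.starProjection_norm_le
      _ ≤ σ := by rw [one_mul]; exact h1

/-- the split predicate of the cells -/
def SpD (cD : ℝ) (T : Submodule ℝ E) (ν : Measure E) (_P : E → E →L[ℝ] E) (x : E) (r : ℝ) :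
    Prop := Split 2 T ν x (64 * r) cD

/-- **(BB-U)** -/
theorem boxU (hk : Kern k k' K) (hk0 : ∀ s, s ≤ 1 / 4 → k s = 0) (h14 : 0 < K (1 / 4)) (Q : ℕ)
    (hTop : BoxTop E Q) : ∃ cD : ℝ, 0 < cD ∧ BoxU (E := E) (etaK K) (SpD cD) Q := by
  obtain ⟨cD, hcD, H⟩ := coreU (E := E) hk hk0 h14 Q
  refine ⟨cD, hcD, ?_⟩
  obtain ⟨C₂, ε₂, hC₂, hε₂, H₂⟩ := NGP.aK_le_of_boxTop (E := E) hk h14 hTop
  intro CH A B hA hB
  obtain ⟨Kp, ε, hKp, hε, H₁⟩ := H CH C₂ A (2 * B) (by linarith) (by linarith)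
  refine ⟨Kp, min 1 (min ε ε₂), hKp, by positivity, ?_⟩
  intro e T h ν P hc x₀ hx₀ hx₀n hns hnf x hx hxx s hs1 hs2
  have hle1 : min 1 (min ε ε₂) ≤ ε := (min_le_right _ _).trans (min_le_left _ _)
  have hle2 : min 1 (min ε ε₂) ≤ ε₂ := (min_le_right _ _).trans (min_le_right _ _)
  have hmass : ∀ ε', min 1 (min ε ε₂) ≤ ε' → Skel.IntCyl 2 Q T 0 2 h ε' ν P := fun ε' hε' =>
    { cyl := hc.ic.cyl
      mem := hc.ic.mem
      pos := hc.ic.pos
      int := hc.ic.int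
      mass := hc.ic.mass.trans (by gcongr) }
  obtain ⟨c₀, hc₀, hH⟩ := hc.hh
  obtain ⟨h01, hxt, hcon⟩ := H₁ T h ν P (Q * cK 2 T K) e c₀ (hmass ε hle1) hc.pos (hc.le.trans hle1) hc.exc_le
    hH (fun y hy t ht hyt => ((le_abs_self _).trans
      (H₂ T h ν P (hmass ε₂ hle2) (hc.exc_le.trans (hc.le.trans hle2)) y hy t ht hyt).1).trans
      (by have := hc.exc_le; gcongr))
    x₀ hx₀ hx₀n hns (fun hcol => hnf (HtIn.of_collapsed hx₀ hcol)) x hx hxx
  have hr0 := rb_pos' (Kp := Kp) hc.pos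
  have hlink := NGP.int_Yf_le (Q := Q) hc.ic.cyl hk h14 hx (s := s) (s₁ := 256 * rb Kp e)
    (t := 2 * tt A e) (lt_of_lt_of_le (by positivity) hs1) (by linarith) h01 (by linarith)
  linarith

end Vale.Agent.P214.R2
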