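import Vale.Agent.P214.B4.Two

/-!
# P214, block R2-U: the dichotomy at a cell which is not split

`dich_cell`: the dichotomy normalised by an energy `e₁`.
`tall_cell`: if the cell is neither split nor collapsed (diameter `σ`), then its energy `D` is at
least `c σ²/L`, and all heights are within `C (Λ D)^{1/2}` of each other.
-/

open Set Filter Topology MeasureTheory Metric
open scoped RealInnerProductSpace

set_option linter.all false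

namespace Vale.Agent.P214.R2

open Vale.Agent.P214.FV Vale.Agent.P214.ODE Vale.Agent.P214.TH Vale.Agent.P214.B4

variable {E : Type*} [NormedAddCommGroup E] [InnerProductSpace ℝ E] [FiniteDimensional ℝ E]
  [MeasurableSpace E] [BorelSpace E]

/-- all heights over `cy T ξ t` are within `σ` of one value -/
def Collapsed (T : Submodule ℝ E) (ν : Measure E) (ξ : E) (t σ : ℝ) : Prop :=
  ∃ c : E, ∀ᵐ y ∂ν, y ∈ cy T ξ t → ‖hgt T c y‖ ≤ σ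

/-- the dichotomy with constants `A₀, c, C`, in the normalised form -/
def DichC (E : Type*) [NormedAddCommGroup E] [InnerProductSpace ℝ E] [FiniteDimensional ℝ E]
    [MeasurableSpace E] [BorelSpace E] (a M A₀ c C : ℝ) : Prop :=
  ∀ {T : Submodule ℝ E} {G : Set E} {h : ℝ} {ν : Measure E} {P : E → E →L[ℝ] E} {ξ : E}
      {t Ld e₁ : ℝ}, CylStat 2 T G h ν P → BallIn T G ξ (10 * t) →
      (∀ᵐ y ∂ν, y ∈ cy T ξ (8 * t) → LDpt 2 a ν t y) → ν.real (cy T ξ (9 * t)) ≤ M * t ^ 2 →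
      0 < t → 1 ≤ Ld → 0 < e₁ → QP.Dex T P ν ξ (10 * t) ≤ e₁ → A₀ * Ld * e₁ ≤ t ^ 2 →
      t ^ 2 ≤ Real.exp (2 * Ld) * (A₀ * Ld * e₁) → ¬ Split 2 T ν ξ (8 * t) c →
      ∀ y₁ ∈ cy T ξ t, LDpt 2 a ν t y₁ →
        ∀ᵐ y ∂ν, y ∈ cy T ξ t → ‖hgt T (co T y₁) y‖ ^ 2 ≤ C * Ld * e₁

/-- one application of the dichotomy -/
lemma dich_cell {a M : ℝ} (ha : 0 < a) :
    ∃ A₀ c C : ℝ, 0 < A₀ ∧ 0 < c ∧ 0 < C ∧ DichC E a M A₀ c C := by
  obtain ⟨A₀, c, C, hA₀, hc, hC1, H⟩ := dich_two (E := E) (a := a) (M := M) ha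
  refine ⟨A₀, c, C ^ 2 * A₀, hA₀, hc, by positivity, ?_⟩
  intro T G h ν P ξ t Ld e₁ hC hG hLD hM ht hLd he hD h1 h2 hns y₁ hy₁ hy₁L
  have hpos : 0 < A₀ * Ld * e₁ := by positivity
  have hR : 0 < Real.sqrt (A₀ * Ld * e₁) := Real.sqrt_pos.2 hpos
  have hRsq : Real.sqrt (A₀ * Ld * e₁) ^ 2 = A₀ * Ld * e₁ := Real.sq_sqrt hpos.le
  have hRt : Real.sqrt (A₀ * Ld * e₁) ≤ t := by
    rw [Real.sqrt_le_left ht.le]; exact h1
  have hlog : Real.log (t / Real.sqrt (A₀ * Ld * e₁)) ≤ Ld := by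
    rw [Real.log_le_iff_le_exp (by positivity), div_le_iff₀ hR]
    have h3 : t ^ 2 ≤ (Real.exp Ld * Real.sqrt (A₀ * Ld * e₁)) ^ 2 := by
      rw [mul_pow, hRsq, ← Real.exp_nat_mul]
      exact_mod_cast h2
    exact le_of_sq_le_sq h3 (by positivity)
  rcases H hC hG hLD hM hR hRt hLd hlog (by rw [hRsq]; gcongr) with h3 | h3
  · filter_upwards [h3 y₁ hy₁ hy₁L] with y hy hyt
    have h4 := hy hyt
    calc ‖hgt T (co T y₁) y‖ ^ 2 ≤ (C * Real.sqrt (A₀ * Ld * e₁)) ^ 2 := by gcongr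
      _ = C ^ 2 * A₀ * Ld * e₁ := by rw [mul_pow, hRsq]; ring
  · exact absurd h3 hns

/-- **A tall cell which is not split**: the energy is large, and the heights are controlled by the
energy with the short logarithm `Λ`. -/
lemma tall_cell {a M A₀ c C : ℝ} (hA₀ : 0 < A₀) (hC0 : 0 < C) (HD : DichC E a M A₀ c C)
    {T : Submodule ℝ E} {G : Set E} {h : ℝ} {ν : Measure E} {P : E → E →L[ℝ] E} {ξ : E}
    {t E₀ L Λ σ : ℝ} {p : E → Prop} (hC : CylStat 2 T G h ν P) (hG : BallIn T G ξ (10 * t))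
    (hLD : ∀ᵐ y ∂ν, y ∈ cy T ξ (8 * t) → LDpt 2 a ν t y)
    (hp : ∀ᵐ y ∂ν, y ∈ cy T ξ (8 * t) → p y)
    (hM : ν.real (cy T ξ (9 * t)) ≤ M * t ^ 2) (ht : 0 < t) (hL : 1 ≤ L) (hΛ : 1 ≤ Λ)
    (hE0 : 0 < E₀) (hE1 : E₀ ≤ 1) (hσ : 0 < σ) (hDE : QP.Dex T P ν ξ (10 * t) ≤ E₀)
    (n1 : A₀ * (2 * L) * E₀ ≤ t ^ 2)
    (n2 : t ^ 2 ≤ Real.exp (2 * (2 * L)) * (A₀ * (2 * L) * E₀ ^ 4))
    (n3 : C * (2 * L) * E₀ ^ 4 < σ ^ 2)
    (n4 : A₀ * (2 * Λ) * E₀ ≤ t ^ 2)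
    (n5 : t ^ 2 ≤ Real.exp (2 * (2 * Λ)) * (A₀ * (2 * Λ) * (σ ^ 2 / (C * (2 * L)))))
    (hns : ¬ Split 2 T ν ξ (8 * t) c) (hnc : ¬ Collapsed T ν ξ t σ) :
    σ ^ 2 / (C * (2 * L)) ≤ QP.Dex T P ν ξ (10 * t) ∧
      ∃ y₁, y₁ ∈ cy T ξ t ∧ p y₁ ∧
        ∀ᵐ y ∂ν, y ∈ cy T ξ t →
          ‖hgt T (co T y₁) y‖ ^ 2 ≤ C * (2 * Λ) * QP.Dex T P ν ξ (10 * t) := by
  set D := QP.Dex T P ν ξ (10 * t) with hD
  have hD0 : 0 ≤ D := Dex_nonneg hC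
  have h4 : E₀ ^ 4 ≤ E₀ := by
    calc E₀ ^ 4 = E₀ * E₀ ^ 3 := by ring
      _ ≤ E₀ * 1 := by
        gcongr
        exact pow_le_one₀ hE0.le hE1
      _ = E₀ := mul_one _
  -- a point of the cell
  obtain ⟨y₁, ⟨hy₁L, hy₁p⟩, hy₁⟩ : ∃ y, (LDpt 2 a ν t y ∧ p y) ∧ y ∈ cy T ξ t := by
    by_contra hcon
    push Not at hcon
    apply hnc
    refine ⟨0, ?_⟩
    filter_upwards [hLD, hp] with y h1 h2 hy
    have hy8 : y ∈ cy T ξ (8 * t) := cy_mono (by linarith) hy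
    exact absurd hy (hcon y ⟨h1 hy8, h2 hy8⟩)
  -- first application
  have hmaxpos : 0 < max D (E₀ ^ 4) := lt_max_of_lt_right (by positivity)
  have hmaxle : max D (E₀ ^ 4) ≤ E₀ := max_le hDE h4
  have k1 := HD hC hG hLD hM ht (by linarith : (1:ℝ) ≤ 2 * L) hmaxpos (le_max_left _ _)
    (le_trans (by gcongr) n1) (le_trans n2 (by
      have : E₀ ^ 4 ≤ max D (E₀ ^ 4) := le_max_right _ _
      gcongr)) hns y₁ hy₁ hy₁L
  have hbig : σ ^ 2 < C * (2 * L) * max D (E₀ ^ 4) := by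
    by_contra hcon
    push Not at hcon
    apply hnc
    refine ⟨co T y₁, ?_⟩
    filter_upwards [k1] with y hy hyt
    exact le_of_sq_le_sq ((hy hyt).trans hcon) hσ.le
  have hDmax : max D (E₀ ^ 4) = D := by
    rcases max_choice D (E₀ ^ 4) with h1 | h1
    · exact h1
    · rw [h1] at hbig
      linarith
  rw [hDmax] at hbig
  have hDlow : σ ^ 2 / (C * (2 * L)) ≤ D := by
    rw [div_le_iff₀ (by positivity)]
    linarith
  have hDpos : 0 < D := lt_of_lt_of_le (by positivity) hDlow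
  refine ⟨hDlow, y₁, hy₁, hy₁p, ?_⟩
  exact HD hC hG hLD hM ht (by linarith : (1:ℝ) ≤ 2 * Λ) hDpos le_rfl
    (le_trans (by gcongr) n4) (le_trans n5 (by gcongr)) hns y₁ hy₁ hy₁L

end Vale.Agent.P214.R2
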